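import Mathlib

/-!
# Abstract form of the improved Crouzeix-Palencia estimate
-/

open scoped ComplexOrder
open ContinuousLinearMap

set_option linter.unusedSimpArgs false
set_option linter.deprecated false

noncomputable section

namespace Vale.Agent.helper3.CP

variable {X : Type*} [TopologicalSpace X] [CompactSpace X]
variable {H : Type*} [NormedAddCommGroup H] [InnerProductSpace ℂ H] [CompleteSpace H]

/-- Elementary discriminant lemma. -/
lemma cs_generic (a b : ℝ) (c : ℂ)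
    (h : ∀ l : ℂ, 0 ≤ ‖l‖ ^ 2 * a + 2 * (l * c).re + b) : ‖c‖ ^ 2 ≤ a * b := by
  have hb : 0 ≤ b := by simpa using h 0
  have hc2 : ∀ s : ℝ, 0 ≤ s ^ 2 * ‖c‖ ^ 2 * a - 2 * s * ‖c‖ ^ 2 + b := by
    intro s
    have := h (-(s : ℂ) * (starRingEnd ℂ) c)
    have h1 : ‖(-(s : ℂ) * (starRingEnd ℂ) c)‖ ^ 2 = s ^ 2 * ‖c‖ ^ 2 := by
      rw [norm_mul, norm_neg, Complex.norm_conj, Complex.norm_real, mul_pow, Real.norm_eq_abs,
        sq_abs]
    have h2 : ((-(s : ℂ) * (starRingEnd ℂ) c) * c).re = - s * ‖c‖ ^ 2 := by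
      have : (-(s : ℂ) * (starRingEnd ℂ) c) * c = ((- s * ‖c‖ ^ 2 : ℝ) : ℂ) := by
        have h3 : (starRingEnd ℂ) c * c = ((‖c‖ ^ 2 : ℝ) : ℂ) := by
          rw [mul_comm, Complex.mul_conj, Complex.normSq_eq_norm_sq]
        push_cast at h3 ⊢
        rw [mul_assoc, h3]
      rw [this, Complex.ofReal_re]
    rw [h1, h2] at this
    nlinarith [this]
  have ha : 0 ≤ a := by
    by_contra hneg
    push Not at hneg
    have h1 := h (((1 + (b + 1) / (-a) : ℝ)) : ℂ)
    have h2 := h ((-(1 + (b + 1) / (-a) : ℝ) : ℝ) : ℂ)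
    set s : ℝ := 1 + (b + 1) / (-a) with hs
    have hs1 : 1 ≤ s := by
      have : 0 ≤ (b + 1) / (-a) := div_nonneg (by linarith) (by linarith)
      linarith
    have h3 : ‖((s : ℝ) : ℂ)‖ ^ 2 = s ^ 2 := by
      rw [Complex.norm_real, Real.norm_eq_abs, sq_abs]
    have h4 : ‖((-s : ℝ) : ℂ)‖ ^ 2 = s ^ 2 := by
      rw [Complex.norm_real, Real.norm_eq_abs, sq_abs]; ring
    rw [h3] at h1
    rw [h4] at h2
    have h5 : (((s : ℝ) : ℂ) * c).re = s * c.re := by simp
    have h6 : (((-s : ℝ) : ℂ) * c).re = - s * c.re := by simp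
    rw [h5] at h1
    rw [h6] at h2
    have h7 : 0 ≤ s ^ 2 * a + b := by nlinarith
    have hne : -a ≠ 0 := by linarith
    have h8 : (s * (-a)) = (-a) + (b + 1) := by
      rw [hs, add_mul, div_mul_cancel₀ _ hne]; ring
    have h9 : s ^ 2 * a ≤ s * a := by nlinarith
    nlinarith
  rcases ha.eq_or_lt with ha0 | hapos
  · have hc0 : ‖c‖ ^ 2 ≤ 0 := by
      by_contra hpos
      push Not at hpos
      have := hc2 ((b + 1) / (2 * ‖c‖ ^ 2))
      rw [← ha0] at this
      have h3 : 2 * ((b + 1) / (2 * ‖c‖ ^ 2)) * ‖c‖ ^ 2 = b + 1 := by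
        generalize ‖c‖ ^ 2 = X at hpos
        have hX : X ≠ 0 := hpos.ne'
        field_simp
      nlinarith
    rw [← ha0]; simpa using hc0
  · have := hc2 (1 / a)
    have h3 : (1 / a) ^ 2 * ‖c‖ ^ 2 * a = ‖c‖ ^ 2 / a := by
      field_simp
    have h4 : 2 * (1 / a) * ‖c‖ ^ 2 = 2 * (‖c‖ ^ 2 / a) := by ring
    rw [h3, h4] at this
    have h5 : ‖c‖ ^ 2 / a ≤ b := by linarith
    rw [div_le_iff₀ hapos] at h5
    linarith

/-- If `d ^ 2 ≤ 4 b` then `d ≤ τ + b / τ`. -/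
lemma le_add_div_of_sq_le (d b τ : ℝ) (hτ : 0 < τ) (hb : 0 ≤ b) (h : d ^ 2 ≤ 4 * b) :
    d ≤ τ + b / τ := by
  have h1 : 0 ≤ τ + b / τ := by positivity
  have h2 : (τ + b / τ) ^ 2 = (τ - b / τ) ^ 2 + 4 * b := by
    field_simp; ring
  have h3 : d ^ 2 ≤ (τ + b / τ) ^ 2 := by
    rw [h2]; nlinarith [sq_nonneg (τ - b / τ)]
  exact le_of_sq_le_sq_aux d (τ + b / τ) h1 h3
where
  le_of_sq_le_sq_aux (a b : ℝ) (hb : 0 ≤ b) (h : a ^ 2 ≤ b ^ 2) : a ≤ b := by
    nlinarith [sq_nonneg (a - b), sq_nonneg (a + b), abs_le_of_sq_le_sq' h hb]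

section functional

variable (Λ : C(X, ℂ) →L[ℂ] ℂ)

/-- The key estimate for an almost state. -/
lemma norm_apply_le_re (hΛ : ‖Λ‖ ≤ 1) (W v : C(X, ℂ)) (V : ℝ) (hV : 0 ≤ V)
    (hvim : ∀ x, (v x).im = 0) (hWv : ∀ x, ‖W x‖ ≤ (v x).re) (hvV : ∀ x, (v x).re ≤ V) :
    ‖Λ W‖ ≤ (Λ v).re + V * (1 - (Λ 1).re) := by
  obtain ⟨c, hc1, hc2⟩ := Complex.exists_norm_eq_mul_self (Λ W)
  set u : C(X, ℂ) := (V : ℂ) • 1 - v + c • W with hu
  have hu_norm : ‖u‖ ≤ V := by
    rw [ContinuousMap.norm_le _ hV]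
    intro x
    have hvx : v x = (((v x).re : ℝ) : ℂ) := by
      apply Complex.ext <;> simp [hvim x]
    have h1 : u x = ((V - (v x).re : ℝ) : ℂ) + c * W x := by
      simp only [hu, ContinuousMap.add_apply, ContinuousMap.sub_apply, ContinuousMap.smul_apply,
        ContinuousMap.one_apply, smul_eq_mul, mul_one]
      rw [hvx]
      simp
    rw [h1]
    calc ‖((V - (v x).re : ℝ) : ℂ) + c * W x‖
        ≤ ‖((V - (v x).re : ℝ) : ℂ)‖ + ‖c * W x‖ := norm_add_le _ _
      _ = (V - (v x).re) + ‖W x‖ := by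
          rw [Complex.norm_real, Real.norm_eq_abs, abs_of_nonneg (by linarith [hvV x]), norm_mul,
            hc1, one_mul]
      _ ≤ V := by linarith [hWv x]
  have h2 : ‖Λ u‖ ≤ V := by
    calc ‖Λ u‖ ≤ ‖Λ‖ * ‖u‖ := Λ.le_opNorm u
      _ ≤ 1 * V := by gcongr
      _ = V := one_mul V
  have h3 : Λ u = (V : ℂ) * Λ 1 - Λ v + (‖Λ W‖ : ℂ) := by
    rw [hc2]
    simp [hu, map_add, map_sub, map_smul]
  have h4 : (Λ u).re ≤ V := le_trans (Complex.re_le_norm _) h2
  rw [h3] at h4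
  simp only [Complex.add_re, Complex.sub_re, Complex.mul_re, Complex.ofReal_re, Complex.ofReal_im,
    zero_mul, sub_zero] at h4
  linarith

/-- Imaginary parts of an almost state on real functions are small. -/
lemma abs_im_apply_le (hΛ : ‖Λ‖ ≤ 1) (hΛ1 : (Λ 1).im = 0) (κ : ℝ) (hκ : 0 ≤ κ)
    (hκ1 : κ ≤ 1)
    (hε : 1 - (Λ 1).re ≤ κ ^ 2) (hε0 : 0 ≤ 1 - (Λ 1).re)
    (ω : C(X, ℂ)) (hωim : ∀ x, (ω x).im = 0) (hω : ∀ x, ‖ω x‖ ≤ 1) :
    |(Λ ω).im| ≤ 4 * κ := by
  set v : C(X, ℂ) := (1 / 2 : ℂ) • (1 + ω) with hv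
  have hvx : ∀ x, v x = (((1 + (ω x).re) / 2 : ℝ) : ℂ) := by
    intro x
    apply Complex.ext
    · simp [hv]; ring
    · simp [hv, hωim x]
  have hre : ∀ x, |(ω x).re| ≤ 1 := fun x => le_trans (Complex.abs_re_le_norm _) (hω x)
  have h1 := norm_apply_le_re Λ hΛ v v 1 zero_le_one
    (fun x => by rw [hvx]; simp)
    (fun x => by
      rw [hvx, Complex.ofReal_re, Complex.norm_real, Real.norm_eq_abs, abs_of_nonneg]
      have := (abs_le.mp (hre x)).1
      linarith)
    (fun x => by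
      rw [hvx, Complex.ofReal_re]
      have := (abs_le.mp (hre x)).2
      linarith)
  set ε := 1 - (Λ 1).re with hεdef
  have hvn : ‖v‖ ≤ 1 := by
    rw [ContinuousMap.norm_le _ zero_le_one]
    intro x
    rw [hvx, Complex.norm_real, Real.norm_eq_abs, abs_le]
    have h3 := abs_le.mp (hre x)
    constructor <;> linarith [h3.1, h3.2]
  have h2 : ‖Λ v‖ ≤ 1 := by
    calc ‖Λ v‖ ≤ ‖Λ‖ * ‖v‖ := Λ.le_opNorm v
      _ ≤ 1 * 1 := by gcongr
      _ = 1 := one_mul 1
  have h3 : (Λ v).re ≤ 1 := le_trans (Complex.re_le_norm _) h2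
  have h4 : (Λ v).im ^ 2 ≤ 3 * κ ^ 2 := by
    have h5 : (Λ v).re ^ 2 + (Λ v).im ^ 2 = ‖Λ v‖ ^ 2 := by
      rw [← Complex.normSq_eq_norm_sq, Complex.normSq_apply]; ring
    have h6 : ‖Λ v‖ ^ 2 ≤ ((Λ v).re + 1 * ε) ^ 2 :=
      pow_le_pow_left₀ (norm_nonneg _) h1 2
    have hε1 : ε ≤ 1 := by nlinarith
    nlinarith
  have h5 : Λ ω = 2 * Λ v - Λ 1 := by
    have : ω = (2 : ℂ) • v - 1 := by
      rw [hv, smul_smul]
      norm_num
    rw [this]
    simp only [map_sub, map_smul, smul_eq_mul]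
  have h6 : (Λ ω).im = 2 * (Λ v).im := by
    rw [h5]
    simp [hΛ1]
  rw [h6, abs_mul, abs_of_pos (by norm_num : (0:ℝ) < 2)]
  have h7 : |(Λ v).im| ≤ 2 * κ := by
    apply abs_le_of_sq_le_sq' _ (by positivity) |> abs_le.mpr
    nlinarith
  linarith

/-- A functional of norm at most one is small on functions dominated by `1 - |f|^2` when it is
nearly one at `f`. -/
lemma norm_apply_le_of_le_one_sub (n : C(X, ℂ) →L[ℂ] ℂ) (hn : ‖n‖ ≤ 1) (f w : C(X, ℂ))
    (hf : ‖f‖ ≤ 1) (hw : ∀ x, ‖w x‖ ≤ 1 - ‖f x‖ ^ 2) :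
    ‖n w‖ ≤ 2 * (1 - (n f).re) := by
  obtain ⟨c, hc1, hc2⟩ := Complex.exists_norm_eq_mul_self (n w)
  set u : C(X, ℂ) := f + ((c / 2 : ℂ)) • w with hu
  have hfx : ∀ x, ‖f x‖ ≤ 1 := fun x => le_trans (f.norm_coe_le_norm x) hf
  have hu_norm : ‖u‖ ≤ 1 := by
    rw [ContinuousMap.norm_le _ zero_le_one]
    intro x
    have h1 : u x = f x + (c / 2) * w x := by simp [hu]
    rw [h1]
    calc ‖f x + (c / 2) * w x‖ ≤ ‖f x‖ + ‖(c / 2) * w x‖ := norm_add_le _ _
      _ = ‖f x‖ + ‖w x‖ / 2 := by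
          rw [norm_mul, norm_div, hc1]; simp; ring
      _ ≤ 1 := by nlinarith [hw x, hfx x, norm_nonneg (f x), sq_nonneg (1 - ‖f x‖)]
  have h2 : ‖n u‖ ≤ 1 := by
    calc ‖n u‖ ≤ ‖n‖ * ‖u‖ := n.le_opNorm u
      _ ≤ 1 * 1 := by gcongr
      _ = 1 := one_mul 1
  have h3 : n u = n f + ((‖n w‖ / 2 : ℝ) : ℂ) := by
    simp only [hu, map_add, map_smul, smul_eq_mul]
    congr 1
    have : (c / 2) * n w = (c * n w) / 2 := by ring
    rw [this, ← hc2]
    push_cast
    ring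
  have h4 : (n u).re ≤ 1 := le_trans (Complex.re_le_norm _) h2
  rw [h3] at h4
  simp only [Complex.add_re, Complex.ofReal_re] at h4
  linarith

end functional

section posFun

variable (E : C(X, ℂ) →ₗ[ℂ] ℂ) (hstar : ∀ u, E (star u) = (starRingEnd ℂ) (E u))
  (hpos : ∀ v : C(X, ℂ), (∀ t, 0 ≤ v t) → 0 ≤ (E v).re)

include hstar hpos

/-- Positive functionals: domination. -/
lemma posFun_norm_le (u v : C(X, ℂ)) (hvim : ∀ t, (v t).im = 0) (huv : ∀ t, ‖u t‖ ≤ (v t).re) :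
    ‖E u‖ ≤ (E v).re := by
  obtain ⟨c, hc1, hc2⟩ := Complex.exists_norm_eq_mul_self (E u)
  set w : C(X, ℂ) := v - (1 / 2 : ℂ) • (c • u + star (c • u)) with hw
  have hwx : ∀ t, w t = (((v t).re - (c * u t).re : ℝ) : ℂ) := by
    intro t
    apply Complex.ext
    · simp [hw, Complex.add_re]
      ring
    · simp [hw, hvim t, Complex.add_im]
      ring
  have h0 : 0 ≤ (E w).re := by
    apply hpos
    intro t
    rw [hwx]
    have : (c * u t).re ≤ ‖u t‖ := by
      refine le_trans (Complex.re_le_norm _) ?_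
      rw [norm_mul, hc1, one_mul]
    have h2 : 0 ≤ (v t).re - (c * u t).re := by linarith [huv t]
    exact_mod_cast h2
  have h1 : E w = E v - (1 / 2 : ℂ) * (c * E u + (starRingEnd ℂ) (c * E u)) := by
    simp only [hw, map_sub, map_smul, map_add, smul_eq_mul, hstar]
  rw [h1, ← hc2] at h0
  simp at h0
  linarith

/-- Positive functionals: Cauchy-Schwarz. -/
lemma posFun_cs (p q : C(X, ℂ)) :
    ‖E (star p * q)‖ ^ 2 ≤ (E (star p * p)).re * (E (star q * q)).re := by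
  have h := cs_generic (E (star p * p)).re (E (star q * q)).re
    ((starRingEnd ℂ) (E (star p * q))) ?_
  · rwa [Complex.norm_conj] at h
  intro l
  have hnn := hpos (star (l • p + q) * (l • p + q)) (fun t => by
    simp only [ContinuousMap.mul_apply, ContinuousMap.star_apply]
    exact star_mul_self_nonneg _)
  have hexp : star (l • p + q) * (l • p + q)
      = ((‖l‖ ^ 2 : ℝ) : ℂ) • (star p * p) + ((starRingEnd ℂ) l) • (star p * q)
        + l • star (star p * q) + star q * q := by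
    ext t
    simp only [ContinuousMap.mul_apply, ContinuousMap.star_apply, ContinuousMap.add_apply,
      ContinuousMap.smul_apply, smul_eq_mul, star_add, star_smul, star_mul', star_star]
    have : ((‖l‖ ^ 2 : ℝ) : ℂ) = (starRingEnd ℂ) l * l := by
      rw [mul_comm, Complex.mul_conj, Complex.normSq_eq_norm_sq]
    rw [this]
    simp only [Complex.star_def]
    ring
  rw [hexp] at hnn
  simp only [map_add, map_smul, smul_eq_mul, hstar] at hnn
  simp only [Complex.add_re, Complex.mul_re, Complex.ofReal_re, Complex.ofReal_im, zero_mul,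
    sub_zero, Complex.conj_re, Complex.conj_im] at hnn ⊢
  nlinarith [hnn]

end posFun

/-- The data of the abstract theorem. -/
structure AbsData (X : Type*) [TopologicalSpace X] [CompactSpace X]
    (H : Type*) [NormedAddCommGroup H] [InnerProductSpace ℂ H] [CompleteSpace H] where
  /-- the Cauchy functional calculus -/
  T : C(X, ℂ) →L[ℂ] (H →L[ℂ] H)
  /-- the algebra of boundary values of analytic functions -/
  𝒜 : Subalgebra ℂ C(X, ℂ)
  /-- the Neumann operator -/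
  Kb : C(X, ℂ) →L[ℂ] C(X, ℂ)
  T_one : T 1 = 1
  T_mul : ∀ u ∈ 𝒜, ∀ v ∈ 𝒜, T (u * v) = T u * T v
  Kb_one : Kb 1 = 1
  Kb_nonneg : ∀ u : C(X, ℂ), (∀ x, 0 ≤ u x) → ∀ z, 0 ≤ Kb u z
  Kb_star : ∀ u, Kb (star u) = star (Kb u)
  alpha_mem : ∀ h ∈ 𝒜, Kb (star h) ∈ 𝒜
  T_star : ∀ h ∈ 𝒜, T (star h) = T (Kb (star h))
  /-- positivity of `S u = T u + (T (star u))^*` on one vector -/
  S_nonneg : ∀ v : C(X, ℂ), (∀ t, 0 ≤ v t) → ∀ x : H,
    0 ≤ (inner ℂ x ((T v + adjoint (T (star v))) x)).re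
  /-- positivity of `S` on two vectors -/
  S_pos : ∀ (p q : C(X, ℂ)) (x y : H),
    0 ≤ (inner ℂ x ((T (star p * p) + adjoint (T (star (star p * p)))) x)).re
      + 2 * (inner ℂ y ((T (star q * p) + adjoint (T (star (star q * p)))) x)).re
      + (inner ℂ y ((T (star q * q) + adjoint (T (star (star q * q)))) y)).re

namespace AbsData

variable (D : AbsData X H)

/-- The double layer map. -/
def S (u : C(X, ℂ)) : H →L[ℂ] H := D.T u + adjoint (D.T (star u))

lemma S_star (u : C(X, ℂ)) : D.S (star u) = adjoint (D.S u) := by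
  simp [S, add_comm]

lemma S_one : D.S 1 = (2 : ℂ) • (1 : H →L[ℂ] H) := by
  have h : adjoint (1 : H →L[ℂ] H) = 1 := by
    ext x
    apply ext_inner_left ℂ
    intro y
    simp [adjoint_inner_right]
  simp only [S, star_one, D.T_one, h, two_smul]

lemma S_add (u v : C(X, ℂ)) : D.S (u + v) = D.S u + D.S v := by
  simp only [S, star_add, map_add]
  abel

lemma S_smul (c : ℂ) (u : C(X, ℂ)) : D.S (c • u) = c • D.S u := by
  simp only [S, star_smul, map_smul, smul_add, LinearIsometryEquiv.map_smulₛₗ]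
  simp

/-- Matrix coefficients of the double layer map. -/
def form (x y : H) : C(X, ℂ) →ₗ[ℂ] ℂ where
  toFun u := inner ℂ y (D.S u x)
  map_add' u v := by simp [S_add, inner_add_right]
  map_smul' c u := by simp [S_smul, inner_smul_right]

lemma form_apply (x y : H) (u : C(X, ℂ)) : D.form x y u = inner ℂ y (D.S u x) := rfl

lemma form_star (x y : H) (u : C(X, ℂ)) :
    D.form x y (star u) = (starRingEnd ℂ) (D.form y x u) := by
  simp only [form_apply, S_star, adjoint_inner_right]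
  rw [inner_conj_symm]

lemma form_nonneg (x : H) (v : C(X, ℂ)) (hv : ∀ t, 0 ≤ v t) : 0 ≤ (D.form x x v).re :=
  D.S_nonneg v hv x

lemma form_pos (p q : C(X, ℂ)) (x y : H) :
    0 ≤ (D.form x x (star p * p)).re + 2 * (D.form x y (star q * p)).re
      + (D.form y y (star q * q)).re := D.S_pos p q x y

lemma form_one (y : H) (hy : ‖y‖ = 1) : D.form y y 1 = 2 := by
  rw [form_apply, S_one]
  simp only [ContinuousLinearMap.smul_apply, ContinuousLinearMap.one_apply, inner_smul_right,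
    inner_self_eq_norm_sq_to_K, hy]
  simp

lemma posFun_form (x : H) (u v : C(X, ℂ)) (hvim : ∀ t, (v t).im = 0)
    (huv : ∀ t, ‖u t‖ ≤ (v t).re) : ‖D.form x x u‖ ≤ (D.form x x v).re :=
  posFun_norm_le (D.form x x) (fun u => D.form_star x x u) (fun v hv => D.form_nonneg x v hv)
    u v hvim huv

lemma re_form_star_mul_self_le (x : H) (hx : ‖x‖ = 1) (u : C(X, ℂ)) (hu : ‖u‖ ≤ 1) :
    (D.form x x (star u * u)).re ≤ 2 := by
  have h := D.posFun_form x (star u * u) 1 (fun t => by simp) (fun t => by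
    have h1 : ‖u t‖ ≤ 1 := le_trans (u.norm_coe_le_norm t) hu
    simp only [ContinuousMap.mul_apply, ContinuousMap.star_apply, ContinuousMap.one_apply,
      norm_mul, norm_star, Complex.one_re]
    nlinarith [norm_nonneg (u t)])
  rw [D.form_one x hx] at h
  simp only [Complex.re_ofNat] at h
  exact le_trans (Complex.re_le_norm _) h

/-- The defect of `(f, -1)`. -/
def B0 (x y : H) (f : C(X, ℂ)) : ℝ :=
  (D.form x x (star f * f)).re - 2 * (D.form x y f).re + (D.form y y 1).re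

lemma B0_nonneg (x y : H) (f : C(X, ℂ)) : 0 ≤ D.B0 x y f := by
  have h := D.form_pos f (-1) x y
  have h1 : star (-1 : C(X, ℂ)) * f = - f := by simp
  have h2 : star (-1 : C(X, ℂ)) * (-1) = 1 := by simp
  rw [h1, h2, show (- f) = (-1 : ℂ) • f by simp, map_smul] at h
  simp only [smul_eq_mul, neg_mul, one_mul, Complex.neg_re] at h
  unfold B0
  linarith

lemma cs_x (x y : H) (f u : C(X, ℂ)) :
    ‖D.form x x (u * star f) - D.form x y u‖ ^ 2
      ≤ (D.form x x (star u * u)).re * D.B0 x y f := by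
  apply cs_generic
  intro l
  have h := D.form_pos (l • u + f) (-1) x y
  have h1 : star (-1 : C(X, ℂ)) * (l • u + f) = (-l) • u + (-1 : ℂ) • f := by
    ext t; simp; ring
  have h2 : star (-1 : C(X, ℂ)) * (-1) = 1 := by simp
  have h3 : star (l • u + f) * (l • u + f)
      = ((‖l‖ ^ 2 : ℝ) : ℂ) • (star u * u) + ((starRingEnd ℂ) l) • star (u * star f)
        + l • (u * star f) + star f * f := by
    ext t
    simp only [ContinuousMap.mul_apply, ContinuousMap.star_apply, ContinuousMap.add_apply,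
      ContinuousMap.smul_apply, smul_eq_mul, star_add, star_smul, star_mul', star_star]
    have : ((‖l‖ ^ 2 : ℝ) : ℂ) = (starRingEnd ℂ) l * l := by
      rw [mul_comm, Complex.mul_conj, Complex.normSq_eq_norm_sq]
    rw [this]
    simp only [Complex.star_def]
    ring
  rw [h1, h2, h3] at h
  simp only [map_add, map_smul, smul_eq_mul, D.form_star] at h
  simp only [Complex.add_re, Complex.mul_re, Complex.ofReal_re, Complex.ofReal_im, zero_mul,
    sub_zero, Complex.conj_re, Complex.conj_im, Complex.neg_re, Complex.neg_im, Complex.one_re,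
    Complex.one_im, one_mul, Complex.sub_re, Complex.sub_im, mul_sub] at h ⊢
  unfold B0
  nlinarith [h]

lemma cs_y (x y : H) (f v : C(X, ℂ)) :
    ‖D.form x y (f * v) - D.form y y v‖ ^ 2
      ≤ (D.form y y (star v * v)).re * D.B0 x y f := by
  apply cs_generic
  intro l
  have h := D.form_pos f ((-1 : C(X, ℂ)) + ((starRingEnd ℂ) l) • star v) x y
  have h1 : star ((-1 : C(X, ℂ)) + ((starRingEnd ℂ) l) • star v) * f
      = (-1 : ℂ) • f + l • (f * v) := by
    ext t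
    simp only [ContinuousMap.mul_apply, ContinuousMap.star_apply, ContinuousMap.add_apply,
      ContinuousMap.smul_apply, smul_eq_mul, star_add, star_smul, star_mul', star_star,
      ContinuousMap.neg_apply, ContinuousMap.one_apply, star_neg, star_one]
    simp only [Complex.star_def, Complex.conj_conj]
    ring
  have h2 : star ((-1 : C(X, ℂ)) + ((starRingEnd ℂ) l) • star v)
        * ((-1 : C(X, ℂ)) + ((starRingEnd ℂ) l) • star v)
      = (1 : C(X, ℂ)) + (-l) • v + (-(starRingEnd ℂ) l) • star v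
        + ((‖l‖ ^ 2 : ℝ) : ℂ) • (star v * v) := by
    ext t
    simp only [ContinuousMap.mul_apply, ContinuousMap.star_apply, ContinuousMap.add_apply,
      ContinuousMap.smul_apply, smul_eq_mul, star_add, star_smul, star_mul', star_star,
      ContinuousMap.neg_apply, ContinuousMap.one_apply, star_neg, star_one]
    have : ((‖l‖ ^ 2 : ℝ) : ℂ) = (starRingEnd ℂ) l * l := by
      rw [mul_comm, Complex.mul_conj, Complex.normSq_eq_norm_sq]
    rw [this]
    simp only [Complex.star_def, Complex.conj_conj]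
    ring
  rw [h1, h2] at h
  simp only [map_add, map_smul, smul_eq_mul, D.form_star] at h
  simp only [Complex.add_re, Complex.mul_re, Complex.ofReal_re, Complex.ofReal_im, zero_mul,
    sub_zero, Complex.conj_re, Complex.conj_im, Complex.neg_re, Complex.neg_im, Complex.one_re,
    Complex.one_im, one_mul, Complex.sub_re, Complex.sub_im, mul_sub] at h ⊢
  unfold B0
  nlinarith [h]

/-- The state `u ↦ (Kb u) z`. -/
def st (z : X) : C(X, ℂ) →ₗ[ℂ] ℂ where
  toFun u := D.Kb u z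
  map_add' u v := by simp
  map_smul' c u := by simp

lemma st_apply (z : X) (u : C(X, ℂ)) : D.st z u = D.Kb u z := rfl

lemma st_star (z : X) (u : C(X, ℂ)) : D.st z (star u) = (starRingEnd ℂ) (D.st z u) := by
  simp [st_apply, D.Kb_star]

lemma st_nonneg (z : X) (v : C(X, ℂ)) (hv : ∀ t, 0 ≤ v t) : 0 ≤ (D.st z v).re := by
  have := D.Kb_nonneg v hv z
  exact (Complex.le_def.mp this).1

lemma st_one (z : X) : D.st z 1 = 1 := by simp [st_apply, D.Kb_one]

lemma posFun_st (z : X) (u v : C(X, ℂ)) (hvim : ∀ t, (v t).im = 0)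
    (huv : ∀ t, ‖u t‖ ≤ (v t).re) : ‖D.st z u‖ ≤ (D.st z v).re :=
  posFun_norm_le (D.st z) (fun u => D.st_star z u) (fun v hv => D.st_nonneg z v hv) u v hvim huv

lemma re_st_star_mul_self_le (z : X) (u : C(X, ℂ)) (hu : ‖u‖ ≤ 1) :
    (D.st z (star u * u)).re ≤ 1 := by
  have h := D.posFun_st z (star u * u) 1 (fun t => by simp) (fun t => by
    have h1 : ‖u t‖ ≤ 1 := le_trans (u.norm_coe_le_norm t) hu
    simp only [ContinuousMap.mul_apply, ContinuousMap.star_apply, ContinuousMap.one_apply,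
      norm_mul, norm_star, Complex.one_re]
    nlinarith [norm_nonneg (u t)])
  rw [D.st_one z] at h
  simp only [Complex.one_re] at h
  exact le_trans (Complex.re_le_norm _) h

/-- The Neumann operator is a contraction. -/
lemma norm_Kb_le (u : C(X, ℂ)) : ‖D.Kb u‖ ≤ ‖u‖ := by
  rw [ContinuousMap.norm_le _ (norm_nonneg u)]
  intro z
  have h := D.posFun_st z u (((‖u‖ : ℝ) : ℂ) • 1) (fun t => by simp) (fun t => by
    simpa using u.norm_coe_le_norm t)
  rw [map_smul, D.st_one z] at h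
  have h2 : ‖D.Kb u z‖ ≤ ‖u‖ := by
    have h3 : ‖D.st z u‖ ≤ ‖u‖ := by simpa using h
    exact h3
  exact h2

/-- Cauchy-Schwarz for the states of the Neumann operator. -/
lemma norm_st_star_mul_sq_le (z : X) (a r : C(X, ℂ)) (ha : ‖a‖ ≤ 1) :
    ‖D.st z (star a * r)‖ ^ 2 ≤ (D.st z (star r * r)).re := by
  have h := posFun_cs (D.st z) (fun u => D.st_star z u) (fun v hv => D.st_nonneg z v hv) a r
  have h1 := D.re_st_star_mul_self_le z a ha
  have h2 : 0 ≤ (D.st z (star r * r)).re := D.st_nonneg z _ (fun t => by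
    simp only [ContinuousMap.mul_apply, ContinuousMap.star_apply]
    exact star_mul_self_nonneg _)
  nlinarith

/-- A near extremal configuration. -/
structure Near (f : C(X, ℂ)) (x y : H) (K K' e : ℝ) (n : C(X, ℂ) →L[ℂ] ℂ) : Prop where
  f_mem : f ∈ D.𝒜
  f_norm : ‖f‖ ≤ 1
  x_norm : ‖x‖ = 1
  y_norm : ‖y‖ = 1
  K_ge : 1 ≤ K
  bound : ∀ h ∈ D.𝒜, ‖D.T h‖ ≤ K * ‖h‖
  K'val : inner ℂ y (D.T f x) = (K' : ℂ)
  K'le : K' ≤ K
  e_nonneg : 0 ≤ e
  e1 : ‖D.T f x - (K : ℂ) • y‖ ≤ e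
  e2 : ‖adjoint (D.T f) y - (K : ℂ) • x‖ ≤ e
  n_norm : ‖n‖ ≤ 1
  n_eq : ∀ h ∈ D.𝒜, (K : ℂ) * n h = inner ℂ y (D.T h x)

/-- The almost state attached to a near extremal configuration. -/
def Lam (f : C(X, ℂ)) (n : C(X, ℂ) →L[ℂ] ℂ) : C(X, ℂ) →L[ℂ] ℂ :=
  n.comp (ContinuousLinearMap.mul ℂ C(X, ℂ) f)

omit [CompleteSpace H] in
lemma Lam_apply (f u : C(X, ℂ)) (n : C(X, ℂ) →L[ℂ] ℂ) : Lam f n u = n (f * u) := rfl

end AbsData

namespace AbsData.Near

variable {D : AbsData X H} {f : C(X, ℂ)} {x y : H} {K K' e : ℝ} {n : C(X, ℂ) →L[ℂ] ℂ}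
variable (N : D.Near f x y K K' e n)

include N

lemma K_pos : 0 < K := lt_of_lt_of_le zero_lt_one N.K_ge

lemma Lam_norm : ‖AbsData.Lam f n‖ ≤ 1 := by
  refine ContinuousLinearMap.opNorm_le_bound _ zero_le_one (fun u => ?_)
  rw [AbsData.Lam_apply, one_mul]
  calc ‖n (f * u)‖ ≤ ‖n‖ * ‖f * u‖ := n.le_opNorm _
    _ ≤ 1 * (‖f‖ * ‖u‖) := by
        gcongr
        · exact N.n_norm
        · exact norm_mul_le _ _
    _ ≤ 1 * (1 * ‖u‖) := by
        gcongr
        exact N.f_norm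
    _ = ‖u‖ := by ring

lemma n_f : n f = ((K' / K : ℝ) : ℂ) := by
  have h := N.n_eq f N.f_mem
  rw [N.K'val] at h
  have hK : (K : ℂ) ≠ 0 := by exact_mod_cast N.K_pos.ne'
  push_cast
  field_simp
  rw [mul_comm]
  exact h

lemma Lam_one : AbsData.Lam f n 1 = ((K' / K : ℝ) : ℂ) := by
  rw [AbsData.Lam_apply, mul_one, N.n_f]

lemma n_mul (h : C(X, ℂ)) (hh : h ∈ D.𝒜) :
    (K : ℂ) * AbsData.Lam f n h = inner ℂ y (D.T (f * h) x) := by
  rw [AbsData.Lam_apply]
  exact N.n_eq _ (D.𝒜.mul_mem N.f_mem hh)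

/-- The state of `x` is close to the almost state. -/
lemma rel_x (h : C(X, ℂ)) (hh : h ∈ D.𝒜) :
    ‖AbsData.Lam f n h - inner ℂ x (D.T h x)‖ ≤ e * ‖h‖ := by
  have hKpos := N.K_pos
  have h1 : (K : ℂ) * (AbsData.Lam f n h - inner ℂ x (D.T h x))
      = inner ℂ (adjoint (D.T f) y - (K : ℂ) • x) (D.T h x) := by
    rw [mul_sub, N.n_mul h hh, D.T_mul f N.f_mem h hh, inner_sub_left, inner_smul_left,
      ContinuousLinearMap.adjoint_inner_left]
    simp
  have h2 : K * ‖AbsData.Lam f n h - inner ℂ x (D.T h x)‖ ≤ K * (e * ‖h‖) := by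
    calc K * ‖AbsData.Lam f n h - inner ℂ x (D.T h x)‖
        = ‖(K : ℂ) * (AbsData.Lam f n h - inner ℂ x (D.T h x))‖ := by
          rw [norm_mul, Complex.norm_real, Real.norm_eq_abs, abs_of_pos hKpos]
      _ = ‖inner ℂ (adjoint (D.T f) y - (K : ℂ) • x) (D.T h x)‖ := by rw [h1]
      _ ≤ ‖adjoint (D.T f) y - (K : ℂ) • x‖ * ‖D.T h x‖ := norm_inner_le_norm _ _
      _ ≤ e * (K * ‖h‖) := by
          gcongr
          · exact N.e_nonneg
          · exact N.e2
          · calc ‖D.T h x‖ ≤ ‖D.T h‖ * ‖x‖ := (D.T h).le_opNorm x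
              _ = ‖D.T h‖ := by rw [N.x_norm, mul_one]
              _ ≤ K * ‖h‖ := N.bound h hh
      _ = K * (e * ‖h‖) := by ring
  exact le_of_mul_le_mul_left h2 hKpos

/-- The state of `y` is close to the almost state. -/
lemma rel_y (h : C(X, ℂ)) (hh : h ∈ D.𝒜) :
    ‖AbsData.Lam f n h - inner ℂ y (D.T h y)‖ ≤ e * ‖h‖ := by
  have hKpos := N.K_pos
  have h1 : (K : ℂ) * (AbsData.Lam f n h - inner ℂ y (D.T h y))
      = inner ℂ y (D.T h (D.T f x - (K : ℂ) • y)) := by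
    rw [mul_sub, N.n_mul h hh, mul_comm f h, D.T_mul h hh f N.f_mem, map_sub, map_smul,
      inner_sub_right, inner_smul_right]
    rfl
  have h2 : K * ‖AbsData.Lam f n h - inner ℂ y (D.T h y)‖ ≤ K * (e * ‖h‖) := by
    calc K * ‖AbsData.Lam f n h - inner ℂ y (D.T h y)‖
        = ‖(K : ℂ) * (AbsData.Lam f n h - inner ℂ y (D.T h y))‖ := by
          rw [norm_mul, Complex.norm_real, Real.norm_eq_abs, abs_of_pos hKpos]
      _ = ‖inner ℂ y (D.T h (D.T f x - (K : ℂ) • y))‖ := by rw [h1]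
      _ ≤ ‖y‖ * ‖D.T h (D.T f x - (K : ℂ) • y)‖ := norm_inner_le_norm _ _
      _ ≤ 1 * ((K * ‖h‖) * e) := by
          rw [N.y_norm]
          gcongr
          calc ‖D.T h (D.T f x - (K : ℂ) • y)‖ ≤ ‖D.T h‖ * ‖D.T f x - (K : ℂ) • y‖ :=
                (D.T h).le_opNorm _
            _ ≤ (K * ‖h‖) * e := by
                gcongr
                · exact N.bound h hh
                · exact N.e1
      _ = K * (e * ‖h‖) := by ring
  exact le_of_mul_le_mul_left h2 hKpos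

/-- The off-diagonal coefficient. -/
lemma rel_xy (k : C(X, ℂ)) (hk : k ∈ D.𝒜) (hk1 : ‖k‖ ≤ 1) :
    ‖inner ℂ x (D.T k y) - AbsData.Lam f n (k * f) / (K : ℂ)‖ ≤ 2 * e := by
  have hKpos := N.K_pos
  have hK1 := N.K_ge
  have hK : (K : ℂ) ≠ 0 := by exact_mod_cast hKpos.ne'
  have hkf : k * f ∈ D.𝒜 := D.𝒜.mul_mem hk N.f_mem
  have hkfn : ‖k * f‖ ≤ 1 := by
    calc ‖k * f‖ ≤ ‖k‖ * ‖f‖ := norm_mul_le _ _
      _ ≤ 1 * 1 := by
          gcongr
          exact N.f_norm
      _ = 1 := one_mul 1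
  have h0 := N.rel_x (k * f) hkf
  have h1 : (K : ℂ) * (inner ℂ x (D.T k y) - AbsData.Lam f n (k * f) / (K : ℂ))
      = - inner ℂ x (D.T k (D.T f x - (K : ℂ) • y))
        + (inner ℂ x (D.T (k * f) x) - AbsData.Lam f n (k * f)) := by
    rw [mul_sub, mul_div_cancel₀ _ hK, D.T_mul k hk f N.f_mem, map_sub, map_smul, inner_sub_right,
      inner_smul_right]
    simp only [ContinuousLinearMap.mul_apply]
    ring
  have h2 : K * ‖inner ℂ x (D.T k y) - AbsData.Lam f n (k * f) / (K : ℂ)‖ ≤ K * (2 * e) := by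
    calc K * ‖inner ℂ x (D.T k y) - AbsData.Lam f n (k * f) / (K : ℂ)‖
        = ‖(K : ℂ) * (inner ℂ x (D.T k y) - AbsData.Lam f n (k * f) / (K : ℂ))‖ := by
          rw [norm_mul, Complex.norm_real, Real.norm_eq_abs, abs_of_pos hKpos]
      _ ≤ ‖inner ℂ x (D.T k (D.T f x - (K : ℂ) • y))‖
          + ‖inner ℂ x (D.T (k * f) x) - AbsData.Lam f n (k * f)‖ := by
          rw [h1]
          exact le_trans (norm_add_le _ _) (by rw [norm_neg])
      _ ≤ K * e + e := by
          gcongr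
          · calc ‖inner ℂ x (D.T k (D.T f x - (K : ℂ) • y))‖
                ≤ ‖x‖ * ‖D.T k (D.T f x - (K : ℂ) • y)‖ := norm_inner_le_norm _ _
              _ = ‖D.T k (D.T f x - (K : ℂ) • y)‖ := by rw [N.x_norm, one_mul]
              _ ≤ ‖D.T k‖ * ‖D.T f x - (K : ℂ) • y‖ := (D.T k).le_opNorm _
              _ ≤ (K * 1) * e := by
                  gcongr
                  · exact le_trans (N.bound k hk) (by gcongr)
                  · exact N.e1
              _ = K * e := by ring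
          · rw [norm_sub_rev]
            calc _ ≤ e * ‖k * f‖ := h0
              _ ≤ e * 1 := by
                  gcongr
                  exact N.e_nonneg
              _ = e := mul_one e
      _ ≤ K * (2 * e) := by nlinarith [N.e_nonneg]
  exact le_of_mul_le_mul_left h2 hKpos

/-- The `S`-identity for analytic functions. -/
lemma form_of_mem (h : C(X, ℂ)) (hh : h ∈ D.𝒜) (a b : H) :
    D.form a b h = inner ℂ b (D.T h a)
      + (starRingEnd ℂ) (inner ℂ a (D.T (D.Kb (star h)) b)) := by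
  rw [AbsData.form_apply, AbsData.S, D.T_star h hh]
  simp only [ContinuousLinearMap.add_apply, inner_add_right, ContinuousLinearMap.adjoint_inner_right]
  rw [inner_conj_symm]

/-- The `S`-identity for conjugates of analytic functions. -/
lemma form_star_of_mem (h : C(X, ℂ)) (hh : h ∈ D.𝒜) (a b : H) :
    D.form a b (star h) = inner ℂ b (D.T (D.Kb (star h)) a)
      + (starRingEnd ℂ) (inner ℂ a (D.T h b)) := by
  rw [AbsData.form_apply, AbsData.S, star_star, D.T_star h hh]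
  simp only [ContinuousLinearMap.add_apply, inner_add_right, ContinuousLinearMap.adjoint_inner_right]
  rw [inner_conj_symm]

lemma g_mem : D.Kb (star f) ∈ D.𝒜 := D.alpha_mem f N.f_mem

lemma g_norm : ‖D.Kb (star f)‖ ≤ 1 := by
  refine le_trans (D.norm_Kb_le _) ?_
  rw [norm_star]
  exact N.f_norm

lemma w_mem : f * D.Kb (star f) ∈ D.𝒜 := D.𝒜.mul_mem N.f_mem N.g_mem

lemma mul_norm_le {u v : C(X, ℂ)} (hu : ‖u‖ ≤ 1) (hv : ‖v‖ ≤ 1) : ‖u * v‖ ≤ 1 := by
  calc ‖u * v‖ ≤ ‖u‖ * ‖v‖ := norm_mul_le _ _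
    _ ≤ 1 * 1 := by gcongr
    _ = 1 := one_mul 1

lemma w_norm : ‖f * D.Kb (star f)‖ ≤ 1 := N.mul_norm_le N.f_norm N.g_norm

lemma alpha_norm {u : C(X, ℂ)} (hu : ‖u‖ ≤ 1) : ‖D.Kb (star u)‖ ≤ 1 := by
  refine le_trans (D.norm_Kb_le _) ?_
  rwa [norm_star]

/-- First identity. -/
lemma step_one :
    ‖D.form x y f - (K' : ℂ) - (starRingEnd ℂ) (AbsData.Lam f n (f * D.Kb (star f))) / (K : ℂ)‖
      ≤ 2 * e := by
  have h1 := N.rel_xy (D.Kb (star f)) N.g_mem N.g_norm
  rw [mul_comm (D.Kb (star f)) f] at h1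
  rw [N.form_of_mem f N.f_mem, N.K'val]
  have h2 : (K' : ℂ) + (starRingEnd ℂ) (inner ℂ x (D.T (D.Kb (star f)) y)) - (K' : ℂ)
        - (starRingEnd ℂ) (AbsData.Lam f n (f * D.Kb (star f))) / (K : ℂ)
      = (starRingEnd ℂ) (inner ℂ x (D.T (D.Kb (star f)) y)
          - AbsData.Lam f n (f * D.Kb (star f)) / (K : ℂ)) := by
    simp only [map_sub, map_div₀, Complex.conj_ofReal]
    ring
  rw [h2, Complex.norm_conj]
  exact h1

end AbsData.Near

end Vale.Agent.helper3.CP
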