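import Vale.Agent.helper3.CP.Abstract

/-!
# The chain of estimates for the improved Crouzeix-Palencia bound
-/

open scoped ComplexOrder
open ContinuousLinearMap

set_option linter.unusedSimpArgs false
set_option linter.deprecated false

noncomputable section

namespace Vale.Agent.helper3.CP

variable {X : Type*} [TopologicalSpace X] [CompactSpace X]
variable {H : Type*} [NormedAddCommGroup H] [InnerProductSpace ℂ H] [CompleteSpace H]

namespace AbsData

variable (D : AbsData X H) (f : C(X, ℂ))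

/-- The Cauchy transform of the conjugate of `f`. -/
def gg : C(X, ℂ) := D.Kb (star f)

/-- The product `f g`. -/
def ww : C(X, ℂ) := f * D.gg f

/-- The real function `1 + Re (f g)`. -/
def pp : C(X, ℂ) := 1 + (1 / 2 : ℂ) • (D.ww f + star (D.ww f))

lemma pp_apply (z : X) : D.pp f z = ((1 + (D.ww f z).re : ℝ) : ℂ) := by
  apply Complex.ext
  · simp [pp, Complex.add_re]
    ring
  · simp [pp]

lemma st_f (z : X) : D.st z f = (starRingEnd ℂ) (D.gg f z) := by
  have h : f = star (star f) := (star_star f).symm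
  rw [AbsData.st_apply]
  conv_lhs => rw [h, D.Kb_star]
  simp [gg]

lemma st_star_f (z : X) : D.st z (star f) = D.gg f z := rfl

variable {f}

lemma re_st_r (hf : ‖f‖ ≤ 1) (z : X) :
    (D.st z (star ((1 : C(X, ℂ)) + (f z) • star f) * ((1 : C(X, ℂ)) + (f z) • star f))).re
      ≤ 2 * (D.pp f z).re := by
  have hexp : star ((1 : C(X, ℂ)) + (f z) • star f) * ((1 : C(X, ℂ)) + (f z) • star f)
      = (1 : C(X, ℂ)) + (f z) • star f + ((starRingEnd ℂ) (f z)) • f
        + ((‖f z‖ ^ 2 : ℝ) : ℂ) • (star f * f) := by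
    ext t
    simp only [ContinuousMap.mul_apply, ContinuousMap.star_apply, ContinuousMap.add_apply,
      ContinuousMap.smul_apply, smul_eq_mul, star_add, star_smul, star_star,
      ContinuousMap.one_apply, star_one]
    have : ((‖f z‖ ^ 2 : ℝ) : ℂ) = (starRingEnd ℂ) (f z) * f z := by
      rw [mul_comm, Complex.mul_conj, Complex.normSq_eq_norm_sq]
    rw [this]
    simp only [Complex.star_def]
    ring
  rw [hexp]
  simp only [map_add, map_smul, smul_eq_mul, D.st_one, D.st_f f z, D.st_star_f f z]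
  have h1 := D.re_st_star_mul_self_le z f hf
  have h0 : 0 ≤ (D.st z (star f * f)).re := D.st_nonneg z _ (fun t => by
    simp only [ContinuousMap.mul_apply, ContinuousMap.star_apply]
    exact star_mul_self_nonneg _)
  have hfz : ‖f z‖ ≤ 1 := le_trans (f.norm_coe_le_norm z) hf
  rw [D.pp_apply, Complex.ofReal_re]
  have hww : D.ww f z = f z * D.gg f z := rfl
  rw [hww]
  simp only [Complex.add_re, Complex.mul_re, Complex.one_re, Complex.ofReal_re, Complex.ofReal_im,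
    zero_mul, sub_zero, Complex.conj_re, Complex.conj_im] at h1 h0 ⊢
  have h2 : ‖f z‖ ^ 2 * (D.st z (star f * f)).re ≤ 1 := by
    have : ‖f z‖ ^ 2 ≤ 1 := by nlinarith [norm_nonneg (f z)]
    nlinarith
  nlinarith

lemma re_st_r3 (hf : ‖f‖ ≤ 1) (z : X) :
    (D.st z (star (((starRingEnd ℂ) (f z)) • (1 : C(X, ℂ)) + star f)
        * (((starRingEnd ℂ) (f z)) • (1 : C(X, ℂ)) + star f))).re
      ≤ 2 * (D.pp f z).re := by
  have hexp : star (((starRingEnd ℂ) (f z)) • (1 : C(X, ℂ)) + star f)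
        * (((starRingEnd ℂ) (f z)) • (1 : C(X, ℂ)) + star f)
      = ((‖f z‖ ^ 2 : ℝ) : ℂ) • (1 : C(X, ℂ)) + (f z) • star f + ((starRingEnd ℂ) (f z)) • f
        + star f * f := by
    ext t
    simp only [ContinuousMap.mul_apply, ContinuousMap.star_apply, ContinuousMap.add_apply,
      ContinuousMap.smul_apply, smul_eq_mul, star_add, star_smul, star_star,
      ContinuousMap.one_apply, star_one]
    have : ((‖f z‖ ^ 2 : ℝ) : ℂ) = (starRingEnd ℂ) (f z) * f z := by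
      rw [mul_comm, Complex.mul_conj, Complex.normSq_eq_norm_sq]
    rw [this]
    simp only [Complex.star_def, Complex.conj_conj]
    ring
  rw [hexp]
  simp only [map_add, map_smul, smul_eq_mul, D.st_one, D.st_f f z, D.st_star_f f z]
  have h1 := D.re_st_star_mul_self_le z f hf
  have hfz : ‖f z‖ ≤ 1 := le_trans (f.norm_coe_le_norm z) hf
  rw [D.pp_apply, Complex.ofReal_re]
  have hww : D.ww f z = f z * D.gg f z := rfl
  rw [hww]
  simp only [Complex.add_re, Complex.mul_re, Complex.one_re, Complex.ofReal_re, Complex.ofReal_im,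
    zero_mul, sub_zero, Complex.conj_re, Complex.conj_im, mul_one] at h1 ⊢
  have : ‖f z‖ ^ 2 ≤ 1 := by nlinarith [norm_nonneg (f z)]
  nlinarith

/-- The first error function. -/
def Wt (f : C(X, ℂ)) : C(X, ℂ) := f * D.Kb (star (f * D.ww f)) + D.Kb (star (D.ww f))

/-- The second error function. -/
def W3 (f : C(X, ℂ)) : C(X, ℂ) := star f * D.Kb (star (D.gg f)) + D.Kb (star (D.ww f))

lemma Wt_apply (z : X) :
    D.Wt f z = D.st z (star (D.ww f) * ((1 : C(X, ℂ)) + (f z) • star f)) := by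
  have h : star (D.ww f) * ((1 : C(X, ℂ)) + (f z) • star f)
      = star (D.ww f) + (f z) • star (f * D.ww f) := by
    ext t
    simp only [ContinuousMap.mul_apply, ContinuousMap.star_apply, ContinuousMap.add_apply,
      ContinuousMap.smul_apply, smul_eq_mul, star_mul', ContinuousMap.one_apply]
    ring
  rw [h]
  simp only [map_add, map_smul, smul_eq_mul, AbsData.st_apply, Wt, ContinuousMap.add_apply,
    ContinuousMap.mul_apply]
  ring

lemma W3_apply (z : X) :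
    D.W3 f z = D.st z (star (D.gg f) * (((starRingEnd ℂ) (f z)) • (1 : C(X, ℂ)) + star f)) := by
  have h : star (D.gg f) * (((starRingEnd ℂ) (f z)) • (1 : C(X, ℂ)) + star f)
      = ((starRingEnd ℂ) (f z)) • star (D.gg f) + star (D.ww f) := by
    ext t
    simp only [ContinuousMap.mul_apply, ContinuousMap.star_apply, ContinuousMap.add_apply,
      ContinuousMap.smul_apply, smul_eq_mul, star_mul', ContinuousMap.one_apply, ww]
    simp only [Complex.star_def]
    ring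
  rw [h]
  simp only [map_add, map_smul, smul_eq_mul, AbsData.st_apply, W3, ContinuousMap.add_apply,
    ContinuousMap.mul_apply, ContinuousMap.star_apply]
  simp only [Complex.star_def]

lemma gg_norm (hf : ‖f‖ ≤ 1) : ‖D.gg f‖ ≤ 1 := by
  refine le_trans (D.norm_Kb_le _) ?_
  rwa [norm_star]

lemma ww_norm (hf : ‖f‖ ≤ 1) : ‖D.ww f‖ ≤ 1 := by
  calc ‖D.ww f‖ ≤ ‖f‖ * ‖D.gg f‖ := norm_mul_le _ _
    _ ≤ 1 * 1 := by
        gcongr
        exact D.gg_norm hf
    _ = 1 := one_mul 1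

lemma Wt_sq_le (hf : ‖f‖ ≤ 1) (z : X) : ‖D.Wt f z‖ ^ 2 ≤ 2 * (D.pp f z).re := by
  rw [D.Wt_apply]
  exact le_trans (D.norm_st_star_mul_sq_le z _ _ (D.ww_norm hf)) (D.re_st_r hf z)

lemma W3_sq_le (hf : ‖f‖ ≤ 1) (z : X) : ‖D.W3 f z‖ ^ 2 ≤ 2 * (D.pp f z).re := by
  rw [D.W3_apply]
  exact le_trans (D.norm_st_star_mul_sq_le z _ _ (D.gg_norm hf)) (D.re_st_r3 hf z)

lemma pp_re_nonneg (hf : ‖f‖ ≤ 1) (z : X) : 0 ≤ (D.pp f z).re := by
  rw [D.pp_apply, Complex.ofReal_re]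
  have h1 : ‖D.ww f z‖ ≤ 1 := le_trans ((D.ww f).norm_coe_le_norm z) (D.ww_norm hf)
  have h2 := (abs_le.mp (Complex.abs_re_le_norm (D.ww f z))).1
  linarith

lemma pp_re_le (hf : ‖f‖ ≤ 1) (z : X) : (D.pp f z).re ≤ 2 := by
  rw [D.pp_apply, Complex.ofReal_re]
  have h1 : ‖D.ww f z‖ ≤ 1 := le_trans ((D.ww f).norm_coe_le_norm z) (D.ww_norm hf)
  have h2 := (abs_le.mp (Complex.abs_re_le_norm (D.ww f z))).2
  linarith

/-- Estimate of an almost state on error functions. -/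
lemma Lam_W_le (Λ : C(X, ℂ) →L[ℂ] ℂ) (hΛ : ‖Λ‖ ≤ 1) (hf : ‖f‖ ≤ 1) (W : C(X, ℂ))
    (hW : ∀ z, ‖W z‖ ^ 2 ≤ 2 * (D.pp f z).re) (τ : ℝ) (hτ : 0 < τ) :
    ‖Λ W‖ ≤ (τ / 2) * (Λ 1).re + (Λ (D.pp f)).re / τ + (τ / 2 + 2 / τ) * (1 - (Λ 1).re) := by
  set v : C(X, ℂ) := ((τ / 2 : ℝ) : ℂ) • (1 : C(X, ℂ)) + ((1 / τ : ℝ) : ℂ) • D.pp f with hv
  have hvz : ∀ z, v z = ((τ / 2 + (D.pp f z).re / τ : ℝ) : ℂ) := by
    intro z
    have h1 : D.pp f z = (((D.pp f z).re : ℝ) : ℂ) := by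
      rw [D.pp_apply, Complex.ofReal_re]
    simp only [hv, ContinuousMap.add_apply, ContinuousMap.smul_apply, ContinuousMap.one_apply,
      smul_eq_mul, mul_one]
    rw [h1]
    simp only [Complex.ofReal_re]
    push_cast
    ring
  have h := norm_apply_le_re Λ hΛ W v (τ / 2 + 2 / τ) (by positivity)
    (fun z => by rw [hvz]; simp)
    (fun z => by
      rw [hvz, Complex.ofReal_re]
      have h3 := le_add_div_of_sq_le ‖W z‖ ((D.pp f z).re / 2) (τ / 2) (by positivity)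
        (by have := D.pp_re_nonneg hf z; positivity) (by linarith [hW z])
      have h4 : (D.pp f z).re / 2 / (τ / 2) = (D.pp f z).re / τ := by
        field_simp
      linarith)
    (fun z => by
      rw [hvz, Complex.ofReal_re]
      have h3 := D.pp_re_le hf z
      have h4 : (D.pp f z).re / τ ≤ 2 / τ := by gcongr
      linarith)
  have h5 : (Λ v).re = (τ / 2) * (Λ 1).re + (Λ (D.pp f)).re / τ := by
    simp only [hv, map_add, map_smul, smul_eq_mul, Complex.add_re, Complex.mul_re,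
      Complex.ofReal_re, Complex.ofReal_im, zero_mul, sub_zero]
    ring
  rw [h5] at h
  exact h

/-- The real part of an almost state at `pp`. -/
lemma Lam_pp_re_le (Λ : C(X, ℂ) →L[ℂ] ℂ) (hΛ : ‖Λ‖ ≤ 1) (hf : ‖f‖ ≤ 1)
    (hΛ1 : (Λ 1).im = 0) (s : ℝ) (hs : 0 ≤ s) (hs1 : s ≤ 1)
    (hε : 1 - (Λ 1).re ≤ s ^ 2) (hε0 : 0 ≤ 1 - (Λ 1).re) :
    (Λ (D.pp f)).re ≤ 1 + (Λ (D.ww f)).re + 4 * s := by
  set w := D.ww f with hw
  set ω₁ : C(X, ℂ) := (1 / 2 : ℂ) • (w + star w) with hω₁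
  set ω₂ : C(X, ℂ) := (-Complex.I / 2 : ℂ) • (w - star w) with hω₂
  have hdec : w = ω₁ + Complex.I • ω₂ := by
    rw [hω₁, hω₂, smul_smul]
    have : Complex.I * (-Complex.I / 2) = (1 / 2 : ℂ) := by
      have := Complex.I_mul_I
      linear_combination (-1 / 2 : ℂ) * this
    rw [this, ← smul_add]
    have h2 : w + star w + (w - star w) = (2 : ℂ) • w := by
      rw [two_smul]; abel
    rw [h2, smul_smul]
    norm_num
  have hpp : D.pp f = 1 + ω₁ := rfl
  have hω₂x : ∀ x, ω₂ x = (((w x).im : ℝ) : ℂ) := by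
    intro x
    have h0 : (w - star w) x = ((2 * (w x).im : ℝ) : ℂ) * Complex.I := by
      simp only [ContinuousMap.sub_apply, ContinuousMap.star_apply, Complex.star_def]
      rw [Complex.sub_conj]
    have h3 := Complex.I_mul_I
    simp only [hω₂, ContinuousMap.smul_apply, smul_eq_mul]
    rw [h0]
    push_cast
    linear_combination (-((w x).im : ℂ)) * h3
  have hω₂im : ∀ x, (ω₂ x).im = 0 := by
    intro x
    rw [hω₂x]
    simp
  have hω₂n : ∀ x, ‖ω₂ x‖ ≤ 1 := by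
    intro x
    have h1 : ‖w x‖ ≤ 1 := le_trans (w.norm_coe_le_norm x) (D.ww_norm hf)
    rw [hω₂x, Complex.norm_real, Real.norm_eq_abs]
    exact le_trans (Complex.abs_im_le_norm _) h1
  have him := abs_im_apply_le Λ hΛ hΛ1 s hs hs1 hε hε0 ω₂ hω₂im hω₂n
  have h1 : (Λ w).re = (Λ ω₁).re - (Λ ω₂).im := by
    conv_lhs => rw [hdec]
    simp [map_add, map_smul, Complex.add_re, Complex.mul_re]
    ring
  have h2 : (Λ (D.pp f)).re = (Λ 1).re + (Λ ω₁).re := by
    rw [hpp, map_add, Complex.add_re]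
  have h3 := (abs_le.mp him).2
  have h4 : (Λ 1).re ≤ 1 := by linarith
  linarith

end AbsData

/-- The final numerical contradiction. -/
lemma final_contra (K t : ℝ) (hK : 233 / 100 ≤ K) (ht0 : 0 ≤ t)
    (ht : t ≤ 1 + 2 * K - K ^ 2 + 1 / 1000)
    (hI : (K - 1) * (K ^ 2 + 1) * (1 - t)
      ≤ K * (K + 1) * (3 / 10 + t * (5 / 3) + 31 / 200)
        + (K + 1) * (K * (2 - K) + 1 - t) * (200 / 31) + 1 / 25) : False := by
  set u := K - 233 / 100 with hu
  have hu0 : 0 ≤ u := by linarith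
  have hK' : K = u + 233 / 100 := by rw [hu]; ring
  have hu2 : 0 ≤ u ^ 2 := by positivity
  have hu3 : 0 ≤ u ^ 3 := by positivity
  have hu4 : 0 ≤ u ^ 4 := by positivity
  have hu5 : 0 ≤ u ^ 5 := by positivity
  set B : ℝ := - (K - 1) * (K ^ 2 + 1) - (5 / 3) * K * (K + 1) + (200 / 31) * (K + 1) with hB
  set A : ℝ := (K - 1) * (K ^ 2 + 1) - K * (K + 1) * (3 / 10 + 31 / 200)
    - (K + 1) * (K * (2 - K) + 1) * (200 / 31) with hA
  have hF : A + t * B ≤ 1 / 25 := by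
    rw [hA, hB]
    nlinarith [hI]
  have hApos : 1 / 20 ≤ A := by
    rw [hA, hK']
    nlinarith [hu0, hu2, hu3]
  rcases le_or_gt 0 B with hB0 | hB0
  · have : 0 ≤ t * B := mul_nonneg ht0 hB0
    linarith
  · have h1 : (1 + 2 * K - K ^ 2 + 1 / 1000) * B ≤ t * B :=
      mul_le_mul_of_nonpos_right ht hB0.le
    have h2 : 1 / 20 ≤ A + (1 + 2 * K - K ^ 2 + 1 / 1000) * B := by
      rw [hA, hB, hK']
      nlinarith [hu0, hu2, hu3, hu4, hu5]
    linarith

lemma aux_KK {K : ℝ} (h0 : 0 ≤ K) (h1 : K ≤ 243 / 100) : K * (K + 1) ≤ 834 / 100 := by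
  nlinarith

lemma aux_K2 {K : ℝ} (h0 : 0 ≤ K) (h1 : K ≤ 243 / 100) : K ^ 2 ≤ 6 := by
  nlinarith

/-- The arithmetic core of the final step. -/
lemma arith_core (K K' zr zn t b ε E W3 Wt nw d1 d2 : ℝ)
    (hK : 233 / 100 ≤ K) (hη : K - K' ≤ 1 / 100000000) (hK'le : K' ≤ K) (hzre : -1 ≤ zr)
    (hzn : - zr ≤ zn) (ht : t = 1 + zr) (hε0 : 0 ≤ ε) (hε : ε ≤ 1 / 100000000)
    (hE : E = 3 / 10 + (t + 4 / 10000) * (5 / 3) + (3 / 10 + 10 / 3) * ε)
    (hWt : Wt ≤ E) (hW3 : W3 ≤ E) (hnw : nw ≤ 2 * ε) (hb0 : 0 ≤ b)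
    (hb1 : b ≤ 2 - K' - zr / K + 2 * (1 / 10000))
    (hd1 : d1 ≤ 31 / 200 + b / (31 / 200)) (hd2 : d2 ≤ 31 / 200 + b / (31 / 200))
    (h0W3 : 0 ≤ W3) (h0nw : 0 ≤ nw) (h0d2 : 0 ≤ d2) (h0Wt : 0 ≤ Wt) (h0d1 : 0 ≤ d1)
    (hcomb : (K - 1) * (K ^ 2 + 1) * zn
      ≤ K * (K * W3 + K * nw + 4 * (1 / 10000) + d2)
        + K ^ 2 * (Wt / K + 4 * (1 / 10000) + d1)) : False := by
  have hKpos : 0 < K := by linarith
  have hK1 : 1 ≤ K := by linarith
  have ht0 : 0 ≤ t := by linarith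
  have hzK : zr / K * K = zr := by
    field_simp
  have hKle : K ≤ 243 / 100 := by
    have h1 : -(1 / K) ≤ zr / K := by
      rw [neg_le_iff_add_nonneg, ← add_div, div_nonneg_iff]
      left
      constructor <;> linarith
    have h2 : 1 / K ≤ 100 / 233 := by
      rw [div_le_div_iff₀ hKpos (by norm_num)]
      linarith
    linarith
  have htle : t ≤ 1 + 2 * K - K ^ 2 + 1 / 1000 := by
    have h1 : zr / K ≤ 2 - K' + 2 * (1 / 10000) := by linarith
    have h2 : zr ≤ (2 - K' + 2 * (1 / 10000)) * K := by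
      rw [← hzK]
      gcongr
    have h3 : 2 - K' + 2 * (1 / 10000) ≤ 2 - K + 1 / 100000000 + 2 * (1 / 10000) := by linarith
    have h4 : (2 - K' + 2 * (1 / 10000)) * K ≤ (2 - K + 1 / 100000000 + 2 * (1 / 10000)) * K :=
      mul_le_mul_of_nonneg_right h3 hKpos.le
    have h5 : (2 - K + 1 / 100000000 + 2 * (1 / 10000)) * K
        = 2 * K - K ^ 2 + K * (1 / 100000000 + 2 * (1 / 10000)) := by ring
    rw [ht]
    norm_num at h4 h5 ⊢
    linarith
  set d := 31 / 200 + b / (31 / 200) with hd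
  have hc : 0 ≤ (K - 1) * (K ^ 2 + 1) := mul_nonneg (by linarith) (by positivity)
  have hzz : 1 - t ≤ zn := by
    rw [ht]
    linarith
  have h1 : (K - 1) * (K ^ 2 + 1) * (1 - t) ≤ (K - 1) * (K ^ 2 + 1) * zn := by gcongr
  have h2 : K * (K * W3 + K * nw + 4 * (1 / 10000) + d2)
      + K ^ 2 * (Wt / K + 4 * (1 / 10000) + d1)
      ≤ K * (K * E + K * (2 * ε) + 4 * (1 / 10000) + d)
        + K ^ 2 * (E / K + 4 * (1 / 10000) + d) := by
    gcongr
  have h3 : K * (K * E + K * (2 * ε) + 4 * (1 / 10000) + d)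
        + K ^ 2 * (E / K + 4 * (1 / 10000) + d)
      = K * (K + 1) * E + 2 * K ^ 2 * ε + 4 * K * (K + 1) * (1 / 10000) + K * (K + 1) * d := by
    field_simp
    ring
  have h4 : K * (K + 1) * d = K * (K + 1) * (31 / 200) + (K + 1) * (K * b) * (200 / 31) := by
    rw [hd]
    field_simp
  have h5 : K * b ≤ K * (2 - K) + 1 - t + K * (1 / 100000000 + 2 * (1 / 10000)) := by
    have h6 : K * b ≤ K * (2 - K' - zr / K + 2 * (1 / 10000)) := by gcongr
    have h7 : K * (2 - K' - zr / K + 2 * (1 / 10000))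
        = K * (2 - K' + 2 * (1 / 10000)) - zr := by
      field_simp
      ring
    have h8 : K * (2 - K') ≤ K * (2 - K + 1 / 100000000) := by
      gcongr
      linarith
    rw [h7] at h6
    rw [ht]
    have h9 : K * (2 - K' + 2 * (1 / 10000)) = K * (2 - K') + K * (2 * (1 / 10000)) := by ring
    have h10 : K * (2 - K + 1 / 100000000) = K * (2 - K) + K * (1 / 100000000) := by ring
    have h11 : K * (2 - K) + 1 - (1 + zr) + K * (1 / 100000000 + 2 * (1 / 10000))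
        = K * (2 - K) + K * (1 / 100000000) + K * (2 * (1 / 10000)) - zr := by ring
    rw [h11]
    linarith
  have h6 : (K + 1) * (K * b) * (200 / 31)
      ≤ (K + 1) * (K * (2 - K) + 1 - t + K * (1 / 100000000 + 2 * (1 / 10000))) * (200 / 31) := by
    gcongr
  have hKK : K * (K + 1) ≤ 834 / 100 := aux_KK hKpos.le hKle
  have hKK0 : 0 ≤ K * (K + 1) := by positivity
  have hK2 : K ^ 2 ≤ 6 := aux_K2 hKpos.le hKle
  have hE' : K * (K + 1) * E = K * (K + 1) * (3 / 10 + t * (5 / 3))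
      + K * (K + 1) * ((4 / 10000) * (5 / 3) + (3 / 10 + 10 / 3) * ε) := by
    rw [hE]; ring
  have hR1 : K * (K + 1) * ((4 / 10000) * (5 / 3) + (3 / 10 + 10 / 3) * ε)
      ≤ 834 / 100 * (1 / 1000) := by
    have h7 : (4 / 10000) * (5 / 3) + (3 / 10 + 10 / 3) * ε ≤ 1 / 1000 := by
      norm_num at hε ⊢
      linarith
    have h0 : 0 ≤ (4 / 10000) * (5 / 3) + (3 / 10 + 10 / 3) * ε := by positivity
    calc _ ≤ 834 / 100 * ((4 / 10000) * (5 / 3) + (3 / 10 + 10 / 3) * ε) := by gcongr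
      _ ≤ _ := by gcongr
  have hR2 : 2 * K ^ 2 * ε ≤ 12 * (1 / 100000000) := by
    have h7 : K ^ 2 * ε ≤ 6 * (1 / 100000000) := mul_le_mul hK2 hε hε0 (by norm_num)
    linarith
  have hR3 : 4 * K * (K + 1) * (1 / 10000) ≤ 4 * (834 / 100) * (1 / 10000) := by
    have h7 : 4 * K * (K + 1) * (1 / 10000) = (K * (K + 1)) * (4 * (1 / 10000)) := by ring
    rw [h7]
    linarith
  have hR4 : (K + 1) * (K * (1 / 100000000 + 2 * (1 / 10000))) * (200 / 31)
      ≤ 834 / 100 * (1 / 100000000 + 2 * (1 / 10000)) * (200 / 31) := by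
    have h7 : (K + 1) * (K * (1 / 100000000 + 2 * (1 / 10000))) * (200 / 31)
        = (K * (K + 1)) * ((1 / 100000000 + 2 * (1 / 10000)) * (200 / 31)) := by ring
    rw [h7]
    linarith
  have hexp : (K + 1) * (K * (2 - K) + 1 - t + K * (1 / 100000000 + 2 * (1 / 10000))) * (200 / 31)
      = (K + 1) * (K * (2 - K) + 1 - t) * (200 / 31)
        + (K + 1) * (K * (1 / 100000000 + 2 * (1 / 10000))) * (200 / 31) := by ring
  have hexp2 : K * (K + 1) * (3 / 10 + t * (5 / 3) + 31 / 200)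
      = K * (K + 1) * (3 / 10 + t * (5 / 3)) + K * (K + 1) * (31 / 200) := by ring
  apply final_contra K t hK ht0 htle
  rw [hexp2]
  norm_num at hR1 hR2 hR3 hR4 ⊢
  linarith

lemma norm_add4_sub (a b c d g : ℂ) : ‖a + b + c + d - g‖ ≤ ‖a‖ + ‖b‖ + ‖c‖ + ‖d‖ + ‖g‖ := by
  refine le_trans (norm_sub_le _ _) ?_
  gcongr
  refine le_trans (norm_add_le _ _) ?_
  gcongr
  refine le_trans (norm_add_le _ _) ?_
  gcongr
  exact norm_add_le _ _

lemma norm_add5 (a b c d g h : ℂ) :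
    ‖a + b + c + d + g + h‖ ≤ ‖a‖ + ‖b‖ + ‖c‖ + ‖d‖ + ‖g‖ + ‖h‖ := by
  refine le_trans (norm_add_le _ _) ?_
  gcongr
  refine le_trans (norm_add_le _ _) ?_
  gcongr
  refine le_trans (norm_add_le _ _) ?_
  gcongr
  refine le_trans (norm_add_le _ _) ?_
  gcongr
  exact norm_add_le _ _

namespace AbsData.Near

variable {D : AbsData X H} {f : C(X, ℂ)} {x y : H} {K K' e : ℝ} {n : C(X, ℂ) →L[ℂ] ℂ}
variable (N : D.Near f x y K K' e n)

include N

lemma ww_mem : D.ww f ∈ D.𝒜 := N.w_mem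

lemma ww_norm' : ‖D.ww f‖ ≤ 1 := N.w_norm

lemma aw_mem : D.Kb (star (D.ww f)) ∈ D.𝒜 := D.alpha_mem _ N.ww_mem

lemma aw_norm : ‖D.Kb (star (D.ww f))‖ ≤ 1 := N.alpha_norm N.ww_norm'

lemma fw_mem : f * D.ww f ∈ D.𝒜 := D.𝒜.mul_mem N.f_mem N.ww_mem

lemma fw_norm : ‖f * D.ww f‖ ≤ 1 := N.mul_norm_le N.f_norm N.ww_norm'

lemma aH_mem : D.Kb (star (f * D.ww f)) ∈ D.𝒜 := D.alpha_mem _ N.fw_mem

lemma aH_norm : ‖D.Kb (star (f * D.ww f))‖ ≤ 1 := N.alpha_norm N.fw_norm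

lemma gg_mem : D.gg f ∈ D.𝒜 := N.g_mem

lemma gg_norm' : ‖D.gg f‖ ≤ 1 := N.g_norm

lemma ag_mem : D.Kb (star (D.gg f)) ∈ D.𝒜 := D.alpha_mem _ N.gg_mem

lemma ag_norm : ‖D.Kb (star (D.gg f))‖ ≤ 1 := N.alpha_norm N.gg_norm'

/-- The first relation. -/
lemma xi1_bound :
    ‖(starRingEnd ℂ) (AbsData.Lam f n (D.Kb (star (D.ww f)))) * (1 + 1 / (K : ℂ))
        - ((K : ℂ) - 1) * AbsData.Lam f n (D.ww f)‖
      ≤ ‖AbsData.Lam f n (D.Wt f)‖ / K + 4 * e
        + ‖D.form x y (f * D.ww f) - D.form y y (D.ww f)‖ := by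
  have hKpos := N.K_pos
  have hK0 : (K : ℂ) ≠ 0 := by exact_mod_cast hKpos.ne'
  set Λ := AbsData.Lam f n with hΛ
  set w := D.ww f with hw
  set aw := D.Kb (star w) with haw
  set aH := D.Kb (star (f * w)) with haH
  set A : ℂ := inner ℂ x (D.T aH y) with hA
  set B : ℂ := Λ (aH * f) with hB
  set C' : ℂ := inner ℂ y (D.T w y) with hC
  set E : ℂ := inner ℂ y (D.T aw y) with hE
  have h1 : D.form x y (f * w) = K * Λ w + (starRingEnd ℂ) A := by
    rw [N.form_of_mem _ N.fw_mem, N.n_mul _ N.ww_mem]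
  have h2 : D.form y y w = C' + (starRingEnd ℂ) E := N.form_of_mem _ N.ww_mem y y
  have h3 : Λ (D.Wt f) = B + Λ aw := by
    rw [hB, mul_comm aH f]
    simp only [AbsData.Wt, map_add]
    rfl
  have h4 : ‖A - B / K‖ ≤ 2 * e := N.rel_xy aH N.aH_mem N.aH_norm
  have h5 : ‖Λ w - C'‖ ≤ e := by
    refine le_trans (N.rel_y w N.ww_mem) ?_
    have := mul_le_mul_of_nonneg_left N.ww_norm' N.e_nonneg
    linarith
  have h6 : ‖Λ aw - E‖ ≤ e := by
    refine le_trans (N.rel_y aw N.aw_mem) ?_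
    have := mul_le_mul_of_nonneg_left N.aw_norm N.e_nonneg
    linarith
  have hid : (starRingEnd ℂ) (Λ aw) * (1 + 1 / (K : ℂ)) - ((K : ℂ) - 1) * Λ w
      = (starRingEnd ℂ) (Λ (D.Wt f)) / K + (starRingEnd ℂ) (A - B / K) + (Λ w - C')
        + (starRingEnd ℂ) (Λ aw - E) - (D.form x y (f * w) - D.form y y w) := by
    rw [h1, h2, h3]
    simp only [map_add, map_sub, map_div₀, Complex.conj_ofReal]
    field_simp
    ring
  rw [hid]
  refine le_trans (norm_add4_sub _ _ _ _ _) ?_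
  simp only [norm_div, Complex.norm_conj, Complex.norm_real, Real.norm_eq_abs, abs_of_pos hKpos]
  linarith

/-- The second relation. -/
lemma xi2_bound :
    ‖AbsData.Lam f n (D.Kb (star (D.ww f))) * (1 + (K : ℂ))
        + (1 - 1 / (K : ℂ)) * (starRingEnd ℂ) (AbsData.Lam f n (D.ww f))‖
      ≤ K * ‖AbsData.Lam f n (D.W3 f)‖
        + K * ‖n ((1 - f * star f) * D.Kb (star (D.gg f)))‖ + 4 * e
        + ‖D.form x x (star (D.gg f) * star f) - D.form x y (star (D.gg f))‖ := by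
  have hKpos := N.K_pos
  have hK0 : (K : ℂ) ≠ 0 := by exact_mod_cast hKpos.ne'
  set Λ := AbsData.Lam f n with hΛ
  set g := D.gg f with hg
  set w := D.ww f with hw
  have hwg : w = f * g := rfl
  set aw := D.Kb (star w) with haw
  set ag := D.Kb (star g) with hag
  set w₃ := (1 - f * star f) * ag with hw₃
  set A : ℂ := inner ℂ x (D.T g y) with hA
  set B : ℂ := inner ℂ x (D.T w x) with hB
  set C' : ℂ := inner ℂ x (D.T aw x) with hC
  have h1 : D.form x y (star g) = K * n ag + (starRingEnd ℂ) A := by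
    rw [N.form_star_of_mem g N.gg_mem, N.n_eq ag N.ag_mem]
  have h2 : D.form x x (star g * star f) = (starRingEnd ℂ) (B + (starRingEnd ℂ) C') := by
    have h3 : star g * star f = star w := by
      rw [hwg, star_mul', mul_comm]
    rw [h3, D.form_star, N.form_of_mem w N.ww_mem x x]
  have h3 : n ag = Λ (D.W3 f) - Λ aw + n w₃ := by
    have h4 : ag = f * (star f * ag) + w₃ := by
      rw [hw₃]
      ring
    have h5 : Λ (D.W3 f) = n (f * (star f * ag)) + Λ aw := by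
      simp only [AbsData.W3, map_add]
      rfl
    rw [h5]
    conv_lhs => rw [h4, map_add]
    ring
  have h4 : ‖A - Λ w / K‖ ≤ 2 * e := by
    have := N.rel_xy g N.gg_mem N.gg_norm'
    rwa [mul_comm g f] at this
  have h5 : ‖Λ w - B‖ ≤ e := by
    refine le_trans (N.rel_x w N.ww_mem) ?_
    have := mul_le_mul_of_nonneg_left N.ww_norm' N.e_nonneg
    linarith
  have h6 : ‖Λ aw - C'‖ ≤ e := by
    refine le_trans (N.rel_x aw N.aw_mem) ?_
    have := mul_le_mul_of_nonneg_left N.aw_norm N.e_nonneg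
    linarith
  have hid : Λ aw * (1 + (K : ℂ)) + (1 - 1 / (K : ℂ)) * (starRingEnd ℂ) (Λ w)
      = K * Λ (D.W3 f) + K * n w₃ + (starRingEnd ℂ) (A - Λ w / K)
        + (starRingEnd ℂ) (Λ w - B) + (Λ aw - C')
        + (D.form x x (star g * star f) - D.form x y (star g)) := by
    rw [h1, h2, h3]
    simp only [map_add, map_sub, map_div₀, Complex.conj_ofReal, Complex.conj_conj]
    field_simp
    ring
  rw [hid]
  refine le_trans (norm_add5 _ _ _ _ _ _) ?_
  simp only [norm_mul, Complex.norm_conj, Complex.norm_real, Real.norm_eq_abs, abs_of_pos hKpos]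
  linarith

/-- The combination of the two relations. -/
lemma combine :
    (K - 1) * (K ^ 2 + 1) * ‖AbsData.Lam f n (D.ww f)‖
      ≤ K * (K * ‖AbsData.Lam f n (D.W3 f)‖
        + K * ‖n ((1 - f * star f) * D.Kb (star (D.gg f)))‖ + 4 * e
        + ‖D.form x x (star (D.gg f) * star f) - D.form x y (star (D.gg f))‖)
        + K ^ 2 * (‖AbsData.Lam f n (D.Wt f)‖ / K + 4 * e
        + ‖D.form x y (f * D.ww f) - D.form y y (D.ww f)‖) := by
  have hKpos := N.K_pos
  have hK1 := N.K_ge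
  have hK0 : (K : ℂ) ≠ 0 := by exact_mod_cast hKpos.ne'
  have h1 := N.xi1_bound
  have h2 := N.xi2_bound
  set Λ := AbsData.Lam f n with hΛ
  set z := Λ (D.ww f) with hz
  set y₀ := Λ (D.Kb (star (D.ww f))) with hy₀
  set ξ₁ : ℂ := (starRingEnd ℂ) y₀ * (1 + 1 / (K : ℂ)) - ((K : ℂ) - 1) * z with hξ₁
  set ξ₂ : ℂ := y₀ * (1 + (K : ℂ)) + (1 - 1 / (K : ℂ)) * (starRingEnd ℂ) z with hξ₂
  have hid : (((K - 1) * (K ^ 2 + 1) : ℝ) : ℂ) * (starRingEnd ℂ) z
      = (K : ℂ) * ξ₂ - ((K : ℂ) ^ 2) * (starRingEnd ℂ) ξ₁ := by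
    rw [hξ₁, hξ₂]
    simp only [map_add, map_sub, map_mul, map_div₀, Complex.conj_ofReal, Complex.conj_conj, map_one]
    push_cast
    field_simp
    ring
  have hc : 0 ≤ (K - 1) * (K ^ 2 + 1) := by
    apply mul_nonneg <;> nlinarith
  have h3 : (K - 1) * (K ^ 2 + 1) * ‖z‖ ≤ K * ‖ξ₂‖ + K ^ 2 * ‖ξ₁‖ := by
    have h4 := congrArg norm hid
    rw [norm_mul, Complex.norm_conj, Complex.norm_real, Real.norm_eq_abs, abs_of_nonneg hc] at h4
    rw [h4]
    refine le_trans (norm_sub_le _ _) ?_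
    simp only [norm_mul, norm_pow, Complex.norm_conj, Complex.norm_real, Real.norm_eq_abs,
      abs_of_pos hKpos]
    rfl
  refine le_trans h3 ?_
  gcongr

lemma Lam_one_re : (AbsData.Lam f n 1).re = K' / K := by
  rw [N.Lam_one, Complex.ofReal_re]

lemma Lam_one_im : (AbsData.Lam f n 1).im = 0 := by
  rw [N.Lam_one, Complex.ofReal_im]

lemma eps_nonneg : 0 ≤ 1 - K' / K := by
  have := div_le_one_of_le₀ N.K'le N.K_pos.le
  linarith

lemma eps_le (hη : K - K' ≤ 1 / 100000000) : 1 - K' / K ≤ 1 / 100000000 := by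
  have hKpos := N.K_pos
  have h1 : 1 - K' / K = (K - K') / K := by
    field_simp
  rw [h1]
  have h0 : 0 ≤ K - K' := by linarith [N.K'le]
  calc (K - K') / K ≤ (K - K') / 1 := by
        apply div_le_div_of_nonneg_left h0 zero_lt_one N.K_ge
    _ = K - K' := by ring
    _ ≤ _ := hη

lemma z_norm : ‖AbsData.Lam f n (D.ww f)‖ ≤ 1 := by
  calc ‖AbsData.Lam f n (D.ww f)‖ ≤ ‖AbsData.Lam f n‖ * ‖D.ww f‖ := (AbsData.Lam f n).le_opNorm _
    _ ≤ 1 * 1 := by
        apply mul_le_mul N.Lam_norm N.ww_norm' (norm_nonneg _) zero_le_one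
    _ = 1 := one_mul 1

lemma Lam_pp_bound (hη : K - K' ≤ 1 / 100000000) :
    (AbsData.Lam f n (D.pp f)).re ≤ 1 + (AbsData.Lam f n (D.ww f)).re + 4 * (1 / 10000) := by
  apply D.Lam_pp_re_le (AbsData.Lam f n) N.Lam_norm N.f_norm N.Lam_one_im (1 / 10000)
    (by norm_num) (by norm_num)
  · rw [N.Lam_one_re]
    have := N.eps_le hη
    norm_num at this ⊢
    linarith
  · rw [N.Lam_one_re]
    exact N.eps_nonneg

lemma Lam_W_bound (hη : K - K' ≤ 1 / 100000000) (W : C(X, ℂ))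
    (hW : ∀ z, ‖W z‖ ^ 2 ≤ 2 * (D.pp f z).re) :
    ‖AbsData.Lam f n W‖ ≤ 3 / 10 + ((1 + (AbsData.Lam f n (D.ww f)).re) + 4 / 10000) * (5 / 3)
      + (3 / 10 + 10 / 3) * (1 - K' / K) := by
  have h1 := D.Lam_W_le (AbsData.Lam f n) N.Lam_norm N.f_norm W hW (3 / 5) (by norm_num)
  rw [N.Lam_one_re] at h1
  have h2 := N.Lam_pp_bound hη
  have h3 := N.eps_nonneg
  norm_num at h1 h2 h3 ⊢
  linarith

lemma B0_le : D.B0 x y f ≤ 2 * (2 - (D.form x y f).re) := by
  have h1 := D.re_form_star_mul_self_le x N.x_norm f N.f_norm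
  have h2 := D.form_one y N.y_norm
  unfold AbsData.B0
  rw [h2]
  simp only [Complex.re_ofNat]
  linarith

lemma b_nonneg : 0 ≤ 2 - (D.form x y f).re := by
  have h1 := N.B0_le
  have h2 := D.B0_nonneg x y f
  linarith

lemma b_le : 2 - (D.form x y f).re
    ≤ 2 - K' - (AbsData.Lam f n (D.ww f)).re / K + 2 * e := by
  have hstep : ‖D.form x y f - (K' : ℂ)
      - (starRingEnd ℂ) (AbsData.Lam f n (D.ww f)) / (K : ℂ)‖ ≤ 2 * e := N.step_one
  have h1 := (abs_le.mp (Complex.abs_re_le_norm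
    (D.form x y f - (K' : ℂ) - (starRingEnd ℂ) (AbsData.Lam f n (D.ww f)) / (K : ℂ)))).1
  have h2 : (D.form x y f - (K' : ℂ) - (starRingEnd ℂ) (AbsData.Lam f n (D.ww f)) / (K : ℂ)).re
      = (D.form x y f).re - K' - (AbsData.Lam f n (D.ww f)).re / K := by
    simp only [Complex.sub_re, Complex.ofReal_re, Complex.div_ofReal_re, Complex.conj_re]
  rw [h2] at h1
  linarith

lemma d1_le : ‖D.form x y (f * D.ww f) - D.form y y (D.ww f)‖
    ≤ 31 / 200 + (2 - (D.form x y f).re) / (31 / 200) := by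
  apply le_add_div_of_sq_le _ _ _ (by norm_num) N.b_nonneg
  have h1 := D.cs_y x y f (D.ww f)
  have h2 := D.re_form_star_mul_self_le y N.y_norm (D.ww f) N.ww_norm'
  have h3 := N.B0_le
  have h4 := D.B0_nonneg x y f
  have h5 := mul_le_mul_of_nonneg_right h2 h4
  linarith

lemma d2_le : ‖D.form x x (star (D.gg f) * star f) - D.form x y (star (D.gg f))‖
    ≤ 31 / 200 + (2 - (D.form x y f).re) / (31 / 200) := by
  apply le_add_div_of_sq_le _ _ _ (by norm_num) N.b_nonneg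
  have h1 := D.cs_x x y f (star (D.gg f))
  have h2 := D.re_form_star_mul_self_le x N.x_norm (star (D.gg f))
    (by rw [norm_star]; exact N.gg_norm')
  have h3 := N.B0_le
  have h4 := D.B0_nonneg x y f
  have h5 := mul_le_mul_of_nonneg_right h2 h4
  linarith

lemma nw_le : ‖n ((1 - f * star f) * D.Kb (star (D.gg f)))‖ ≤ 2 * (1 - K' / K) := by
  have h1 := norm_apply_le_of_le_one_sub n N.n_norm f
    ((1 - f * star f) * D.Kb (star (D.gg f))) N.f_norm (fun t => by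
      have h2 : ‖D.Kb (star (D.gg f)) t‖ ≤ 1 :=
        le_trans ((D.Kb (star (D.gg f))).norm_coe_le_norm t) N.ag_norm
      have h3 : ‖f t‖ ≤ 1 := le_trans (f.norm_coe_le_norm t) N.f_norm
      have h4 : ((1 - f * star f) * D.Kb (star (D.gg f))) t
          = ((1 - ‖f t‖ ^ 2 : ℝ) : ℂ) * D.Kb (star (D.gg f)) t := by
        simp only [ContinuousMap.mul_apply, ContinuousMap.sub_apply, ContinuousMap.one_apply,
          ContinuousMap.star_apply, Complex.star_def, Complex.mul_conj,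
          Complex.normSq_eq_norm_sq]
        push_cast
        ring
      have h5 : 0 ≤ 1 - ‖f t‖ ^ 2 := by nlinarith [norm_nonneg (f t)]
      rw [h4, norm_mul, Complex.norm_real, Real.norm_eq_abs, abs_of_nonneg h5]
      nlinarith)
  rw [N.n_f] at h1
  simpa using h1

/-- The main contradiction: there is no near extremal configuration with `K ≥ 2.33`. -/
theorem main_near (he : e = 1 / 10000) (hK : 233 / 100 ≤ K) (hη : K - K' ≤ 1 / 100000000) :
    False := by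
  have hcomb := N.combine
  have hb1 := N.b_le
  rw [he] at hcomb hb1
  have hzre := abs_le.mp (le_trans (Complex.abs_re_le_norm _) N.z_norm)
  exact arith_core K K' (AbsData.Lam f n (D.ww f)).re ‖AbsData.Lam f n (D.ww f)‖
    (1 + (AbsData.Lam f n (D.ww f)).re) (2 - (D.form x y f).re) (1 - K' / K) _ _ _ _ _ _
    hK hη N.K'le hzre.1 (by linarith [(abs_le.mp (Complex.abs_re_le_norm
      (AbsData.Lam f n (D.ww f)))).1]) rfl N.eps_nonneg (N.eps_le hη) rfl
    (N.Lam_W_bound hη _ (D.Wt_sq_le N.f_norm)) (N.Lam_W_bound hη _ (D.W3_sq_le N.f_norm))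
    N.nw_le N.b_nonneg hb1 N.d1_le N.d2_le (norm_nonneg _) (norm_nonneg _) (norm_nonneg _)
    (norm_nonneg _) (norm_nonneg _) hcomb

end AbsData.Near

namespace AbsData

variable (D : AbsData X H)

/-- The restriction of the functional calculus to the subalgebra. -/
def L : D.𝒜.toSubmodule →L[ℂ] (H →L[ℂ] H) := D.T.comp D.𝒜.toSubmodule.subtypeL

lemma L_apply (h : D.𝒜.toSubmodule) : D.L h = D.T h.1 := rfl

lemma exists_near (s : ℝ) (hs : 0 < s) (hs1 : s ≤ 1) (hK : 1 ≤ ‖D.L‖) :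
    ∃ (f : C(X, ℂ)) (x y : H) (K' : ℝ) (n : C(X, ℂ) →L[ℂ] ℂ),
      D.Near f x y ‖D.L‖ K' s n ∧ ‖D.L‖ - K' ≤ s ^ 2 := by
  set K := ‖D.L‖ with hKdef
  have hKpos : 0 < K := by linarith
  set η := s ^ 2 / (2 * K) with hη
  have hηpos : 0 < η := by positivity
  have hη1 : η ≤ s ^ 2 / 2 := by
    rw [hη]
    apply div_le_div_of_nonneg_left (by positivity) (by norm_num)
    linarith
  have hs2 : s ^ 2 ≤ s := by nlinarith
  have hs3 : s ^ 2 ≤ 1 := by nlinarith
  obtain ⟨f₀, hf₀, h1⟩ := D.L.exists_lt_apply_of_lt_opNorm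
    (show K - η / 2 < ‖D.L‖ by rw [← hKdef]; linarith)
  rw [D.L_apply] at h1
  set U := D.T f₀.1 with hU
  obtain ⟨x₁, hx₁, h2⟩ := U.exists_lt_apply_of_lt_opNorm
    (show K - η < ‖U‖ by linarith)
  have hKη : 0 < K - η := by linarith
  have hx₁0 : x₁ ≠ 0 := by
    rintro rfl
    simp at h2
    linarith
  have hx₁pos : 0 < ‖x₁‖ := norm_pos_iff.mpr hx₁0
  have hfn : ‖f₀.1‖ ≤ 1 := le_of_lt hf₀
  have hbound : ∀ h ∈ D.𝒜, ‖D.T h‖ ≤ K * ‖h‖ := by
    intro h hh
    exact D.L.le_opNorm ⟨h, hh⟩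
  have hUn : ‖U‖ ≤ K := by
    calc ‖U‖ ≤ K * ‖f₀.1‖ := hbound _ f₀.2
      _ ≤ K * 1 := by gcongr
      _ = K := mul_one K
  set x : H := ((‖x₁‖⁻¹ : ℝ) : ℂ) • x₁ with hx
  have hxn : ‖x‖ = 1 := by
    rw [hx, norm_smul, Complex.norm_real, Real.norm_eq_abs, abs_of_pos (by positivity)]
    field_simp
  set K' := ‖U x‖ with hK'
  have h3 : K - η < K' := by
    have h4 : U x = ((‖x₁‖⁻¹ : ℝ) : ℂ) • U x₁ := by rw [hx, map_smul]
    have h5 : K' = ‖x₁‖⁻¹ * ‖U x₁‖ := by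
      rw [hK', h4, norm_smul, Complex.norm_real, Real.norm_eq_abs, abs_of_pos (by positivity)]
    have h6 : 1 ≤ ‖x₁‖⁻¹ := by
      rw [one_le_inv₀ hx₁pos]
      exact hx₁.le
    rw [h5]
    have h7 : 0 ≤ ‖U x₁‖ := norm_nonneg _
    nlinarith
  have hK'pos : 0 < K' := by linarith
  have hK'le : K' ≤ K := by
    calc K' ≤ ‖U‖ * ‖x‖ := U.le_opNorm x
      _ = ‖U‖ := by rw [hxn, mul_one]
      _ ≤ K := hUn
  set y : H := ((K'⁻¹ : ℝ) : ℂ) • U x with hy
  have hyn : ‖y‖ = 1 := by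
    rw [hy, norm_smul, Complex.norm_real, Real.norm_eq_abs, abs_of_pos (by positivity), ← hK']
    field_simp
  have hUxy : U x = (K' : ℂ) • y := by
    rw [hy, smul_smul]
    have : (K' : ℂ) * ((K'⁻¹ : ℝ) : ℂ) = 1 := by
      push_cast
      have : (K' : ℂ) ≠ 0 := by exact_mod_cast hK'pos.ne'
      field_simp
    rw [this, one_smul]
  have hval : inner ℂ y (U x) = (K' : ℂ) := by
    rw [hUxy, inner_smul_right, inner_self_eq_norm_sq_to_K, hyn]
    simp
  have he1 : ‖U x - (K : ℂ) • y‖ ≤ s := by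
    have h4 : U x - (K : ℂ) • y = ((K' - K : ℝ) : ℂ) • y := by
      rw [hUxy]
      push_cast
      rw [sub_smul]
    rw [h4, norm_smul, hyn, mul_one, Complex.norm_real, Real.norm_eq_abs,
      abs_of_nonpos (by linarith)]
    linarith
  have he2 : ‖adjoint U y - (K : ℂ) • x‖ ≤ s := by
    have h4 : ‖adjoint U y - (K : ℂ) • x‖ ^ 2 ≤ s ^ 2 := by
      rw [@norm_sub_sq ℂ]
      have h5 : ‖adjoint U y‖ ≤ K := by
        calc ‖adjoint U y‖ ≤ ‖adjoint U‖ * ‖y‖ := (adjoint U).le_opNorm y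
          _ = ‖U‖ := by rw [hyn, mul_one, LinearIsometryEquiv.norm_map]
          _ ≤ K := hUn
      have h6 : ‖(K : ℂ) • x‖ = K := by
        rw [norm_smul, hxn, mul_one, Complex.norm_real, Real.norm_eq_abs, abs_of_pos hKpos]
      have h7 : (inner ℂ (adjoint U y) ((K : ℂ) • x) : ℂ) = ((K * K' : ℝ) : ℂ) := by
        rw [inner_smul_right, adjoint_inner_left, hval]
        push_cast
        ring
      rw [h6, h7]
      have h8 : (RCLike.re (((K * K' : ℝ) : ℂ)) : ℝ) = K * K' := by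
        simp
      rw [h8]
      have h9 : 2 * K * η = s ^ 2 := by
        rw [hη]
        field_simp
      have h10 : ‖adjoint U y‖ ^ 2 ≤ K ^ 2 := pow_le_pow_left₀ (norm_nonneg _) h5 2
      nlinarith
    exact abs_le_of_sq_le_sq' h4 hs.le |>.2
  -- Hahn-Banach
  set φ : D.𝒜.toSubmodule →L[ℂ] ℂ :=
    ((K⁻¹ : ℝ) : ℂ) • ((innerSL ℂ y).comp ((ContinuousLinearMap.apply ℂ H x).comp D.L)) with hφ
  have hφapp : ∀ h : D.𝒜.toSubmodule, (K : ℂ) * φ h = inner ℂ y (D.T h.1 x) := by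
    intro h
    have h5 : φ h = ((K⁻¹ : ℝ) : ℂ) * inner ℂ y (D.T h.1 x) := rfl
    rw [h5, ← mul_assoc]
    have : (K : ℂ) * ((K⁻¹ : ℝ) : ℂ) = 1 := by
      push_cast
      have : (K : ℂ) ≠ 0 := by exact_mod_cast hKpos.ne'
      field_simp
    rw [this, one_mul]
  have hφn : ‖φ‖ ≤ 1 := by
    refine ContinuousLinearMap.opNorm_le_bound _ zero_le_one (fun h => ?_)
    have h5 : K * ‖φ h‖ ≤ K * (1 * ‖h‖) := by
      calc K * ‖φ h‖ = ‖(K : ℂ) * φ h‖ := by
            rw [norm_mul, Complex.norm_real, Real.norm_eq_abs, abs_of_pos hKpos]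
        _ = ‖(inner ℂ y (D.T h.1 x) : ℂ)‖ := by rw [hφapp]
        _ ≤ ‖y‖ * ‖D.T h.1 x‖ := norm_inner_le_norm _ _
        _ = ‖D.T h.1 x‖ := by rw [hyn, one_mul]
        _ ≤ ‖D.T h.1‖ * ‖x‖ := (D.T h.1).le_opNorm x
        _ = ‖D.T h.1‖ := by rw [hxn, mul_one]
        _ ≤ K * ‖h.1‖ := hbound h.1 h.2
        _ = K * (1 * ‖h‖) := by rw [one_mul]; rfl
    exact le_of_mul_le_mul_left h5 hKpos
  obtain ⟨n, hn1, hn2⟩ := exists_extension_norm_eq (𝕜 := ℂ) D.𝒜.toSubmodule φ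
  refine ⟨f₀.1, x, y, K', n, ?_, ?_⟩
  · exact
    { f_mem := f₀.2
      f_norm := hfn
      x_norm := hxn
      y_norm := hyn
      K_ge := hK
      bound := hbound
      K'val := hval
      K'le := hK'le
      e_nonneg := hs.le
      e1 := he1
      e2 := he2
      n_norm := by rw [hn2]; exact hφn
      n_eq := fun h hh => by
        have h5 := hn1 ⟨h, hh⟩
        have h6 := hφapp ⟨h, hh⟩
        simp only at h5 h6
        rw [h5]
        exact h6 }
  · nlinarith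

/-- The abstract form of the improved bound. -/
theorem abstract_bound (u : C(X, ℂ)) (hu : u ∈ D.𝒜) : ‖D.T u‖ ≤ (233 / 100) * ‖u‖ := by
  have hmain : ‖D.L‖ ≤ 233 / 100 := by
    by_contra hcon
    push Not at hcon
    obtain ⟨f, x, y, K', n, hN, hη⟩ := D.exists_near (1 / 10000) (by norm_num) (by norm_num)
      (by linarith)
    refine hN.main_near rfl hcon.le ?_
    norm_num at hη ⊢
    linarith
  calc ‖D.T u‖ ≤ ‖D.L‖ * ‖u‖ := D.L.le_opNorm ⟨u, hu⟩
    _ ≤ (233 / 100) * ‖u‖ := by gcongr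

end AbsData

end Vale.Agent.helper3.CP
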