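import Vale.Agent.helper3.CP.Neumann
import Vale.Agent.helper3.CP.Chain

/-!
# Assembling the abstract data for an operator inside a curve
-/

open Complex MeasureTheory intervalIntegral ContinuousLinearMap Polynomial
open scoped Real ComplexOrder

set_option linter.unusedSimpArgs false
set_option linter.deprecated false
set_option linter.unusedSectionVars false

noncomputable section

namespace Vale.Agent.helper3.CP

variable {H : Type*} [NormedAddCommGroup H] [InnerProductSpace ℂ H] [CompleteSpace H]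

variable {C : Curve} {A : H →L[ℂ] H} {c : ℝ}

/-- The function `s ↦ γ t - ρ γ s`. -/
def lfun (C : Curve) (ρ t : ℝ) : C(PI, ℂ) := (C.γ t) • (1 : C(PI, ℂ)) - (ρ : ℂ) • gamX C

lemma lfun_apply (ρ t : ℝ) (s : PI) : lfun C ρ t s = C.γ t - ρ * C.γ s := by
  simp only [lfun, ContinuousMap.sub_apply, ContinuousMap.smul_apply, ContinuousMap.one_apply,
    smul_eq_mul, mul_one]
  rfl

lemma lfun_mem (ρ t : ℝ) : lfun C ρ t ∈ polyAlg C :=
  (polyAlg C).sub_mem ((polyAlg C).smul_mem (polyAlg C).one_mem _)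
    ((polyAlg C).smul_mem gamX_mem_polyAlg _)

/-- The joint function `(t, s) ↦ (γ t - ρ γ s)⁻¹`. -/
def eJoint (C : Curve) (ρ : ℝ) (h0 : 0 ≤ ρ) (h1 : ρ < 1) : C(ℝ × PI, ℂ) :=
  ⟨fun p => (C.γ p.1 - ρ * C.γ p.2)⁻¹, by
    apply Continuous.inv₀
    · exact (C.continuous_γ.comp continuous_fst).sub
        (continuous_const.mul (C.continuous_γ.comp (continuous_subtype_val.comp continuous_snd)))
    · intro p
      exact denom_ne C ρ h0 h1 _ _⟩

/-- The inverse function as a continuous family of elements of `C(PI, ℂ)`. -/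
def eX (C : Curve) (ρ : ℝ) (h0 : 0 ≤ ρ) (h1 : ρ < 1) : C(ℝ, C(PI, ℂ)) := (eJoint C ρ h0 h1).curry

lemma eX_apply (ρ : ℝ) (h0 : 0 ≤ ρ) (h1 : ρ < 1) (t : ℝ) (s : PI) :
    eX C ρ h0 h1 t s = (C.γ t - ρ * C.γ s)⁻¹ := rfl

lemma eX_mul_lfun (ρ : ℝ) (h0 : 0 ≤ ρ) (h1 : ρ < 1) (t : ℝ) :
    eX C ρ h0 h1 t * lfun C ρ t = 1 := by
  ext s
  simp only [ContinuousMap.mul_apply, eX_apply, lfun_apply, ContinuousMap.one_apply]
  exact inv_mul_cancel₀ (denom_ne C ρ h0 h1 _ _)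

/-- Neumann series: an element of a closed subalgebra whose values lie in a half plane away from
zero has its inverse in the closed subalgebra. -/
lemma inverse_mem (S : Subalgebra ℂ C(PI, ℂ)) (hS : IsClosed (S : Set C(PI, ℂ)))
    (l e : C(PI, ℂ)) (hl : l ∈ S) (hel : e * l = 1) (w : ℂ) (hw : ‖w‖ = 1) (a b : ℝ) (ha : 0 < a)
    (hb : 0 < b) (hre : ∀ s, a ≤ (w * l s).re) (hnorm : ∀ s, ‖l s‖ ≤ b) : e ∈ S := by
  have hab : a ≤ b := by
    obtain s : PI := ⟨0, le_rfl, by positivity⟩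
    have h1 := hre s
    have h2 : (w * l s).re ≤ ‖l s‖ := by
      refine le_trans (Complex.re_le_norm _) ?_
      rw [norm_mul, hw, one_mul]
    linarith [hnorm s]
  set lam : ℝ := a / b ^ 2 with hlam
  have hlamp : 0 < lam := by positivity
  set y : C(PI, ℂ) := 1 - ((lam : ℂ) * w) • l with hy
  have hyS : y ∈ S := S.sub_mem S.one_mem (S.smul_mem hl _)
  set x : ℝ := a ^ 2 / b ^ 2 with hx
  have hx0 : 0 < x := by positivity
  have hx1 : x ≤ 1 := by
    rw [hx, div_le_one (by positivity)]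
    exact pow_le_pow_left₀ ha.le hab 2
  have hyn : ‖y‖ ≤ 1 - x / 2 := by
    rw [ContinuousMap.norm_le _ (by linarith)]
    intro s
    have h1 : y s = 1 - (lam : ℂ) * (w * l s) := by
      simp only [hy, ContinuousMap.sub_apply, ContinuousMap.one_apply, ContinuousMap.smul_apply,
        smul_eq_mul]
      ring
    have h2 : ‖y s‖ ^ 2 ≤ (1 - x / 2) ^ 2 := by
      rw [h1]
      set z := w * l s with hz
      have hzn : ‖z‖ ≤ b := by
        rw [hz, norm_mul, hw, one_mul]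
        exact hnorm s
      have hzre := hre s
      rw [← hz] at hzre
      have h3 : ‖1 - (lam : ℂ) * z‖ ^ 2 = 1 - 2 * lam * z.re + lam ^ 2 * ‖z‖ ^ 2 := by
        rw [← Complex.normSq_eq_norm_sq, ← Complex.normSq_eq_norm_sq, Complex.normSq_apply,
          Complex.normSq_apply]
        simp only [Complex.sub_re, Complex.sub_im, Complex.mul_re, Complex.mul_im, Complex.one_re,
          Complex.one_im, Complex.ofReal_re, Complex.ofReal_im]
        ring
      rw [h3]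
      have h4 : lam ^ 2 * ‖z‖ ^ 2 ≤ lam ^ 2 * b ^ 2 := by
        gcongr
      have h5 : lam ^ 2 * b ^ 2 = x := by
        rw [hlam, hx]
        field_simp
      have h6 : lam * a = x := by
        rw [hlam, hx]
        field_simp
      have h7 : lam * a ≤ lam * z.re := by gcongr
      nlinarith
    exact abs_le_of_sq_le_sq' h2 (by linarith) |>.2
  have hylt : ‖y‖ < 1 := by linarith
  set Z : C(PI, ℂ) := ∑' i : ℕ, y ^ i with hZ
  have hZS : Z ∈ S := by
    have hsum := (summable_geometric_of_norm_lt_one hylt).hasSum.tendsto_sum_nat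
    refine hS.mem_of_tendsto hsum (Filter.Eventually.of_forall fun n => ?_)
    exact S.sum_mem fun i _ => S.pow_mem hyS i
  have hZy : Z * (1 - y) = 1 := geom_series_mul_neg y hylt
  have h1y : 1 - y = ((lam : ℂ) * w) • l := by
    rw [hy]; abel
  rw [h1y, mul_smul_comm] at hZy
  have hle : (((lam : ℂ) * w) • Z) * l = 1 := by
    rw [smul_mul_assoc]
    exact hZy
  have hee : e = ((lam : ℂ) * w) • Z := by
    ext s
    have h3 := congrArg (fun f : C(PI, ℂ) => f s) hel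
    have h4 := congrArg (fun f : C(PI, ℂ) => f s) hle
    simp only [ContinuousMap.mul_apply, ContinuousMap.one_apply] at h3 h4
    have hl0 : l s ≠ 0 := by
      intro h0
      rw [h0, mul_zero] at h3
      exact zero_ne_one h3
    exact mul_right_cancel₀ hl0 (h3.trans h4.symm)
  rw [hee]
  exact S.smul_mem hZS _

lemma eX_mem (ρ : ℝ) (h0 : 0 ≤ ρ) (h1 : ρ < 1) (t : ℝ) : eX C ρ h0 h1 t ∈ polyAlg C := by
  obtain ⟨D, hD, hγ⟩ := C.exists_norm_γ_le
  apply inverse_mem (polyAlg C) polyAlg_closed (lfun C ρ t) _ (lfun_mem ρ t) (eX_mul_lfun ρ h0 h1 t)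
    (Complex.exp (-(t * I))) (norm_exp_neg t) ((1 - ρ) * C.h₀) (D + D)
    (mul_pos (by linarith) C.h₀_pos) (by linarith)
  · intro s
    rw [lfun_apply]
    exact re_sub_ge C ρ h0 h1.le s t
  · intro s
    rw [lfun_apply]
    refine le_trans (norm_sub_le _ _) ?_
    gcongr
    · exact hγ t
    · rw [norm_mul, Complex.norm_real, Real.norm_eq_abs, abs_of_nonneg h0]
      calc ρ * ‖C.γ s‖ ≤ 1 * D := mul_le_mul h1.le (hγ s) (norm_nonneg _) zero_le_one
        _ = D := one_mul D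

lemma Tt_gamX (hA : Inside C A c) : Tt hA (gamX C) = A := by
  simpa using Tt_gamX_pow hA 1

lemma Tt_lfun (hA : Inside C A c) (ρ t : ℝ) : Tt hA (lfun C ρ t) = Bop C A ρ t := by
  unfold lfun Bop
  rw [map_sub, map_smul, map_smul, Tt_one, Tt_gamX]

lemma Tt_eX (hA : Inside C A c) (ρ : ℝ) (h0 : 0 ≤ ρ) (h1 : ρ < 1) (t : ℝ) :
    Tt hA (eX C ρ h0 h1 t) = Res C A ρ t := by
  have h2 := Tt_mul hA _ (eX_mem ρ h0 h1 t) _ (lfun_mem ρ t)
  rw [eX_mul_lfun, Tt_one, Tt_lfun] at h2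
  have h3 := res_mul hA ρ t h0 h1.le
  calc Tt hA (eX C ρ h0 h1 t) = Tt hA (eX C ρ h0 h1 t) * (Bop C A ρ t * Res C A ρ t) := by
        rw [h3, mul_one]
    _ = (Tt hA (eX C ρ h0 h1 t) * Bop C A ρ t) * Res C A ρ t := by rw [mul_assoc]
    _ = Res C A ρ t := by rw [← h2, one_mul]

/-- The interior Cauchy integral as an element of the function algebra. -/
def GX (C : Curve) (n : ℕ) (ρ : ℝ) (h0 : 0 ≤ ρ) (h1 : ρ < 1) : C(PI, ℂ) :=
  (2 * π * I)⁻¹ • ∫ t in (0:ℝ)..(2 * π), (U C n t * C.γ' t) • eX C ρ h0 h1 t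

lemma continuous_GXI (n : ℕ) (ρ : ℝ) (h0 : 0 ≤ ρ) (h1 : ρ < 1) :
    Continuous fun t => (U C n t * C.γ' t) • eX C ρ h0 h1 t :=
  ((continuous_U C n).mul C.continuous_γ').smul (eX C ρ h0 h1).continuous

lemma GX_apply (n : ℕ) (ρ : ℝ) (h0 : 0 ≤ ρ) (h1 : ρ < 1) (s : PI) :
    GX C n ρ h0 h1 s = Gf C n ρ s := by
  have hL := (ContinuousMap.evalCLM ℂ s).intervalIntegral_comp_comm
    (ciI (continuous_GXI (C := C) n ρ h0 h1) 0 (2 * π))
  simp only [ContinuousMap.evalCLM_apply, ContinuousMap.smul_apply, smul_eq_mul, eX_apply] at hL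
  unfold GX Gf
  simp only [ContinuousMap.smul_apply, smul_eq_mul]
  rw [← hL]
  congr 2
  ext1 t
  rw [div_eq_mul_inv]
  ring

/-- Integrals of continuous functions with values in a closed submodule stay in the submodule. -/
lemma integral_mem_of_closed {E : Type*} [NormedAddCommGroup E] [NormedSpace ℂ E] [CompleteSpace E]
    (S : Submodule ℂ E) (hS : IsClosed (S : Set E)) (f : ℝ → E) (hf : Continuous f)
    (hfS : ∀ t, f t ∈ S) (a b : ℝ) : ∫ t in a..b, f t ∈ S := by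
  have : CompleteSpace S := hS.completeSpace_coe
  set g : ℝ → S := fun t => ⟨f t, hfS t⟩ with hg
  have hgc : Continuous g := hf.subtype_mk _
  have h := (S.subtypeL).intervalIntegral_comp_comm (ciI hgc a b)
  have h1 : (∫ t in a..b, S.subtypeL (g t)) = ∫ t in a..b, f t := rfl
  rw [h1] at h
  rw [h]
  exact (∫ t in a..b, g t).2

lemma GX_mem (n : ℕ) (ρ : ℝ) (h0 : 0 ≤ ρ) (h1 : ρ < 1) : GX C n ρ h0 h1 ∈ polyAlg C := by
  apply (polyAlg C).smul_mem
  have hclosed : IsClosed ((polyAlg C).toSubmodule : Set C(PI, ℂ)) := polyAlg_closed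
  exact integral_mem_of_closed (polyAlg C).toSubmodule hclosed _ (continuous_GXI n ρ h0 h1)
    (fun t => (polyAlg C).smul_mem (eX_mem ρ h0 h1 t) _) _ _

lemma Tt_GX (hA : Inside C A c) (n : ℕ) (ρ : ℝ) (h0 : 0 ≤ ρ) (h1 : ρ < 1) :
    Tt hA (GX C n ρ h0 h1)
      = (2 * π * I)⁻¹ • ∫ t in (0:ℝ)..(2 * π), (U C n t * C.γ' t) • Res C A ρ t := by
  unfold GX
  rw [map_smul, ← (Tt hA).intervalIntegral_comp_comm (ciI (continuous_GXI n ρ h0 h1) 0 (2 * π))]
  congr 2
  ext1 t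
  rw [map_smul, Tt_eX hA]

/-- The conjugate of a power as an element of the function algebra. -/
def uX (C : Curve) (n : ℕ) : C(PI, ℂ) := star (gamX C ^ n)

lemma lift_uX (n : ℕ) {t : ℝ} (ht : t ∈ Set.Icc (0:ℝ) (2 * π)) : lift (uX C n) t = U C n t := by
  unfold uX
  rw [lift_star, lift_gamX_pow n ht]
  simp [U]

lemma Kop_uX_apply (n : ℕ) (s : PI) : Kop C (uX C n) s = Kf C n s := by
  rw [Kop_apply]
  unfold Kf
  apply intervalIntegral.integral_congr
  intro t ht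
  rw [Set.uIcc_of_le two_pi_nonneg'] at ht
  simp only [lift_uX n ht]

lemma norm_GX_sub_Kop_le (n : ℕ) (ρ : ℝ) (h0 : 0 ≤ ρ) (h1 : ρ < 1) (ε : ℝ) (hε : 0 ≤ ε)
    (h : ∀ s, ‖Gf C n ρ s - Kf C n s‖ ≤ ε) : ‖GX C n ρ h0 h1 - Kop C (uX C n)‖ ≤ ε := by
  rw [ContinuousMap.norm_le _ hε]
  intro s
  rw [ContinuousMap.sub_apply, GX_apply, Kop_uX_apply]
  exact h s

lemma Kop_uX_mem (n : ℕ) : Kop C (uX C n) ∈ polyAlg C := by
  have h : Kop C (uX C n) ∈ closure (polyAlg C : Set C(PI, ℂ)) := by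
    rw [Metric.mem_closure_iff]
    intro ε hε
    obtain ⟨ρ₁, h0, h1, hρ⟩ := uniform_limit C n (ε / 2) (by positivity)
    refine ⟨GX C n ρ₁ h0 h1, GX_mem n ρ₁ h0 h1, ?_⟩
    rw [dist_comm, dist_eq_norm]
    have := norm_GX_sub_Kop_le (C := C) n ρ₁ h0 h1 (ε / 2) (by positivity) (hρ ρ₁ le_rfl h1)
    linarith
  rwa [polyAlg_closed.closure_eq] at h

/-- The resolvents converge. -/
lemma norm_Res_sub_le (hA : Inside C A c) (ρ t : ℝ) (h0 : 0 ≤ ρ) (h1 : ρ ≤ 1) :
    ‖Res C A ρ t - Res C A 1 t‖ ≤ (1 - ρ) * (‖A‖ * (1 / c) ^ 2) := by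
  rw [res_sub hA ρ 1 t h0 h1 zero_le_one le_rfl, norm_smul, Complex.norm_real, Real.norm_eq_abs,
    abs_of_nonpos (by linarith)]
  have hc := hA.c_pos
  have hn1 := norm_res_le hA ρ t h0 h1
  have hn2 := norm_res_le hA 1 t zero_le_one le_rfl
  have h2 : ‖Res C A ρ t * A * Res C A 1 t‖ ≤ ‖A‖ * (1 / c) ^ 2 := by
    calc _ ≤ ‖Res C A ρ t‖ * ‖A‖ * ‖Res C A 1 t‖ := norm_mul_le_of_le (norm_mul_le _ _) le_rfl
      _ ≤ (1 / c) * ‖A‖ * (1 / c) := by gcongr
      _ = _ := by ring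
  have h3 : -(ρ - 1) = 1 - ρ := by ring
  rw [h3]
  exact mul_le_mul_of_nonneg_left h2 (by linarith)

lemma norm_Tt_GX_sub_le (hA : Inside C A c) (n : ℕ) (D : ℝ) (hD : 0 < D) (hγ : ∀ t, ‖C.γ t‖ ≤ D)
    (ρ : ℝ) (h0 : 0 ≤ ρ) (h1 : ρ < 1) :
    ‖Tt hA (GX C n ρ h0 h1) - Tt hA (uX C n)‖ ≤ (1 - ρ) * (D ^ n * C.R₁ * (‖A‖ * (1 / c) ^ 2)) := by
  rw [Tt_GX, Tt_apply, ← smul_sub]
  have hc1 : Continuous fun t => (U C n t * C.γ' t) • Res C A ρ t :=
    ((continuous_U C n).mul C.continuous_γ').smul (continuous_res hA ρ h0 h1.le)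
  have hcong : ∫ t in (0:ℝ)..(2 * π), (lift (uX C n) t * C.γ' t) • Res C A 1 t
      = ∫ t in (0:ℝ)..(2 * π), (U C n t * C.γ' t) • Res C A 1 t := by
    apply intervalIntegral.integral_congr
    intro t ht
    rw [Set.uIcc_of_le two_pi_nonneg'] at ht
    simp only [lift_uX n ht]
  have hc2 : Continuous fun t => (U C n t * C.γ' t) • Res C A 1 t :=
    ((continuous_U C n).mul C.continuous_γ').smul (continuous_res hA 1 zero_le_one le_rfl)
  rw [hcong, ← intervalIntegral.integral_sub (ciI hc1 _ _) (ciI hc2 _ _), norm_smul, norm_inv]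
  have hπ := Real.pi_pos
  have h5 : ‖(2 * π * I : ℂ)‖ = 2 * π := by
    simp [abs_of_pos hπ]
  rw [h5]
  have hρp : 0 ≤ 1 - ρ := by linarith
  have hR := C.R₁_pos
  have hcp := hA.c_pos
  have hnorm : ∀ t ∈ Set.uIoc (0 : ℝ) (2 * π),
      ‖(U C n t * C.γ' t) • Res C A ρ t - (U C n t * C.γ' t) • Res C A 1 t‖
        ≤ (1 - ρ) * (D ^ n * C.R₁ * (‖A‖ * (1 / c) ^ 2)) := by
    intro t _
    rw [← smul_sub, norm_smul, norm_mul]
    have h6 : ‖U C n t‖ ≤ D ^ n := by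
      unfold U
      rw [norm_pow, Complex.norm_conj]
      exact pow_le_pow_left₀ (norm_nonneg _) (hγ t) n
    have h7 := C.norm_γ'_le t
    have h8 := norm_Res_sub_le hA ρ t h0 h1.le
    calc ‖U C n t‖ * ‖C.γ' t‖ * ‖Res C A ρ t - Res C A 1 t‖
        ≤ D ^ n * C.R₁ * ((1 - ρ) * (‖A‖ * (1 / c) ^ 2)) := by gcongr
      _ = _ := by ring
  have h9 := intervalIntegral.norm_integral_le_of_norm_le_const hnorm
  rw [sub_zero, abs_of_pos (by positivity)] at h9
  calc (2 * π)⁻¹ * _ ≤ (2 * π)⁻¹ * ((1 - ρ) * (D ^ n * C.R₁ * (‖A‖ * (1 / c) ^ 2)) * (2 * π)) := by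
        gcongr
    _ = _ := by
        field_simp

lemma Tt_Kop_uX (hA : Inside C A c) (n : ℕ) : Tt hA (Kop C (uX C n)) = Tt hA (uX C n) := by
  obtain ⟨D, hD, hγ⟩ := C.exists_norm_γ_le
  set K₁ := D ^ n * C.R₁ * (‖A‖ * (1 / c) ^ 2) with hK₁
  have hcp := hA.c_pos
  have hR := C.R₁_pos
  have hK₁0 : 0 ≤ K₁ := by positivity
  have key : ∀ ε > 0, ‖Tt hA (Kop C (uX C n)) - Tt hA (uX C n)‖ ≤ (‖Tt hA‖ + 1) * ε := by
    intro ε hε
    obtain ⟨ρ₁, h0, h1, hρ⟩ := uniform_limit C n ε hε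
    set ρ := max ρ₁ (1 - min 1 (ε / (K₁ + 1))) with hρdef
    have hθp : 0 < min 1 (ε / (K₁ + 1)) := lt_min one_pos (by positivity)
    have hρ0 : 0 ≤ ρ := le_trans h0 (le_max_left _ _)
    have hρ1 : ρ < 1 := max_lt h1 (by linarith)
    have h2 := norm_GX_sub_Kop_le (C := C) n ρ hρ0 hρ1 ε hε.le (hρ ρ (le_max_left _ _) hρ1)
    have h3 := norm_Tt_GX_sub_le hA n D hD hγ ρ hρ0 hρ1
    have h4 : 1 - ρ ≤ ε / (K₁ + 1) := by
      have h5 : 1 - min 1 (ε / (K₁ + 1)) ≤ ρ := le_max_right _ _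
      have h6 : min 1 (ε / (K₁ + 1)) ≤ ε / (K₁ + 1) := min_le_right _ _
      linarith
    have h5 : (1 - ρ) * K₁ ≤ ε := by
      have h6 : (1 - ρ) * K₁ ≤ (ε / (K₁ + 1)) * K₁ := by gcongr
      refine le_trans h6 ?_
      have h7 : (ε / (K₁ + 1)) * K₁ = ε * (K₁ / (K₁ + 1)) := by ring
      rw [h7]
      have h8 : K₁ / (K₁ + 1) ≤ 1 := by
        rw [div_le_one (by positivity)]
        linarith
      nlinarith
    have h6 : ‖Tt hA (Kop C (uX C n)) - Tt hA (GX C n ρ hρ0 hρ1)‖ ≤ ‖Tt hA‖ * ε := by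
      rw [← map_sub]
      calc _ ≤ ‖Tt hA‖ * ‖Kop C (uX C n) - GX C n ρ hρ0 hρ1‖ := (Tt hA).le_opNorm _
        _ ≤ _ := by
            rw [norm_sub_rev]
            exact mul_le_mul_of_nonneg_left h2 (ContinuousLinearMap.opNorm_nonneg _)
    calc ‖Tt hA (Kop C (uX C n)) - Tt hA (uX C n)‖
        ≤ ‖Tt hA (Kop C (uX C n)) - Tt hA (GX C n ρ hρ0 hρ1)‖
          + ‖Tt hA (GX C n ρ hρ0 hρ1) - Tt hA (uX C n)‖ := norm_sub_le_norm_sub_add_norm_sub _ _ _
      _ ≤ ‖Tt hA‖ * ε + ε := by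
          apply add_le_add h6
          linarith
      _ = _ := by ring
  have h0 : ‖Tt hA (Kop C (uX C n)) - Tt hA (uX C n)‖ ≤ 0 := by
    by_contra hcon
    push Not at hcon
    set d := ‖Tt hA (Kop C (uX C n)) - Tt hA (uX C n)‖ with hd
    have hT : 0 ≤ ‖Tt hA‖ := ContinuousLinearMap.opNorm_nonneg _
    have h1 := key (d / (2 * (‖Tt hA‖ + 1))) (by positivity)
    have h2 : (‖Tt hA‖ + 1) * (d / (2 * (‖Tt hA‖ + 1))) = d / 2 := by
      field_simp
    rw [h2] at h1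
    linarith
  exact sub_eq_zero.mp (norm_eq_zero.mp (le_antisymm h0 (norm_nonneg _)))

/-- The key facts for all elements of the closed algebra. -/
lemma alpha_facts (hA : Inside C A c) (h : C(PI, ℂ)) (hh : h ∈ polyAlg C) :
    Kop C (star h) ∈ polyAlg C ∧ Tt hA (star h) = Tt hA (Kop C (star h)) := by
  set F : Set C(PI, ℂ) :=
    {h | Kop C (star h) ∈ polyAlg C ∧ Tt hA (star h) = Tt hA (Kop C (star h))} with hF
  have hstar : Continuous fun h : C(PI, ℂ) => star h := continuous_star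
  have hK : Continuous fun h : C(PI, ℂ) => Kop C (star h) := (Kop C).continuous.comp hstar
  have hclosed : IsClosed F := by
    apply IsClosed.inter
    · exact polyAlg_closed.preimage hK
    · exact isClosed_eq ((Tt hA).continuous.comp hstar) ((Tt hA).continuous.comp hK)
  have hmem : ∀ P : ℂ[X], aeval (gamX C) P ∈ F := by
    intro P
    rw [Polynomial.aeval_eq_sum_range]
    have h1 : star (∑ i ∈ Finset.range (P.natDegree + 1), P.coeff i • gamX C ^ i)
        = ∑ i ∈ Finset.range (P.natDegree + 1), ((starRingEnd ℂ) (P.coeff i)) • uX C i := by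
      rw [star_sum]
      apply Finset.sum_congr rfl
      intro i _
      rw [star_smul]
      rfl
    simp only [hF, Set.mem_setOf_eq]
    rw [h1]
    constructor
    · rw [map_sum]
      apply (polyAlg C).sum_mem
      intro i _
      rw [map_smul]
      exact (polyAlg C).smul_mem (Kop_uX_mem i) _
    · simp only [map_sum, map_smul]
      apply Finset.sum_congr rfl
      intro i _
      rw [Tt_Kop_uX]
  exact polyAlg_induction F hclosed hmem hh

/-- The data of the abstract theorem for an operator inside the curve. -/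
def absData (hA : Inside C A c) : AbsData PI H where
  T := Tt hA
  𝒜 := polyAlg C
  Kb := Kop C
  T_one := Tt_one hA
  T_mul := fun u hu v hv => Tt_mul hA u hu v hv
  Kb_one := Kop_one C
  Kb_nonneg := fun u hu z => Kop_nonneg C u hu z
  Kb_star := Kop_star C
  alpha_mem := fun h hh => (alpha_facts hA h hh).1
  T_star := fun h hh => (alpha_facts hA h hh).2
  S_nonneg := S_nonneg' hA
  S_pos := S_pos' hA

lemma aeval_gamX_apply (P : ℂ[X]) (s : PI) : aeval (gamX C) P s = P.eval (C.γ s) := by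
  have h := Polynomial.aeval_algHom_apply (ContinuousMap.evalAlgHom ℂ ℂ s) (gamX C) P
  have h2 : (ContinuousMap.evalAlgHom ℂ ℂ s) (gamX C) = C.γ s := rfl
  rw [h2] at h
  have h3 : (aeval (C.γ s)) P = P.eval (C.γ s) := by
    simp [Polynomial.aeval_def, Polynomial.eval₂_eq_eval_map]
  rw [← h3, h]
  rfl

/-- The bound for operators strictly inside a smooth convex curve. -/
theorem curve_bound (hA : Inside C A c) (P : ℂ[X]) (M : ℝ) (hM0 : 0 ≤ M)
    (hM : ∀ t, ‖P.eval (C.γ t)‖ ≤ M) :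
    ‖aeval A P‖ ≤ (233 / 100 : ℝ) * M := by
  have h1 := (absData hA).abstract_bound (aeval (gamX C) P) (aeval_mem_polyAlg P)
  have h2 : (absData hA).T (aeval (gamX C) P) = aeval A P := Tt_aeval hA P
  rw [h2] at h1
  refine le_trans h1 ?_
  gcongr
  rw [ContinuousMap.norm_le _ hM0]
  intro s
  rw [aeval_gamX_apply]
  exact hM s

end Vale.Agent.helper3.CP
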