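import Mathlib

/-!
# Smooth convex curves parametrised by the normal angle, and the Neumann kernel
-/

open Complex MeasureTheory intervalIntegral
open scoped Real

set_option linter.unusedSimpArgs false
set_option linter.deprecated false

noncomputable section

namespace Vale.Agent.helper3.CP

/-- Support-function data of a smooth uniformly convex curve containing `0` inside. -/
structure Curve where
  h : ℝ → ℝ
  h' : ℝ → ℝ
  r : ℝ → ℝ
  r₀ : ℝ
  R₁ : ℝ
  h₀ : ℝ
  r₀_pos : 0 < r₀
  h₀_pos : 0 < h₀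
  hasDeriv_h : ∀ t, HasDerivAt h (h' t) t
  hasDeriv_h' : ∀ t, HasDerivAt h' (r t - h t) t
  per_h : ∀ t, h (t + 2 * π) = h t
  per_h' : ∀ t, h' (t + 2 * π) = h' t
  per_r : ∀ t, r (t + 2 * π) = r t
  r_cont : Continuous r
  r_lower : ∀ t, r₀ ≤ r t
  r_upper : ∀ t, r t ≤ R₁
  h_lower : ∀ t, h₀ ≤ h t

namespace Curve

variable (C : Curve)

/-- The boundary curve. -/
def γ (t : ℝ) : ℂ := Complex.exp (t * I) * (C.h t + C.h' t * I)

/-- Its derivative. -/
def γ' (t : ℝ) : ℂ := I * Complex.exp (t * I) * C.r t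

/-- The Neumann kernel: `k s t dt` is `(1/π) d arg (γ t - γ s)`. -/
def k (s t : ℝ) : ℝ := (C.γ' t / (C.γ t - C.γ s)).im / π

lemma hasDerivAt_exp_mul_I (t : ℝ) :
    HasDerivAt (fun t : ℝ => Complex.exp (t * I)) (I * Complex.exp (t * I)) t := by
  have h1 : HasDerivAt (fun t : ℝ => (t : ℂ) * I) I t := by
    simpa using (Complex.ofRealCLM.hasDerivAt (x := t)).mul_const I
  have h2 := h1.cexp
  rw [mul_comm] at h2
  exact h2

lemma continuous_h : Continuous C.h :=
  continuous_iff_continuousAt.mpr fun t => (C.hasDeriv_h t).continuousAt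

lemma continuous_h' : Continuous C.h' :=
  continuous_iff_continuousAt.mpr fun t => (C.hasDeriv_h' t).continuousAt

lemma hasDerivAt_γ (t : ℝ) : HasDerivAt C.γ (C.γ' t) t := by
  have h1 : HasDerivAt (fun t : ℝ => ((C.h t : ℝ) : ℂ)) ((C.h' t : ℝ) : ℂ) t :=
    (C.hasDeriv_h t).ofReal_comp
  have h2 : HasDerivAt (fun t : ℝ => ((C.h' t : ℝ) : ℂ)) ((C.r t - C.h t : ℝ) : ℂ) t :=
    (C.hasDeriv_h' t).ofReal_comp
  have h3 : HasDerivAt C.γ (I * Complex.exp (t * I) * ((C.h t : ℂ) + (C.h' t : ℂ) * I)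
      + Complex.exp (t * I) * ((C.h' t : ℂ) + ((C.r t - C.h t : ℝ) : ℂ) * I)) t :=
    (hasDerivAt_exp_mul_I t).mul (h1.add (h2.mul_const I))
  have h4 : I * Complex.exp (t * I) * ((C.h t : ℂ) + (C.h' t : ℂ) * I)
      + Complex.exp (t * I) * ((C.h' t : ℂ) + ((C.r t - C.h t : ℝ) : ℂ) * I)
      = C.γ' t := by
    simp only [γ']
    push_cast
    ring_nf
    simp only [I_sq]
    ring
  rw [h4] at h3
  exact h3

lemma continuous_γ : Continuous C.γ :=
  continuous_iff_continuousAt.mpr fun t => (C.hasDerivAt_γ t).continuousAt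

lemma continuous_exp_mul_I : Continuous fun t : ℝ => Complex.exp (t * I) := by
  fun_prop

lemma continuous_γ' : Continuous C.γ' := by
  have := C.r_cont
  unfold γ'
  fun_prop

lemma exp_add_two_pi (t : ℝ) : Complex.exp (((t + 2 * π : ℝ) : ℂ) * I) = Complex.exp (t * I) := by
  push_cast
  rw [add_mul, Complex.exp_add, Complex.exp_two_pi_mul_I, mul_one]

lemma γ_add (t : ℝ) : C.γ (t + 2 * π) = C.γ t := by
  simp only [γ, exp_add_two_pi, C.per_h, C.per_h']

lemma γ'_add (t : ℝ) : C.γ' (t + 2 * π) = C.γ' t := by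
  simp only [γ', exp_add_two_pi, C.per_r]

lemma periodic_γ : Function.Periodic C.γ (2 * π) := C.γ_add

lemma periodic_γ' : Function.Periodic C.γ' (2 * π) := C.γ'_add

lemma norm_exp_mul_I (t : ℝ) : ‖Complex.exp (t * I)‖ = 1 := Complex.norm_exp_ofReal_mul_I t

lemma R₁_pos : 0 < C.R₁ := lt_of_lt_of_le C.r₀_pos (le_trans (C.r_lower 0) (C.r_upper 0))

lemma r_pos (t : ℝ) : 0 < C.r t := lt_of_lt_of_le C.r₀_pos (C.r_lower t)

lemma norm_γ'_le (t : ℝ) : ‖C.γ' t‖ ≤ C.R₁ := by
  simp only [γ', norm_mul, norm_I, norm_exp_mul_I, one_mul, Complex.norm_real, Real.norm_eq_abs]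
  rw [abs_of_pos (C.r_pos t)]
  exact C.r_upper t

lemma exp_neg_mul_exp (t : ℝ) : Complex.exp (-(t * I)) * Complex.exp (t * I) = 1 := by
  rw [← Complex.exp_add]
  simp

/-- `Re (e^{-it} γ t) = h t`. -/
lemma re_exp_mul_γ_self (t : ℝ) : (Complex.exp (-(t * I)) * C.γ t).re = C.h t := by
  simp only [γ]
  rw [← mul_assoc, exp_neg_mul_exp, one_mul]
  simp

/-- The function whose derivative is the chord derivative. -/
lemma hasDerivAt_chord (s v : ℝ) :
    HasDerivAt (fun v : ℝ => -(Complex.exp (-(s * I)) * (C.γ (s + v) - C.γ s)).re)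
      (Real.sin v * C.r (s + v)) v := by
  have h1 : HasDerivAt (fun v : ℝ => C.γ (s + v)) (C.γ' (s + v)) v :=
    (C.hasDerivAt_γ (s + v)).comp_const_add s v
  have h2 := ((h1.sub_const (C.γ s)).const_mul (Complex.exp (-(s * I))))
  have h3 : Complex.exp (-(s * I)) * C.γ' (s + v) = I * Complex.exp (v * I) * C.r (s + v) := by
    simp only [γ']
    have : Complex.exp (((s + v : ℝ) : ℂ) * I) = Complex.exp (s * I) * Complex.exp (v * I) := by
      rw [← Complex.exp_add]
      congr 1
      push_cast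
      ring
    rw [this]
    have h5 := exp_neg_mul_exp s
    linear_combination (I * Complex.exp (v * I) * C.r (s + v)) * h5
  rw [h3] at h2
  have h4 := (Complex.reCLM.hasFDerivAt.comp_hasDerivAt v h2).neg
  have h5 : -(Complex.reCLM (I * Complex.exp (v * I) * C.r (s + v))) = Real.sin v * C.r (s + v) := by
    simp only [Complex.reCLM_apply, Complex.mul_re, Complex.mul_im, Complex.I_re, Complex.I_im,
      Complex.ofReal_re, Complex.ofReal_im, Complex.exp_ofReal_mul_I_re, Complex.exp_ofReal_mul_I_im]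
    ring
  rw [h5] at h4
  exact h4

/-- Sign lemma: a function with derivative `sin v * q v`, `q ≥ 0`, vanishing at `0` and `2π`, is
nonnegative on `[0, 2π]`. -/
lemma nonneg_of_deriv_sin (φ q : ℝ → ℝ) (hφ : ∀ v, HasDerivAt φ (Real.sin v * q v) v)
    (hq : ∀ v, 0 ≤ q v) (h0 : φ 0 = 0) (h1 : φ (2 * π) = 0) (v : ℝ) (hv0 : 0 ≤ v)
    (hv1 : v ≤ 2 * π) : 0 ≤ φ v := by
  have hcont : Continuous φ := continuous_iff_continuousAt.mpr fun t => (hφ t).continuousAt
  rcases le_total v π with hvπ | hvπ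
  · have hmono : MonotoneOn φ (Set.Icc 0 π) := by
      apply monotoneOn_of_deriv_nonneg (convex_Icc _ _) hcont.continuousOn
        (fun t _ => (hφ t).differentiableAt.differentiableWithinAt)
      intro t ht
      rw [interior_Icc] at ht
      rw [(hφ t).deriv]
      exact mul_nonneg (Real.sin_nonneg_of_nonneg_of_le_pi ht.1.le ht.2.le) (hq t)
    have := hmono (Set.left_mem_Icc.mpr Real.pi_pos.le) ⟨hv0, hvπ⟩ hv0
    linarith
  · have hanti : AntitoneOn φ (Set.Icc π (2 * π)) := by
      apply antitoneOn_of_deriv_nonpos (convex_Icc _ _) hcont.continuousOn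
        (fun t _ => (hφ t).differentiableAt.differentiableWithinAt)
      intro t ht
      rw [interior_Icc] at ht
      rw [(hφ t).deriv]
      have hs : Real.sin t ≤ 0 := by
        have := Real.sin_nonneg_of_nonneg_of_le_pi (x := t - π) (by linarith [ht.1])
          (by linarith [ht.2])
        rw [Real.sin_sub_pi] at this
        linarith
      exact mul_nonpos_of_nonpos_of_nonneg hs (hq t)
    have := hanti ⟨hvπ, hv1⟩ (Set.right_mem_Icc.mpr (by linarith [Real.pi_pos])) hv1
    linarith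

/-- The two-sided chord estimate in the normal direction. -/
lemma chord_re_bounds (s v : ℝ) (h0 : 0 ≤ v) (h1 : v ≤ 2 * π) :
    C.r₀ * (1 - Real.cos v) ≤ -(Complex.exp (-(s * I)) * (C.γ (s + v) - C.γ s)).re ∧
    -(Complex.exp (-(s * I)) * (C.γ (s + v) - C.γ s)).re ≤ C.R₁ * (1 - Real.cos v) := by
  have hz : (fun v : ℝ => -(Complex.exp (-(s * I)) * (C.γ (s + v) - C.γ s)).re) 0 = 0 := by
    simp
  have hp : (fun v : ℝ => -(Complex.exp (-(s * I)) * (C.γ (s + v) - C.γ s)).re) (2 * π) = 0 := by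
    simp [C.γ_add]
  have hcos : ∀ v, HasDerivAt (fun v : ℝ => 1 - Real.cos v) (Real.sin v) v := by
    intro v
    simpa using (Real.hasDerivAt_cos v).const_sub 1
  constructor
  · have := nonneg_of_deriv_sin
      (fun v => -(Complex.exp (-(s * I)) * (C.γ (s + v) - C.γ s)).re - C.r₀ * (1 - Real.cos v))
      (fun v => C.r (s + v) - C.r₀)
      (fun v => by
        have h2 : HasDerivAt
            (fun v => -(Complex.exp (-(s * I)) * (C.γ (s + v) - C.γ s)).re
              - C.r₀ * (1 - Real.cos v))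
            (Real.sin v * C.r (s + v) - C.r₀ * Real.sin v) v :=
          (C.hasDerivAt_chord s v).sub ((hcos v).const_mul C.r₀)
        exact h2.congr_deriv (by ring))
      (fun v => by linarith [C.r_lower (s + v)])
      (by simp) (by simp [C.γ_add]) v h0 h1
    linarith
  · have := nonneg_of_deriv_sin
      (fun v => C.R₁ * (1 - Real.cos v) - -(Complex.exp (-(s * I)) * (C.γ (s + v) - C.γ s)).re)
      (fun v => C.R₁ - C.r (s + v))
      (fun v => by
        have h2 : HasDerivAt
            (fun v => C.R₁ * (1 - Real.cos v)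
              - -(Complex.exp (-(s * I)) * (C.γ (s + v) - C.γ s)).re)
            (C.R₁ * Real.sin v - Real.sin v * C.r (s + v)) v :=
          ((hcos v).const_mul C.R₁).sub (C.hasDerivAt_chord s v)
        exact h2.congr_deriv (by ring))
      (fun v => by linarith [C.r_upper (s + v)])
      (by simp) (by simp [C.γ_add]) v h0 h1
    linarith

/-- The support inequality `Re (e^{-it} γ s) ≤ h t`. -/
lemma support (s t : ℝ) : (Complex.exp (-(t * I)) * C.γ s).re ≤ C.h t := by
  obtain ⟨y, hy, hys⟩ := C.periodic_γ.exists_mem_Ico (by positivity) s t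
  have h1 := (C.chord_re_bounds t (y - t) (by linarith [hy.1]) (by linarith [hy.2])).1
  have h2 : t + (y - t) = y := by ring
  rw [h2] at h1
  have h3 : 0 ≤ C.r₀ * (1 - Real.cos (y - t)) :=
    mul_nonneg C.r₀_pos.le (by linarith [Real.cos_le_one (y - t)])
  have h4 : (Complex.exp (-(t * I)) * (C.γ y - C.γ t)).re
      = (Complex.exp (-(t * I)) * C.γ y).re - C.h t := by
    rw [mul_sub, Complex.sub_re, C.re_exp_mul_γ_self]
  rw [hys]
  linarith

/-- Lower chord bound in the range `v ≤ π`. -/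
lemma chord_lower_aux (s v : ℝ) (h0 : 0 ≤ v) (h1 : v ≤ π) :
    2 * C.r₀ * Real.sin (v / 2) ≤ ‖C.γ (s + v) - C.γ s‖ := by
  set m := s + v / 2 with hm
  set d : ℂ := Complex.exp (-(m * I)) * (-I) with hd
  have hnd : ‖d‖ = 1 := by
    rw [hd, norm_mul, norm_neg, norm_I, mul_one]
    have : -((m : ℂ) * I) = ((-m : ℝ) : ℂ) * I := by push_cast; ring
    rw [this]
    exact Complex.norm_exp_ofReal_mul_I _
  -- the function `F t = Re (d * γ t) - r₀ sin (t - m)` has derivative `cos (t - m) (r t - r₀)`.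
  have hderiv : ∀ t, HasDerivAt (fun t => (d * C.γ t).re - C.r₀ * Real.sin (t - m))
      (Real.cos (t - m) * (C.r t - C.r₀)) t := by
    intro t
    have h2 := ((C.hasDerivAt_γ t).const_mul d)
    have h3 := Complex.reCLM.hasFDerivAt.comp_hasDerivAt t h2
    have h4 : HasDerivAt (fun t => Real.sin (t - m)) (Real.cos (t - m)) t := by
      have := (Real.hasDerivAt_sin (t - m)).comp_sub_const t m
      simpa using this
    have h5 := h3.sub (h4.const_mul C.r₀)
    have h6 : Complex.reCLM (d * C.γ' t) = Real.cos (t - m) * C.r t := by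
      have h7 : d * C.γ' t = Complex.exp (((t - m : ℝ) : ℂ) * I) * C.r t := by
        simp only [hd, γ']
        have h8 : Complex.exp (((t - m : ℝ) : ℂ) * I)
            = Complex.exp (-(m * I)) * Complex.exp (t * I) := by
          rw [← Complex.exp_add]
          congr 1
          push_cast
          ring
        rw [h8]
        have h9 := Complex.I_mul_I
        linear_combination (-Complex.exp (-(m * I)) * Complex.exp (t * I) * C.r t) * h9
      rw [h7]
      simp only [Complex.reCLM_apply, Complex.mul_re, Complex.exp_ofReal_mul_I_re,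
        Complex.ofReal_re, Complex.ofReal_im, mul_zero, sub_zero]
    rw [h6] at h5
    have h10 : HasDerivAt (fun t => (d * C.γ t).re - C.r₀ * Real.sin (t - m))
        (Real.cos (t - m) * C.r t - C.r₀ * Real.cos (t - m)) t := h5
    exact h10.congr_deriv (by ring)
  have hmono : MonotoneOn (fun t => (d * C.γ t).re - C.r₀ * Real.sin (t - m))
      (Set.Icc s (s + v)) := by
    apply monotoneOn_of_deriv_nonneg (convex_Icc _ _)
      (continuous_iff_continuousAt.mpr fun t => (hderiv t).continuousAt).continuousOn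
      (fun t _ => (hderiv t).differentiableAt.differentiableWithinAt)
    intro t ht
    rw [interior_Icc] at ht
    rw [(hderiv t).deriv]
    apply mul_nonneg
    · apply Real.cos_nonneg_of_mem_Icc
      constructor <;> linarith [ht.1, ht.2, Real.pi_pos]
    · linarith [C.r_lower t]
  have h2 := hmono (Set.left_mem_Icc.mpr (by linarith : s ≤ s + v))
    (Set.right_mem_Icc.mpr (by linarith : s ≤ s + v)) (by linarith)
  simp only at h2
  have h3 : s - m = -(v / 2) := by rw [hm]; ring
  have h4 : s + v - m = v / 2 := by rw [hm]; ring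
  rw [h3, h4, Real.sin_neg] at h2
  have h5 : (d * (C.γ (s + v) - C.γ s)).re ≤ ‖C.γ (s + v) - C.γ s‖ := by
    refine le_trans (Complex.re_le_norm _) ?_
    rw [norm_mul, hnd, one_mul]
  have h6 : (d * (C.γ (s + v) - C.γ s)).re = (d * C.γ (s + v)).re - (d * C.γ s).re := by
    rw [mul_sub, Complex.sub_re]
  nlinarith

/-- Lower chord bound. -/
lemma chord_lower (s v : ℝ) (h0 : 0 ≤ v) (h1 : v ≤ 2 * π) :
    2 * C.r₀ * Real.sin (v / 2) ≤ ‖C.γ (s + v) - C.γ s‖ := by
  rcases le_total v π with hv | hv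
  · exact C.chord_lower_aux s v h0 hv
  · have h2 := C.chord_lower_aux (s + v) (2 * π - v) (by linarith) (by linarith)
    have h3 : s + v + (2 * π - v) = s + 2 * π := by ring
    rw [h3, C.γ_add, norm_sub_rev] at h2
    have h4 : Real.sin ((2 * π - v) / 2) = Real.sin (v / 2) := by
      have : (2 * π - v) / 2 = π - v / 2 := by ring
      rw [this, Real.sin_pi_sub]
    rwa [h4] at h2

/-- All the values of the curve are bounded (`h`, `h'` are periodic and continuous). -/
lemma exists_norm_γ_le : ∃ D : ℝ, 0 < D ∧ ∀ t, ‖C.γ t‖ ≤ D := by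
  obtain ⟨t₀, -, ht₀⟩ := isCompact_Icc.exists_isMaxOn
    (Set.nonempty_Icc.mpr (by positivity : (0 : ℝ) ≤ 2 * π))
    (C.continuous_γ.norm.continuousOn (s := Set.Icc (0 : ℝ) (2 * π)))
  refine ⟨‖C.γ t₀‖ + 1, by positivity, fun t => ?_⟩
  obtain ⟨y, hy, hys⟩ := C.periodic_γ.exists_mem_Ico₀ (by positivity) t
  have := ht₀ ⟨hy.1, hy.2.le⟩
  simp only [Set.mem_setOf_eq] at this
  rw [hys]
  linarith

lemma k_add_right (s t : ℝ) : C.k s (t + 2 * π) = C.k s t := by
  simp only [k, C.γ_add, C.γ'_add]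

lemma k_add_left (s t : ℝ) : C.k (s + 2 * π) t = C.k s t := by
  simp only [k, C.γ_add]

/-- The imaginary part formula for the kernel. -/
lemma im_γ'_div (t : ℝ) (F : ℂ) :
    (C.γ' t / F).im = C.r t * (Complex.exp (-(t * I)) * F).re / ‖F‖ ^ 2 := by
  by_cases hF : F = 0
  · simp [hF]
  have h1 : C.γ' t / F = C.γ' t * (starRingEnd ℂ) F / ((‖F‖ ^ 2 : ℝ) : ℂ) := by
    have h2 : ((‖F‖ ^ 2 : ℝ) : ℂ) = F * (starRingEnd ℂ) F := by
      rw [Complex.mul_conj, Complex.normSq_eq_norm_sq]
    have hc : (starRingEnd ℂ) F ≠ 0 := by simpa using hF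
    rw [h2]
    field_simp
  rw [h1, Complex.div_ofReal_im]
  congr 1
  simp only [γ', Complex.mul_im, Complex.mul_re, Complex.I_re, Complex.I_im, Complex.ofReal_re,
    Complex.ofReal_im, Complex.conj_re, Complex.conj_im, Complex.exp_ofReal_mul_I_re,
    Complex.exp_ofReal_mul_I_im, Complex.neg_re, Complex.neg_im]
  have h3 : -((t : ℂ) * I) = ((-t : ℝ) : ℂ) * I := by push_cast; ring
  rw [h3]
  simp only [Complex.exp_ofReal_mul_I_re, Complex.exp_ofReal_mul_I_im, Real.cos_neg, Real.sin_neg]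
  ring

lemma re_exp_sub_nonneg (s t : ℝ) :
    0 ≤ (Complex.exp (-(t * I)) * (C.γ t - C.γ s)).re := by
  rw [mul_sub, Complex.sub_re, C.re_exp_mul_γ_self]
  linarith [C.support s t]

lemma k_nonneg (s t : ℝ) : 0 ≤ C.k s t := by
  unfold k
  rw [C.im_γ'_div]
  have := C.re_exp_sub_nonneg s t
  have h2 := C.r_pos t
  positivity

lemma k_le (s t : ℝ) : C.k s t ≤ C.R₁ ^ 2 / (2 * π * C.r₀ ^ 2) := by
  unfold k
  rw [C.im_γ'_div]
  -- write `s = t + v` modulo the period
  obtain ⟨y, hy, hys⟩ := C.periodic_γ.exists_mem_Ico (by positivity) s t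
  set v := y - t with hv
  have hv0 : 0 ≤ v := by linarith [hy.1]
  have hv1 : v ≤ 2 * π := by linarith [hy.2]
  have hyv : y = t + v := by rw [hv]; ring
  rw [hys, hyv]
  set F := C.γ t - C.γ (t + v) with hF
  have h1 := (C.chord_re_bounds t v hv0 hv1).2
  have h2 := C.chord_lower t v hv0 hv1
  have h3 : (Complex.exp (-(t * I)) * F).re = -(Complex.exp (-(t * I)) * (C.γ (t + v) - C.γ t)).re := by
    have h4 : F = -(C.γ (t + v) - C.γ t) := by rw [hF]; ring
    rw [h4, mul_neg, Complex.neg_re]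
  rw [h3]
  have hnorm : ‖F‖ = ‖C.γ (t + v) - C.γ t‖ := norm_sub_rev _ _
  rw [hnorm]
  set S := Real.sin (v / 2) with hS
  have hS0 : 0 ≤ S := Real.sin_nonneg_of_nonneg_of_le_pi (by linarith) (by linarith)
  have hcos : 1 - Real.cos v = 2 * S ^ 2 := by
    have : v = 2 * (v / 2) := by ring
    conv_lhs => rw [this, Real.cos_two_mul]
    have h4 := Real.sin_sq_add_cos_sq (v / 2)
    rw [hS]
    linarith
  rw [hcos] at h1
  set N := ‖C.γ (t + v) - C.γ t‖ with hN
  set Q := -(Complex.exp (-(t * I)) * (C.γ (t + v) - C.γ t)).re with hQ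
  have hr := C.r_upper t
  have hr0 := C.r_pos t
  have hr₀ := C.r₀_pos
  have hR₁ := C.R₁_pos
  have hN0 : 0 ≤ N := norm_nonneg _
  have hπ := Real.pi_pos
  by_cases hNz : N = 0
  · rw [hNz]
    simp only [ne_eq, OfNat.ofNat_ne_zero, not_false_eq_true, zero_pow, div_zero, zero_div]
    positivity
  have hNpos : 0 < N := lt_of_le_of_ne hN0 (Ne.symm hNz)
  rw [div_div, div_le_div_iff₀ (by positivity) (by positivity)]
  have hS2 : (2 * C.r₀ * S) ^ 2 ≤ N ^ 2 := pow_le_pow_left₀ (by positivity) h2 2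
  have hQ' : C.r t * Q ≤ C.R₁ * (C.R₁ * (2 * S ^ 2)) := by
    apply mul_le_mul hr h1 _ hR₁.le
    have h4 := C.re_exp_sub_nonneg (t + v) t
    have h5 : F = -(C.γ (t + v) - C.γ t) := by rw [hF]; ring
    rw [← hF, h5, mul_neg, Complex.neg_re] at h4
    exact h4
  have h5 : C.r t * Q * (2 * π * C.r₀ ^ 2) ≤ C.R₁ * (C.R₁ * (2 * S ^ 2)) * (2 * π * C.r₀ ^ 2) := by
    gcongr
  have h6 : C.R₁ * (C.R₁ * (2 * S ^ 2)) * (2 * π * C.r₀ ^ 2)
      = C.R₁ ^ 2 * (π * (2 * C.r₀ * S) ^ 2) := by ring
  have h7 : C.R₁ ^ 2 * (π * (2 * C.r₀ * S) ^ 2) ≤ C.R₁ ^ 2 * (π * N ^ 2) := by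
    gcongr
  calc C.r t * Q * (2 * π * C.r₀ ^ 2) ≤ C.R₁ ^ 2 * (π * N ^ 2) := by linarith
    _ = C.R₁ ^ 2 * (N ^ 2 * π) := by ring

lemma measurable_k (s : ℝ) : Measurable (C.k s) := by
  unfold k
  have h1 : Measurable C.γ := C.continuous_γ.measurable
  have h2 : Measurable C.γ' := C.continuous_γ'.measurable
  exact ((h2.div (h1.sub_const _)).im).div_const _

lemma continuous_k_snd_of (s₀ t : ℝ) (h : C.γ t ≠ C.γ s₀) :
    ContinuousAt (fun s => C.k s t) s₀ := by
  unfold k
  have h1 : ContinuousAt (fun s => C.γ t - C.γ s) s₀ :=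
    (continuous_const.sub C.continuous_γ).continuousAt
  have h2 : C.γ t - C.γ s₀ ≠ 0 := sub_ne_zero.mpr h
  have h3 : ContinuousAt (fun s => C.γ' t / (C.γ t - C.γ s)) s₀ :=
    continuousAt_const.div h1 h2
  exact (Complex.continuous_im.continuousAt.comp h3).div_const _

/-- `γ` is injective on `(s, s + 2π)`. -/
lemma γ_ne_of_Ioo (s v : ℝ) (h0 : 0 < v) (h1 : v < 2 * π) : C.γ (s + v) ≠ C.γ s := by
  intro h
  have h2 := C.chord_lower s v h0.le h1.le
  rw [h, sub_self, norm_zero] at h2
  have h3 : 0 < Real.sin (v / 2) := Real.sin_pos_of_pos_of_lt_pi (by linarith) (by linarith)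
  have h4 := C.r₀_pos
  have : 0 < 2 * C.r₀ * Real.sin (v / 2) := by positivity
  linarith

/-- For a fixed `s₀`, almost every `t` has `γ t ≠ γ s₀`. -/
lemma ae_ne (s₀ : ℝ) : ∀ᵐ t : ℝ, C.γ t ≠ C.γ s₀ := by
  have hsub : {t : ℝ | C.γ t = C.γ s₀} ⊆ Set.range (fun m : ℤ => s₀ - m • (2 * π)) := by
    intro t ht
    have ht' : C.γ t = C.γ s₀ := ht
    obtain ⟨m, hm, -⟩ := existsUnique_add_zsmul_mem_Ico (by positivity : (0 : ℝ) < 2 * π) t s₀
    have h1 : C.γ (t + m • (2 * π)) = C.γ t := (C.periodic_γ.zsmul m) t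
    refine ⟨m, ?_⟩
    rcases eq_or_lt_of_le hm.1 with h2 | h2
    · simp only
      linarith
    · exfalso
      have h3 := C.γ_ne_of_Ioo s₀ (t + m • (2 * π) - s₀) (by linarith) (by linarith [hm.2])
      apply h3
      have h4 : s₀ + (t + m • (2 * π) - s₀) = t + m • (2 * π) := by ring
      rw [h4, h1, ht']
  have hnull : volume {t : ℝ | C.γ t = C.γ s₀} = 0 :=
    measure_mono_null hsub (Set.Countable.measure_zero (Set.countable_range _) _)
  rw [ae_iff]
  simpa using hnull

/-- Winding number one around inner points. -/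
lemma winding (l : ℂ) (hl : ∀ t : ℝ, 0 < (Complex.exp (-(t * I)) * (C.γ t - l)).re) :
    ∫ t in (0:ℝ)..(2 * π), C.γ' t / (C.γ t - l) = 2 * π * I := by
  have hne : ∀ t, C.γ t - l ≠ 0 := by
    intro t h0
    have := hl t
    rw [h0, mul_zero] at this
    simp at this
  have hexp : ∀ t : ℝ, HasDerivAt (fun t : ℝ => Complex.exp (-(t * I)))
      (-I * Complex.exp (-(t * I))) t := by
    intro t
    have h0 : HasDerivAt (fun t : ℝ => (t : ℂ) * I) I t := by
      simpa using (Complex.ofRealCLM.hasDerivAt (x := t)).mul_const I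
    have h1 : HasDerivAt (fun t : ℝ => -((t : ℂ) * I)) (-I) t := h0.neg
    have h2 := h1.cexp
    rw [mul_comm] at h2
    exact h2
  have hw : ∀ t : ℝ, HasDerivAt (fun t : ℝ => Complex.exp (-(t * I)) * (C.γ t - l))
      (-I * Complex.exp (-(t * I)) * (C.γ t - l) + Complex.exp (-(t * I)) * C.γ' t) t := by
    intro t
    exact (hexp t).mul ((C.hasDerivAt_γ t).sub_const l)
  have hslit : ∀ t : ℝ, Complex.exp (-(t * I)) * (C.γ t - l) ∈ Complex.slitPlane := by
    intro t
    left
    exact hl t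
  have hexp0 : ∀ t : ℝ, Complex.exp (-(t * I)) ≠ 0 := fun t => Complex.exp_ne_zero _
  have hlog : ∀ t : ℝ, HasDerivAt (fun t : ℝ => Complex.log (Complex.exp (-(t * I)) * (C.γ t - l)))
      (-I + C.γ' t / (C.γ t - l)) t := by
    intro t
    have h1 := (hw t).clog_real (hslit t)
    have h2 : (-I * Complex.exp (-(t * I)) * (C.γ t - l) + Complex.exp (-(t * I)) * C.γ' t)
        / (Complex.exp (-(t * I)) * (C.γ t - l)) = -I + C.γ' t / (C.γ t - l) := by
      have h3 := hne t
      have h4 := hexp0 t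
      field_simp
    rwa [h2] at h1
  have hcont : Continuous fun t => C.γ' t / (C.γ t - l) :=
    C.continuous_γ'.div (C.continuous_γ.sub continuous_const) hne
  have hint : ∫ t in (0:ℝ)..(2 * π), (-I + C.γ' t / (C.γ t - l))
      = Complex.log (Complex.exp (-(((2 * π : ℝ) : ℂ) * I)) * (C.γ (2 * π) - l))
        - Complex.log (Complex.exp (-(((0 : ℝ) : ℂ) * I)) * (C.γ 0 - l)) :=
    intervalIntegral.integral_eq_sub_of_hasDerivAt (fun t _ => hlog t)
      ((continuous_const.add hcont).intervalIntegrable _ _)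
  have h1 : Complex.exp (-(((2 * π : ℝ) : ℂ) * I)) = 1 := by
    rw [Complex.exp_neg]
    push_cast
    rw [Complex.exp_two_pi_mul_I]
    simp
  have h2 : C.γ (2 * π) = C.γ 0 := by
    have := C.γ_add 0
    rwa [zero_add] at this
  rw [h1, h2] at hint
  simp only [Complex.ofReal_zero, zero_mul, neg_zero, Complex.exp_zero, sub_self] at hint
  rw [intervalIntegral.integral_add (continuous_const.intervalIntegrable _ _)
    (hcont.intervalIntegrable _ _)] at hint
  simp only [intervalIntegral.integral_const, sub_zero, Complex.real_smul] at hint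
  push_cast at hint
  linear_combination hint

/-- Behaviour of the argument at a simple zero, from the right. -/
lemma tendsto_arg_right (f : ℝ → ℂ) (a : ℝ) (f' : ℂ) (hf : HasDerivAt f f' a) (h0 : f a = 0)
    (hs : f' ∈ Complex.slitPlane) :
    Filter.Tendsto (fun v => Complex.arg (f v)) (nhdsWithin a (Set.Ioi a)) (nhds (Complex.arg f')) := by
  have h1 := (hasDerivAt_iff_tendsto_slope.mp hf).mono_left
    (nhdsWithin_mono a (fun v (hv : a < v) => hv.ne'))
  have h2 := (Complex.continuousAt_arg hs).tendsto.comp h1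
  refine h2.congr' ?_
  filter_upwards [self_mem_nhdsWithin] with v hv
  have hv' : 0 < v - a := sub_pos.mpr hv
  simp only [Function.comp, slope, h0, vsub_eq_sub, sub_zero]
  rw [Complex.real_smul]
  exact Complex.arg_real_mul _ (inv_pos.mpr hv')

/-- Behaviour of the argument at a simple zero, from the left. -/
lemma tendsto_arg_left (f : ℝ → ℂ) (a : ℝ) (f' : ℂ) (hf : HasDerivAt f f' a) (h0 : f a = 0)
    (hs : -f' ∈ Complex.slitPlane) :
    Filter.Tendsto (fun v => Complex.arg (f v)) (nhdsWithin a (Set.Iio a)) (nhds (Complex.arg (-f'))) := by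
  have h1 := ((hasDerivAt_iff_tendsto_slope.mp hf).mono_left
    (nhdsWithin_mono a (fun v (hv : v < a) => hv.ne))).neg
  have h2 := (Complex.continuousAt_arg hs).tendsto.comp h1
  refine h2.congr' ?_
  filter_upwards [self_mem_nhdsWithin] with v hv
  have hv' : 0 < a - v := sub_pos.mpr hv
  simp only [Function.comp, slope, h0, vsub_eq_sub, sub_zero]
  rw [Complex.real_smul]
  have h3 : -(((v - a)⁻¹ : ℝ) * f v) = (((a - v)⁻¹ : ℝ) : ℂ) * f v := by
    have h4 : ((v - a)⁻¹ : ℝ) = -((a - v)⁻¹) := by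
      rw [← neg_sub a v, inv_neg]
    rw [h4]
    push_cast
    ring
  rw [h3]
  exact Complex.arg_real_mul _ (inv_pos.mpr hv')

/-- The kernel has total mass one. -/
lemma integral_k_aux (s : ℝ) : ∫ v in (0:ℝ)..(2 * π), C.k s (s + v) = 1 := by
  set w : ℝ → ℂ := fun v => -(Complex.exp (-(s * I)) * (C.γ (s + v) - C.γ s)) with hw
  have hγs : ∀ v, HasDerivAt (fun v : ℝ => C.γ (s + v)) (C.γ' (s + v)) v := fun v =>
    (C.hasDerivAt_γ (s + v)).comp_const_add s v
  have hwd : ∀ v, HasDerivAt w (-(Complex.exp (-(s * I)) * C.γ' (s + v))) v := fun v =>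
    (((hγs v).sub_const (C.γ s)).const_mul (Complex.exp (-(s * I)))).neg
  have hexp0 : Complex.exp (-(s * I)) ≠ 0 := Complex.exp_ne_zero _
  have hslit : ∀ v ∈ Set.Ioo (0 : ℝ) (2 * π), w v ∈ Complex.slitPlane := by
    intro v hv
    left
    have h1 := (C.chord_re_bounds s v hv.1.le hv.2.le).1
    have h2 : 0 < 1 - Real.cos v := by
      have h3 : Real.cos v < 1 := by
        have h4 : Real.cos v = 1 - 2 * Real.sin (v / 2) ^ 2 := by
          have : v = 2 * (v / 2) := by ring
          conv_lhs => rw [this, Real.cos_two_mul]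
          have h5 := Real.sin_sq_add_cos_sq (v / 2)
          linarith
        have h5 : 0 < Real.sin (v / 2) :=
          Real.sin_pos_of_pos_of_lt_pi (by linarith [hv.1]) (by linarith [hv.2])
        rw [h4]
        have : 0 < Real.sin (v / 2) ^ 2 := by positivity
        linarith
      linarith
    have h3 := C.r₀_pos
    have h4 : 0 < C.r₀ * (1 - Real.cos v) := by positivity
    simp only [hw, Complex.neg_re]
    linarith
  have hne : ∀ v ∈ Set.Ioo (0 : ℝ) (2 * π), C.γ (s + v) - C.γ s ≠ 0 := by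
    intro v hv
    exact sub_ne_zero.mpr (C.γ_ne_of_Ioo s v hv.1 hv.2)
  have hderiv : ∀ v ∈ Set.Ioo (0 : ℝ) (2 * π),
      HasDerivAt (fun v => Complex.arg (w v)) (π * C.k s (s + v)) v := by
    intro v hv
    have h1 := (hwd v).clog_real (hslit v hv)
    have h2 := Complex.imCLM.hasFDerivAt.comp_hasDerivAt v h1
    have h3 : Complex.imCLM (-(Complex.exp (-(s * I)) * C.γ' (s + v)) / w v)
        = π * C.k s (s + v) := by
      have h4 : -(Complex.exp (-(s * I)) * C.γ' (s + v)) / w v
          = C.γ' (s + v) / (C.γ (s + v) - C.γ s) := by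
        simp only [hw]
        have h5 := hne v hv
        field_simp
      rw [h4]
      simp only [k, Complex.imCLM_apply]
      have := Real.pi_pos.ne'
      field_simp
    rw [h3] at h2
    have h6 : (Complex.imCLM ∘ fun t => Complex.log (w t)) = fun v => Complex.arg (w v) := by
      ext t
      simp [Complex.log_im]
    rwa [h6] at h2
  have hw0 : w 0 = 0 := by simp [hw]
  have hw2 : w (2 * π) = 0 := by simp [hw, C.γ_add]
  have hr := C.r_pos s
  have hd0 : -(Complex.exp (-(s * I)) * C.γ' (s + 0)) = (C.r s : ℂ) * (-I) := by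
    simp only [add_zero, γ']
    have h5 := exp_neg_mul_exp s
    linear_combination (-I * C.r s) * h5
  have hd2 : -(-(Complex.exp (-(s * I)) * C.γ' (s + 2 * π))) = (C.r s : ℂ) * I := by
    rw [C.γ'_add]
    simp only [neg_neg, γ']
    have h5 := exp_neg_mul_exp s
    linear_combination (I * C.r s) * h5
  have him : ∀ (c : ℂ), c.im ≠ 0 → c ∈ Complex.slitPlane := fun c hc => Or.inr hc
  have hlim0 := tendsto_arg_right w 0 _ (hwd 0) hw0 (by
    rw [hd0]
    apply him
    simp [hr.ne'])
  have hlim2 := tendsto_arg_left w (2 * π) _ (hwd (2 * π)) hw2 (by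
    rw [hd2]
    apply him
    simp [hr.ne'])
  rw [hd0, Complex.arg_real_mul _ hr, Complex.arg_neg_I] at hlim0
  rw [hd2, Complex.arg_real_mul _ hr, Complex.arg_I] at hlim2
  have hint : IntervalIntegrable (fun v => π * C.k s (s + v)) volume 0 (2 * π) := by
    rw [intervalIntegrable_iff_integrableOn_Ioc_of_le (by positivity)]
    refine Measure.integrableOn_of_bounded (M := π * (C.R₁ ^ 2 / (2 * π * C.r₀ ^ 2))) ?_ ?_ ?_
    · exact measure_Ioc_lt_top.ne
    · apply Measurable.aestronglyMeasurable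
      exact ((C.measurable_k s).comp (measurable_const.add measurable_id)).const_mul _
    · refine Filter.Eventually.of_forall fun v => ?_
      have h1 := C.k_nonneg s (s + v)
      have h2 := C.k_le s (s + v)
      rw [Real.norm_eq_abs, abs_of_nonneg (by positivity)]
      gcongr
  have hfin := intervalIntegral.integral_eq_sub_of_hasDerivAt_of_tendsto
    (by positivity : (0 : ℝ) < 2 * π) hderiv hint hlim0 hlim2
  rw [intervalIntegral.integral_const_mul] at hfin
  have hπ := Real.pi_pos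
  have h3 : π * ∫ v in (0:ℝ)..(2 * π), C.k s (s + v) = π * 1 := by
    rw [hfin]
    ring
  exact mul_left_cancel₀ hπ.ne' h3

/-- Kernel periodic in its second variable. -/
lemma periodic_k (s : ℝ) : Function.Periodic (C.k s) (2 * π) := C.k_add_right s

/-- The kernel has total mass one. -/
lemma integral_k (s : ℝ) : ∫ t in (0:ℝ)..(2 * π), C.k s t = 1 := by
  have h1 := (C.periodic_k s).intervalIntegral_add_eq 0 s
  rw [zero_add] at h1
  rw [h1]
  have h2 := intervalIntegral.integral_comp_add_left (a := 0) (b := 2 * π) (C.k s) s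
  rw [add_zero] at h2
  rw [← h2]
  exact C.integral_k_aux s

lemma intervalIntegrable_k (s : ℝ) (a b : ℝ) : IntervalIntegrable (C.k s) volume a b := by
  rw [intervalIntegrable_iff]
  refine Measure.integrableOn_of_bounded (M := C.R₁ ^ 2 / (2 * π * C.r₀ ^ 2)) ?_ ?_ ?_
  · simp
  · exact (C.measurable_k s).aestronglyMeasurable
  · refine Filter.Eventually.of_forall fun v => ?_
    rw [Real.norm_eq_abs, abs_of_nonneg (C.k_nonneg s v)]
    exact C.k_le s v

end Curve

end Vale.Agent.helper3.CP
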