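import Mathlib

/-!
# The Toeplitz-Hausdorff theorem
-/

open Complex ContinuousLinearMap

set_option linter.unusedSimpArgs false
set_option linter.deprecated false

noncomputable section

namespace Vale.Agent.helper3.CP

variable {H : Type*} [NormedAddCommGroup H] [InnerProductSpace ℂ H]

/-- The numerical range. -/
def Wset (A : H →L[ℂ] H) : Set ℂ := {z | ∃ x : H, ‖x‖ = 1 ∧ z = inner ℂ x (A x)}

/-- The normalised case of the Toeplitz-Hausdorff theorem. -/
lemma TH_core (B : H →L[ℂ] H) (x y : H) (hx : ‖x‖ = 1) (hy : ‖y‖ = 1)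
    (h0 : (inner ℂ x (B x) : ℂ) = 0) (h1 : (inner ℂ y (B y) : ℂ) = 1) (μ : ℝ)
    (hμ : μ ∈ Set.Icc (0 : ℝ) 1) : ∃ z : H, ‖z‖ = 1 ∧ (inner ℂ z (B z) : ℂ) = μ := by
  set p : ℂ := inner ℂ x (B y) with hp
  set q : ℂ := inner ℂ y (B x) with hq
  obtain ⟨ω, hω1, hω2⟩ := Complex.exists_norm_eq_mul_self (p - (starRingEnd ℂ) q)
  have hωω : (starRingEnd ℂ) ω * ω = 1 := by
    rw [mul_comm, Complex.mul_conj, Complex.normSq_eq_norm_sq, hω1]
    simp
  set y' : H := ω • y with hy'
  have hy'n : ‖y'‖ = 1 := by rw [hy', norm_smul, hω1, hy, one_mul]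
  have h1' : (inner ℂ y' (B y') : ℂ) = 1 := by
    rw [hy', map_smul, inner_smul_left, inner_smul_right, h1, mul_one, hωω]
  set R : ℝ := (ω * p + (starRingEnd ℂ) ω * q).re with hR
  have hRim : (ω * p + (starRingEnd ℂ) ω * q).im = 0 := by
    have h2 : ω * (p - (starRingEnd ℂ) q) = (((‖p - (starRingEnd ℂ) q‖ : ℝ)) : ℂ) := hω2.symm
    have h3 := congrArg Complex.im h2
    simp only [Complex.ofReal_im, Complex.mul_im, Complex.sub_re, Complex.sub_im, Complex.conj_re,
      Complex.conj_im] at h3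
    simp only [Complex.add_im, Complex.mul_im, Complex.conj_re, Complex.conj_im]
    linarith
  have hsum : ω * p + (starRingEnd ℂ) ω * q = (R : ℂ) := by
    apply Complex.ext
    · simp [hR]
    · simp [hRim]
  set z : ℝ → H := fun t => ((1 - t : ℝ) : ℂ) • x + ((t : ℝ) : ℂ) • y' with hz
  have hform : ∀ t : ℝ, (inner ℂ (z t) (B (z t)) : ℂ) = (((1 - t) * t * R + t ^ 2 : ℝ) : ℂ) := by
    intro t
    simp only [hz, map_add, map_smul, inner_add_left, inner_add_right, inner_smul_left,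
      inner_smul_right, Complex.conj_ofReal, h0, h1']
    have h2 : (inner ℂ x (B y') : ℂ) = ω * p := by
      rw [hy', map_smul, inner_smul_right]
    have h3 : (inner ℂ y' (B x) : ℂ) = (starRingEnd ℂ) ω * q := by
      rw [hy', inner_smul_left]
    rw [h2, h3]
    have h4 : ((1 - t : ℝ) : ℂ) * (((1 - t : ℝ) : ℂ) * 0) + ((t : ℝ) : ℂ) * (((1 - t : ℝ) : ℂ) * ((starRingEnd ℂ) ω * q))
        + (((1 - t : ℝ) : ℂ) * (((t : ℝ) : ℂ) * (ω * p)) + ((t : ℝ) : ℂ) * (((t : ℝ) : ℂ) * 1))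
        = ((1 - t : ℝ) : ℂ) * ((t : ℝ) : ℂ) * (ω * p + (starRingEnd ℂ) ω * q) + ((t : ℝ) : ℂ) ^ 2 := by
      ring
    push_cast at h4 ⊢
    rw [hsum] at h4
    linear_combination h4
  have hzne : ∀ t ∈ Set.Icc (0 : ℝ) 1, z t ≠ 0 := by
    intro t ht h2
    have h3 : ((1 - t : ℝ) : ℂ) • x = -(((t : ℝ) : ℂ) • y') := eq_neg_of_add_eq_zero_left h2
    have h4 := congrArg norm h3
    rw [norm_neg, norm_smul, norm_smul, hx, hy'n, Complex.norm_real, Complex.norm_real,
      Real.norm_eq_abs, Real.norm_eq_abs, abs_of_nonneg (by linarith [ht.2]), abs_of_nonneg ht.1,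
      mul_one, mul_one] at h4
    have ht2 : t = 1 / 2 := by linarith
    rw [ht2] at h3
    have h5 : x = -y' := by
      have h6 : ((1 - 1 / 2 : ℝ) : ℂ) ≠ 0 := by norm_num
      have h7 : ((1 - 1 / 2 : ℝ) : ℂ) = ((1 / 2 : ℝ) : ℂ) := by norm_num
      rw [h7, ← smul_neg] at h3
      exact smul_right_injective _ (by norm_num) h3
    have h6 : (inner ℂ x (B x) : ℂ) = inner ℂ y' (B y') := by
      rw [h5, map_neg, inner_neg_left, inner_neg_right, neg_neg]
    rw [h0, h1'] at h6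
    exact zero_ne_one h6
  have hzc : Continuous z := by
    have hc1 : Continuous fun t : ℝ => ((1 - t : ℝ) : ℂ) :=
      Complex.continuous_ofReal.comp (continuous_const.sub continuous_id)
    have hc2 : Continuous fun t : ℝ => ((t : ℝ) : ℂ) := Complex.continuous_ofReal
    exact (hc1.smul continuous_const).add (hc2.smul continuous_const)
  set g : ℝ → ℝ := fun t => ((1 - t) * t * R + t ^ 2) / ‖z t‖ ^ 2 with hg
  have hgc : ContinuousOn g (Set.Icc 0 1) := by
    apply ContinuousOn.div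
    · fun_prop
    · exact (hzc.norm.pow 2).continuousOn
    · intro t ht
      have := norm_pos_iff.mpr (hzne t ht)
      positivity
  have hg0 : g 0 = 0 := by simp [hg]
  have hg1 : g 1 = 1 := by
    have h2 : z 1 = y' := by simp [hz]
    simp [hg, h2, hy'n]
  have hivt := intermediate_value_Icc zero_le_one hgc
  rw [hg0, hg1] at hivt
  obtain ⟨t, ht, hgt⟩ := hivt hμ
  have hn : ‖z t‖ ≠ 0 := norm_ne_zero_iff.mpr (hzne t ht)
  refine ⟨((‖z t‖⁻¹ : ℝ) : ℂ) • z t, ?_, ?_⟩
  · rw [norm_smul, Complex.norm_real, Real.norm_eq_abs, abs_of_pos (by positivity)]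
    field_simp
  · rw [map_smul, inner_smul_left, inner_smul_right, hform, Complex.conj_ofReal]
    rw [← hgt]
    simp only [hg]
    push_cast
    have hnc : ((‖z t‖ : ℝ) : ℂ) ≠ 0 := by exact_mod_cast hn
    field_simp

/-- Toeplitz-Hausdorff: the numerical range is convex. -/
theorem numerical_range_convex (A : H →L[ℂ] H) : Convex ℝ (Wset A) := by
  rintro a ⟨x, hx, rfl⟩ b ⟨y, hy, rfl⟩ s t hs ht hst
  by_cases hab : (inner ℂ x (A x) : ℂ) = inner ℂ y (A y)
  · refine ⟨x, hx, ?_⟩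
    rw [← hab]
    simp only [Complex.real_smul]
    rw [← add_mul, ← Complex.ofReal_add, hst]
    simp
  set a : ℂ := inner ℂ x (A x) with ha
  set b : ℂ := inner ℂ y (A y) with hb
  have hba : b - a ≠ 0 := sub_ne_zero.mpr (Ne.symm hab)
  set B : H →L[ℂ] H := (b - a)⁻¹ • (A - a • (1 : H →L[ℂ] H)) with hB
  have hform : ∀ z : H, ‖z‖ = 1 → (inner ℂ z (B z) : ℂ) = (b - a)⁻¹ * (inner ℂ z (A z) - a) := by
    intro z hz
    simp only [hB, ContinuousLinearMap.smul_apply, ContinuousLinearMap.sub_apply,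
      ContinuousLinearMap.one_apply, inner_smul_right, inner_sub_right,
      inner_self_eq_norm_sq_to_K, hz]
    simp
  have h0 : (inner ℂ x (B x) : ℂ) = 0 := by
    rw [hform x hx, ← ha, sub_self, mul_zero]
  have h1 : (inner ℂ y (B y) : ℂ) = 1 := by
    rw [hform y hy, ← hb, inv_mul_cancel₀ hba]
  obtain ⟨z, hz, hzt⟩ := TH_core B x y hx hy h0 h1 t ⟨ht, by linarith⟩
  refine ⟨z, hz, ?_⟩
  rw [hform z hz] at hzt
  have h2 : (inner ℂ z (A z) : ℂ) = a + (t : ℂ) * (b - a) := by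
    field_simp at hzt
    linear_combination hzt
  rw [h2]
  have h3 : (s : ℂ) = 1 - t := by
    have : s = 1 - t := by linarith
    rw [this]
    push_cast
    rfl
  simp only [Complex.real_smul]
  rw [h3]
  ring

end Vale.Agent.helper3.CP
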