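import Vale.Agent.helper3.CP.Resolvent

/-!
# The Cauchy calculus along the curve and the Neumann operator
-/

open Complex MeasureTheory intervalIntegral ContinuousLinearMap Polynomial
open scoped Real ComplexOrder

set_option linter.unusedSimpArgs false
set_option linter.deprecated false
set_option linter.unusedSectionVars false

noncomputable section

namespace Vale.Agent.helper3.CP

/-- The parameter interval. -/
abbrev PI : Type := Set.Icc (0:ℝ) (2 * π)

lemma two_pi_nonneg' : (0:ℝ) ≤ 2 * π := by positivity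

lemma ciI {E : Type*} [NormedAddCommGroup E] {f : ℝ → E} (h : Continuous f) (a b : ℝ) :
    IntervalIntegrable f volume a b := h.intervalIntegrable a b

/-- Extend a function on the parameter interval to the line. -/
def lift (u : C(PI, ℂ)) (t : ℝ) : ℂ := u (Set.projIcc 0 (2 * π) two_pi_nonneg' t)

lemma continuous_lift (u : C(PI, ℂ)) : Continuous (lift u) :=
  u.continuous.comp continuous_projIcc

lemma norm_lift_le (u : C(PI, ℂ)) (t : ℝ) : ‖lift u t‖ ≤ ‖u‖ := u.norm_coe_le_norm _

lemma lift_coe (u : C(PI, ℂ)) (t : PI) : lift u t = u t := by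
  unfold lift
  rw [Set.projIcc_val]

lemma lift_of_mem (u : C(PI, ℂ)) {t : ℝ} (ht : t ∈ Set.Icc (0:ℝ) (2 * π)) :
    lift u t = u ⟨t, ht⟩ := lift_coe u ⟨t, ht⟩

@[simp] lemma lift_add (u v : C(PI, ℂ)) (t : ℝ) : lift (u + v) t = lift u t + lift v t := rfl

@[simp] lemma lift_smul (c : ℂ) (u : C(PI, ℂ)) (t : ℝ) : lift (c • u) t = c * lift u t := rfl

@[simp] lemma lift_mul (u v : C(PI, ℂ)) (t : ℝ) : lift (u * v) t = lift u t * lift v t := rfl

@[simp] lemma lift_one (t : ℝ) : lift (1 : C(PI, ℂ)) t = 1 := rfl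

@[simp] lemma lift_star (u : C(PI, ℂ)) (t : ℝ) : lift (star u) t = (starRingEnd ℂ) (lift u t) := rfl

variable {H : Type*} [NormedAddCommGroup H] [InnerProductSpace ℂ H] [CompleteSpace H]

variable {C : Curve} {A : H →L[ℂ] H} {c : ℝ}

/-- The integrand of the Cauchy calculus is continuous. -/
lemma continuous_TI (hA : Inside C A c) (u : C(PI, ℂ)) :
    Continuous fun t => (lift u t * C.γ' t) • Res C A 1 t :=
  ((continuous_lift u).mul C.continuous_γ').smul (continuous_res hA 1 zero_le_one le_rfl)

/-- The Cauchy functional calculus `T u = (2πi)⁻¹ ∫ u(t) γ'(t) (γ(t) - A)⁻¹ dt`. -/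
def Tt (hA : Inside C A c) : C(PI, ℂ) →L[ℂ] (H →L[ℂ] H) :=
  LinearMap.mkContinuous
    { toFun := fun u => (2 * π * I)⁻¹ • ∫ t in (0:ℝ)..(2 * π), (lift u t * C.γ' t) • Res C A 1 t
      map_add' := fun u v => by
        rw [← smul_add, ← intervalIntegral.integral_add
          ((continuous_TI hA u).intervalIntegrable _ _) ((continuous_TI hA v).intervalIntegrable _ _)]
        congr 2
        ext1 t
        simp only [lift_add, add_mul, add_smul]
      map_smul' := fun a u => by
        simp only [RingHom.id_apply]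
        have h1 : ∫ t in (0:ℝ)..(2 * π), (lift (a • u) t * C.γ' t) • Res C A 1 t
            = a • ∫ t in (0:ℝ)..(2 * π), (lift u t * C.γ' t) • Res C A 1 t := by
          rw [← intervalIntegral.integral_smul]
          congr 1
          ext1 t
          simp only [lift_smul, smul_smul, mul_assoc]
        rw [h1, smul_comm] }
    (C.R₁ * (1 / c))
    (fun u => by
      have hR := C.R₁_pos
      have hc := hA.c_pos
      have hπ := Real.pi_pos
      have hnorm : ∀ t ∈ Set.uIoc (0 : ℝ) (2 * π),
          ‖(lift u t * C.γ' t) • Res C A 1 t‖ ≤ ‖u‖ * C.R₁ * (1 / c) := by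
        intro t _
        rw [norm_smul, norm_mul]
        have h1 := norm_lift_le u t
        have h2 := C.norm_γ'_le t
        have h3 := norm_res_le hA 1 t zero_le_one le_rfl
        gcongr
      have h4 := intervalIntegral.norm_integral_le_of_norm_le_const hnorm
      simp only [LinearMap.coe_mk, AddHom.coe_mk]
      rw [norm_smul, norm_inv]
      have h5 : ‖(2 * π * I : ℂ)‖ = 2 * π := by
        simp [abs_of_pos hπ]
      rw [h5]
      rw [sub_zero, abs_of_pos (by positivity : (0:ℝ) < 2 * π)] at h4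
      calc (2 * π)⁻¹ * ‖∫ t in (0:ℝ)..(2 * π), (lift u t * C.γ' t) • Res C A 1 t‖
          ≤ (2 * π)⁻¹ * (‖u‖ * C.R₁ * (1 / c) * (2 * π)) := by gcongr
        _ = C.R₁ * (1 / c) * ‖u‖ := by
            field_simp)

lemma Tt_apply (hA : Inside C A c) (u : C(PI, ℂ)) :
    Tt hA u = (2 * π * I)⁻¹ • ∫ t in (0:ℝ)..(2 * π), (lift u t * C.γ' t) • Res C A 1 t := rfl

lemma two_pi_I_ne : (2 * π * I : ℂ) ≠ 0 := by
  have := Real.pi_pos.ne'
  simp [this]

lemma Tt_one (hA : Inside C A c) : Tt hA 1 = 1 := by
  rw [Tt_apply]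
  simp only [lift_one, one_mul]
  rw [integral_res hA 1 zero_le_one le_rfl, smul_smul, inv_mul_cancel₀ two_pi_I_ne, one_smul]

/-- The Neumann kernel function on the line. -/
lemma k_integrand_interval (u : C(PI, ℂ)) (s a b : ℝ) :
    IntervalIntegrable (fun t => lift u t * (C.k s t : ℂ)) volume a b := by
  have h1 : IntervalIntegrable (fun t => (C.k s t : ℂ)) volume a b :=
    ⟨(C.intervalIntegrable_k s a b).1.ofReal, (C.intervalIntegrable_k s a b).2.ofReal⟩
  exact h1.continuousOn_mul (continuous_lift u).continuousOn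

lemma k_bound_pos : 0 ≤ C.R₁ ^ 2 / (2 * π * C.r₀ ^ 2) := by
  have := C.r₀_pos
  have := Real.pi_pos
  positivity

lemma continuous_kernel_integral (u : C(PI, ℂ)) :
    Continuous fun s : PI => ∫ t in (0:ℝ)..(2 * π), lift u t * (C.k s t : ℂ) := by
  rw [continuous_iff_continuousAt]
  intro s₀
  apply intervalIntegral.continuousAt_of_dominated_interval
    (bound := fun _ => ‖u‖ * (C.R₁ ^ 2 / (2 * π * C.r₀ ^ 2)))
  · refine Filter.Eventually.of_forall fun s => ?_
    exact ((continuous_lift u).measurable.mul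
      (Complex.measurable_ofReal.comp (C.measurable_k s))).aestronglyMeasurable
  · refine Filter.Eventually.of_forall fun s => Filter.Eventually.of_forall fun t _ => ?_
    rw [norm_mul, Complex.norm_real, Real.norm_eq_abs, abs_of_nonneg (C.k_nonneg s t)]
    have h1 := norm_lift_le u t
    have h2 := C.k_le s t
    have h3 := C.k_nonneg s t
    gcongr
  · exact intervalIntegrable_const
  · filter_upwards [C.ae_ne (s₀ : ℝ)] with t ht _
    have h1 : ContinuousAt (fun s : ℝ => C.k s t) (s₀ : ℝ) := C.continuous_k_snd_of _ t ht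
    have h2 : ContinuousAt (fun s : PI => C.k (s : ℝ) t) s₀ :=
      ContinuousAt.comp (g := fun s : ℝ => C.k s t) h1 continuous_subtype_val.continuousAt
    exact continuousAt_const.mul (Complex.continuous_ofReal.continuousAt.comp h2)

/-- The Neumann operator on the parameter interval. -/
def Kop (C : Curve) : C(PI, ℂ) →L[ℂ] C(PI, ℂ) :=
  LinearMap.mkContinuous
    { toFun := fun u =>
        ⟨fun s => ∫ t in (0:ℝ)..(2 * π), lift u t * (C.k s t : ℂ), continuous_kernel_integral u⟩
      map_add' := fun u v => by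
        ext s
        simp only [ContinuousMap.coe_mk, ContinuousMap.add_apply]
        rw [← intervalIntegral.integral_add (k_integrand_interval u s _ _)
          (k_integrand_interval v s _ _)]
        congr 1
        ext1 t
        simp only [lift_add, add_mul]
      map_smul' := fun a u => by
        ext s
        simp only [ContinuousMap.coe_mk, ContinuousMap.smul_apply, RingHom.id_apply, smul_eq_mul]
        rw [← intervalIntegral.integral_const_mul]
        congr 1
        ext1 t
        simp only [lift_smul, mul_assoc] }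
    1
    (fun u => by
      simp only [LinearMap.coe_mk, AddHom.coe_mk, one_mul]
      rw [ContinuousMap.norm_le _ (norm_nonneg u)]
      intro s
      simp only [ContinuousMap.coe_mk]
      have h1 : ‖∫ t in (0:ℝ)..(2 * π), lift u t * (C.k s t : ℂ)‖
          ≤ ∫ t in (0:ℝ)..(2 * π), ‖u‖ * C.k s t := by
        apply intervalIntegral.norm_integral_le_of_norm_le two_pi_nonneg'
        · refine Filter.Eventually.of_forall fun t _ => ?_
          rw [norm_mul, Complex.norm_real, Real.norm_eq_abs, abs_of_nonneg (C.k_nonneg s t)]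
          have h2 := norm_lift_le u t
          have h3 := C.k_nonneg s t
          gcongr
        · exact (C.intervalIntegrable_k s _ _).const_mul _
      rw [intervalIntegral.integral_const_mul, C.integral_k, mul_one] at h1
      exact h1)

lemma Kop_apply (C : Curve) (u : C(PI, ℂ)) (s : PI) :
    Kop C u s = ∫ t in (0:ℝ)..(2 * π), lift u t * (C.k s t : ℂ) := rfl

lemma Kop_one (C : Curve) : Kop C 1 = 1 := by
  ext s
  rw [Kop_apply]
  simp only [lift_one, one_mul, ContinuousMap.one_apply]
  rw [intervalIntegral.integral_ofReal, C.integral_k]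
  simp

lemma Kop_nonneg (C : Curve) (u : C(PI, ℂ)) (hu : ∀ x, 0 ≤ u x) (z : PI) : 0 ≤ Kop C u z := by
  rw [Kop_apply]
  have h1 : ∀ t, lift u t * (C.k z t : ℂ) = (((lift u t).re * C.k z t : ℝ) : ℂ) := by
    intro t
    have h2 : lift u t = (((lift u t).re : ℝ) : ℂ) := by
      have h3 := (Complex.le_def.mp (hu (Set.projIcc 0 (2 * π) two_pi_nonneg' t))).2
      apply Complex.ext
      · simp
      · simpa [lift] using h3.symm
    push_cast
    rw [← h2]
  simp only [h1]
  rw [intervalIntegral.integral_ofReal]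
  have h4 : 0 ≤ ∫ t in (0:ℝ)..(2 * π), (lift u t).re * C.k z t := by
    apply intervalIntegral.integral_nonneg two_pi_nonneg'
    intro t _
    apply mul_nonneg _ (C.k_nonneg z t)
    exact (Complex.le_def.mp (hu (Set.projIcc 0 (2 * π) two_pi_nonneg' t))).1
  exact_mod_cast h4

lemma Kop_star (C : Curve) (u : C(PI, ℂ)) : Kop C (star u) = star (Kop C u) := by
  ext s
  rw [Kop_apply, ContinuousMap.star_apply, Kop_apply]
  simp only [Complex.star_def]
  rw [← intervalIntegral_conj]
  congr 1
  ext1 t
  simp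

/-- The curve as an element of the function algebra. -/
def gamX (C : Curve) : C(PI, ℂ) := ⟨fun t => C.γ t, C.continuous_γ.comp continuous_subtype_val⟩

lemma lift_gamX {t : ℝ} (ht : t ∈ Set.Icc (0:ℝ) (2 * π)) : lift (gamX C) t = C.γ t := by
  rw [lift_of_mem _ ht]
  rfl

lemma lift_gamX_pow (n : ℕ) {t : ℝ} (ht : t ∈ Set.Icc (0:ℝ) (2 * π)) :
    lift (gamX C ^ n) t = C.γ t ^ n := by
  rw [lift_of_mem _ ht]
  rfl

/-- The integral of `γ^n γ'` vanishes. -/
lemma integral_pow_mul_γ' (n : ℕ) :
    ∫ t in (0:ℝ)..(2 * π), C.γ t ^ n * C.γ' t = 0 := by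
  have hd : ∀ t, HasDerivAt (fun t => C.γ t ^ (n + 1) / ((n : ℂ) + 1)) (C.γ t ^ n * C.γ' t) t := by
    intro t
    have h1 := ((C.hasDerivAt_γ t).pow (n + 1)).div_const ((n : ℂ) + 1)
    have hn : (n : ℂ) + 1 ≠ 0 := by exact_mod_cast Nat.succ_ne_zero n
    refine h1.congr_deriv ?_
    push_cast
    field_simp
  have hc : Continuous fun t => C.γ t ^ n * C.γ' t :=
    (C.continuous_γ.pow n).mul C.continuous_γ'
  rw [intervalIntegral.integral_eq_sub_of_hasDerivAt (fun t _ => hd t) (hc.intervalIntegrable _ _)]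
  have h2 : C.γ (2 * π) = C.γ 0 := by
    have := C.γ_add 0
    rwa [zero_add] at this
  rw [h2, sub_self]

/-- The multiplicativity at the level of the generator. -/
lemma Tt_gamX_mul (hA : Inside C A c) (n : ℕ) :
    Tt hA (gamX C ^ (n + 1)) = A * Tt hA (gamX C ^ n) := by
  have hR := continuous_res hA 1 zero_le_one le_rfl
  have hγ := C.continuous_γ'
  rw [Tt_apply, Tt_apply]
  rw [mul_smul_comm]
  congr 1
  have hL := (ContinuousLinearMap.mul ℂ (H →L[ℂ] H) A).intervalIntegral_comp_comm
    (ciI (continuous_TI hA (gamX C ^ n)) 0 (2 * π))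
  simp only [ContinuousLinearMap.mul_apply'] at hL
  rw [← hL]
  have hdiff : ∀ t ∈ Set.uIcc (0:ℝ) (2 * π),
      (lift (gamX C ^ (n + 1)) t * C.γ' t) • Res C A 1 t
        - A * ((lift (gamX C ^ n) t * C.γ' t) • Res C A 1 t)
      = (C.γ t ^ n * C.γ' t) • (1 : H →L[ℂ] H) := by
    intro t ht
    rw [Set.uIcc_of_le two_pi_nonneg'] at ht
    rw [lift_gamX_pow _ ht, lift_gamX_pow _ ht, mul_smul_comm]
    have h1 := res_mul hA 1 t zero_le_one le_rfl
    have h2 : Bop C A 1 t = C.γ t • (1 : H →L[ℂ] H) - A := by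
      simp [Bop]
    rw [h2, sub_mul, smul_mul_assoc, one_mul] at h1
    have h3 : A * Res C A 1 t = C.γ t • Res C A 1 t - 1 := by
      rw [← h1]
      abel
    rw [h3, smul_sub, smul_smul, pow_succ]
    have : C.γ t ^ n * C.γ t * C.γ' t = C.γ t ^ n * C.γ' t * C.γ t := by ring
    rw [this]
    abel
  have hint : (∫ t in (0:ℝ)..(2 * π), (lift (gamX C ^ (n + 1)) t * C.γ' t) • Res C A 1 t)
      - ∫ t in (0:ℝ)..(2 * π), A * ((lift (gamX C ^ n) t * C.γ' t) • Res C A 1 t) = 0 := by
    have hc2 : Continuous fun t => A * ((lift (gamX C ^ n) t * C.γ' t) • Res C A 1 t) :=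
      continuous_const.mul (continuous_TI hA _)
    rw [← intervalIntegral.integral_sub (ciI (continuous_TI hA _) _ _) (ciI hc2 _ _)]
    rw [intervalIntegral.integral_congr hdiff, intervalIntegral.integral_smul_const,
      integral_pow_mul_γ', zero_smul]
  exact sub_eq_zero.mp hint

lemma Tt_gamX_pow (hA : Inside C A c) (n : ℕ) : Tt hA (gamX C ^ n) = A ^ n := by
  induction n with
  | zero => simpa using Tt_one hA
  | succ n ih => rw [Tt_gamX_mul, ih, pow_succ']

lemma Tt_aeval (hA : Inside C A c) (P : ℂ[X]) : Tt hA (aeval (gamX C) P) = aeval A P := by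
  rw [Polynomial.aeval_eq_sum_range, Polynomial.aeval_eq_sum_range, map_sum]
  simp only [map_smul, Tt_gamX_pow]

/-- The closure of the polynomials in the curve. -/
def polyAlg (C : Curve) : Subalgebra ℂ C(PI, ℂ) := (Algebra.adjoin ℂ {gamX C}).topologicalClosure

lemma polyAlg_closed : IsClosed (polyAlg C : Set C(PI, ℂ)) :=
  Subalgebra.isClosed_topologicalClosure _

lemma mem_adjoin_iff (u : C(PI, ℂ)) :
    u ∈ Algebra.adjoin ℂ {gamX C} ↔ ∃ P : ℂ[X], aeval (gamX C) P = u := by
  rw [Algebra.adjoin_singleton_eq_range_aeval]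
  rfl

lemma adjoin_le_polyAlg : Algebra.adjoin ℂ {gamX C} ≤ polyAlg C :=
  Subalgebra.le_topologicalClosure _

lemma aeval_mem_polyAlg (P : ℂ[X]) : aeval (gamX C) P ∈ polyAlg C :=
  adjoin_le_polyAlg ((mem_adjoin_iff _).mpr ⟨P, rfl⟩)

lemma gamX_mem_polyAlg : gamX C ∈ polyAlg C := by
  simpa using aeval_mem_polyAlg (C := C) (X : ℂ[X])

/-- A closed set containing the polynomials contains the closure. -/
lemma polyAlg_induction (F : Set C(PI, ℂ)) (hF : IsClosed F)
    (h : ∀ P : ℂ[X], aeval (gamX C) P ∈ F) : (polyAlg C : Set C(PI, ℂ)) ⊆ F := by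
  have h1 : (Algebra.adjoin ℂ {gamX C} : Set C(PI, ℂ)) ⊆ F := by
    intro u hu
    obtain ⟨P, rfl⟩ := (mem_adjoin_iff u).mp hu
    exact h P
  have h2 : (polyAlg C : Set C(PI, ℂ)) = closure (Algebra.adjoin ℂ {gamX C} : Set C(PI, ℂ)) :=
    Subalgebra.topologicalClosure_coe _
  rw [h2]
  exact closure_minimal h1 hF

lemma Tt_mul (hA : Inside C A c) (u : C(PI, ℂ)) (hu : u ∈ polyAlg C) (v : C(PI, ℂ))
    (hv : v ∈ polyAlg C) : Tt hA (u * v) = Tt hA u * Tt hA v := by
  have hcont := (Tt hA).continuous
  have h1 : ∀ P : ℂ[X], (polyAlg C : Set C(PI, ℂ)) ⊆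
      {v | Tt hA (aeval (gamX C) P * v) = Tt hA (aeval (gamX C) P) * Tt hA v} := by
    intro P
    apply polyAlg_induction
    · exact isClosed_eq (hcont.comp (continuous_const.mul continuous_id))
        (continuous_const.mul hcont)
    · intro Q
      simp only [Set.mem_setOf_eq]
      rw [← map_mul, Tt_aeval, Tt_aeval, Tt_aeval, map_mul]
  have h2 : (polyAlg C : Set C(PI, ℂ)) ⊆ {u | Tt hA (u * v) = Tt hA u * Tt hA v} := by
    apply polyAlg_induction
    · exact isClosed_eq (hcont.comp (continuous_id.mul continuous_const))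
        (hcont.mul continuous_const)
    · intro P
      exact h1 P hv
  exact h2 hu

/-- The sesquilinear density of the double layer. -/
def Ψ (C : Curve) (A : H →L[ℂ] H) (t : ℝ) (y x : H) : ℂ :=
  (2 * π * I)⁻¹ * (C.γ' t * inner ℂ y (Res C A 1 t x)
    - (starRingEnd ℂ) (C.γ' t * inner ℂ x (Res C A 1 t y)))

lemma inner_Tt (hA : Inside C A c) (u : C(PI, ℂ)) (x y : H) :
    inner ℂ y (Tt hA u x) = (2 * π * I)⁻¹ *
      ∫ t in (0:ℝ)..(2 * π), lift u t * (C.γ' t * inner ℂ y (Res C A 1 t x)) := by
  have hL := (((innerSL ℂ y).comp (ContinuousLinearMap.apply ℂ H x))).intervalIntegral_comp_comm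
    (ciI (continuous_TI hA u) 0 (2 * π))
  simp only [ContinuousLinearMap.comp_apply, ContinuousLinearMap.apply_apply, innerSL_apply_apply,
    ContinuousLinearMap.smul_apply, inner_smul_right] at hL
  rw [Tt_apply]
  simp only [ContinuousLinearMap.smul_apply, inner_smul_right]
  rw [← hL]
  congr 2
  ext1 t
  ring

lemma continuous_inner_res (hA : Inside C A c) (x y : H) :
    Continuous fun t => (inner ℂ y (Res C A 1 t x) : ℂ) := by
  have h1 := continuous_res hA 1 zero_le_one le_rfl
  have h2 : Continuous fun t => Res C A 1 t x := h1.clm_apply continuous_const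
  exact continuous_const.inner h2

lemma continuous_Ψ (hA : Inside C A c) (x y : H) : Continuous fun t => Ψ C A t y x := by
  have h1 := continuous_inner_res hA x y
  have h2 := continuous_inner_res hA y x
  have h3 := C.continuous_γ'
  unfold Ψ
  exact continuous_const.mul ((h3.mul h1).sub (Complex.continuous_conj.comp (h3.mul h2)))

/-- The double layer as an integral of the density. -/
lemma inner_S (hA : Inside C A c) (u : C(PI, ℂ)) (x y : H) :
    inner ℂ y ((Tt hA u + adjoint (Tt hA (star u))) x)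
      = ∫ t in (0:ℝ)..(2 * π), lift u t * Ψ C A t y x := by
  have hu := continuous_lift u
  have h1 := continuous_inner_res hA x y
  have h2 := continuous_inner_res hA y x
  have h3 := C.continuous_γ'
  rw [ContinuousLinearMap.add_apply, inner_add_right, inner_Tt,
    ContinuousLinearMap.adjoint_inner_right, ← inner_conj_symm, inner_Tt, map_mul, ← intervalIntegral_conj]
  have h4 : (starRingEnd ℂ) (2 * π * I : ℂ)⁻¹ = -(2 * π * I : ℂ)⁻¹ := by
    rw [map_inv₀]
    simp only [map_mul, Complex.conj_I, Complex.conj_ofReal, map_ofNat]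
    rw [mul_neg, inv_neg]
  rw [h4, neg_mul, ← sub_eq_add_neg, ← mul_sub, ← intervalIntegral.integral_sub,
    ← intervalIntegral.integral_const_mul]
  · congr 1
    ext1 t
    simp only [Ψ, lift_star, map_mul, Complex.conj_conj]
    ring
  · exact (hu.mul (h3.mul h1)).intervalIntegrable _ _
  · exact (Complex.continuous_conj.comp
      ((Complex.continuous_conj.comp hu).mul (h3.mul h2))).intervalIntegrable _ _

/-- The density is a positive quadratic form. -/
lemma Ψ_self (t : ℝ) (x : H) :
    Ψ C A t x x = (((C.γ' t * inner ℂ x (Res C A 1 t x)).im / π : ℝ) : ℂ) := by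
  unfold Ψ
  rw [Complex.sub_conj]
  have hπ : (π : ℂ) ≠ 0 := by exact_mod_cast Real.pi_pos.ne'
  push_cast
  field_simp

/-- The pointwise algebra of two-positivity. -/
lemma two_pos_algebra (a b wxx wxy wyx wyy : ℂ) :
    ((starRingEnd ℂ) a * a * ((2 * π * I)⁻¹ * (wxx - (starRingEnd ℂ) wxx))).re
      + 2 * ((starRingEnd ℂ) b * a * ((2 * π * I)⁻¹ * (wyx - (starRingEnd ℂ) wxy))).re
      + ((starRingEnd ℂ) b * b * ((2 * π * I)⁻¹ * (wyy - (starRingEnd ℂ) wyy))).re
    = ((starRingEnd ℂ) a * a * wxx + (starRingEnd ℂ) a * b * wxy + (starRingEnd ℂ) b * a * wyx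
        + (starRingEnd ℂ) b * b * wyy).im / π := by
  have h1 : (2 * π * I : ℂ)⁻¹ = ((-(1 / (2 * π)) : ℝ) : ℂ) * I := by
    have hπ : (π : ℂ) ≠ 0 := by exact_mod_cast Real.pi_pos.ne'
    have hI := Complex.I_mul_I
    push_cast
    field_simp
    rw [pow_two, hI]
    norm_num
  rw [h1]
  have hπ := Real.pi_pos.ne'
  simp only [Complex.add_re, Complex.add_im, Complex.sub_re, Complex.sub_im, Complex.mul_re,
    Complex.mul_im, Complex.conj_re, Complex.conj_im, Complex.ofReal_re, Complex.ofReal_im,
    Complex.I_re, Complex.I_im]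
  field_simp
  ring

/-- The positivity statement for one continuous function. -/
lemma S_nonneg' (hA : Inside C A c) (v : C(PI, ℂ)) (hv : ∀ t, 0 ≤ v t) (x : H) :
    0 ≤ (inner ℂ x ((Tt hA v + adjoint (Tt hA (star v))) x) : ℂ).re := by
  rw [inner_S]
  have hcont : Continuous fun t => lift v t * Ψ C A t x x :=
    (continuous_lift v).mul (continuous_Ψ hA x x)
  have h1 := intervalIntegral_re (ciI hcont 0 (2 * π))
  simp only [RCLike.re_to_complex] at h1
  rw [← h1]
  apply intervalIntegral.integral_nonneg two_pi_nonneg'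
  intro t _
  have h2 := hv (Set.projIcc 0 (2 * π) two_pi_nonneg' t)
  have h3 : 0 ≤ lift v t := h2
  have h4 : 0 ≤ (Ψ C A t x x).re := by
    rw [Ψ_self, Complex.ofReal_re]
    exact div_nonneg (inner_res_im_nonneg hA t x) Real.pi_pos.le
  have h5 : 0 ≤ Ψ C A t x x := by
    rw [Complex.le_def]
    constructor
    · simpa using h4
    · rw [Ψ_self]
      simp
  exact (Complex.le_def.mp (mul_nonneg h3 h5)).1

/-- The positivity statement for two functions and two vectors. -/
lemma S_pos' (hA : Inside C A c) (p q : C(PI, ℂ)) (x y : H) :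
    0 ≤ (inner ℂ x ((Tt hA (star p * p) + adjoint (Tt hA (star (star p * p)))) x) : ℂ).re
      + 2 * (inner ℂ y ((Tt hA (star q * p) + adjoint (Tt hA (star (star q * p)))) x) : ℂ).re
      + (inner ℂ y ((Tt hA (star q * q) + adjoint (Tt hA (star (star q * q)))) y) : ℂ).re := by
  rw [inner_S, inner_S, inner_S]
  have hc1 : Continuous fun t => lift (star p * p) t * Ψ C A t x x :=
    (continuous_lift _).mul (continuous_Ψ hA x x)
  have hc2 : Continuous fun t => lift (star q * p) t * Ψ C A t y x :=
    (continuous_lift _).mul (continuous_Ψ hA x y)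
  have hc3 : Continuous fun t => lift (star q * q) t * Ψ C A t y y :=
    (continuous_lift _).mul (continuous_Ψ hA y y)
  have h1 := intervalIntegral_re (ciI hc1 0 (2 * π))
  have h2 := intervalIntegral_re (ciI hc2 0 (2 * π))
  have h3 := intervalIntegral_re (ciI hc3 0 (2 * π))
  simp only [RCLike.re_to_complex] at h1 h2 h3
  rw [← h1, ← h2, ← h3]
  have hr1 : Continuous fun t => (lift (star p * p) t * Ψ C A t x x).re :=
    Complex.continuous_re.comp hc1
  have hr2 : Continuous fun t => (lift (star q * p) t * Ψ C A t y x).re :=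
    Complex.continuous_re.comp hc2
  have hr3 : Continuous fun t => (lift (star q * q) t * Ψ C A t y y).re :=
    Complex.continuous_re.comp hc3
  have hr2' : Continuous fun t => 2 * (lift (star q * p) t * Ψ C A t y x).re :=
    continuous_const.mul hr2
  have hr12 : Continuous fun t => (lift (star p * p) t * Ψ C A t x x).re
      + 2 * (lift (star q * p) t * Ψ C A t y x).re := hr1.add hr2'
  rw [← intervalIntegral.integral_const_mul, ← intervalIntegral.integral_add (ciI hr1 _ _)
    (ciI hr2' _ _), ← intervalIntegral.integral_add (ciI hr12 _ _) (ciI hr3 _ _)]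
  apply intervalIntegral.integral_nonneg two_pi_nonneg'
  intro t _
  set a := lift p t with ha
  set b := lift q t with hb
  have h4 := inner_res_im_nonneg hA t (a • x + b • y)
  have h5 := two_pos_algebra a b (C.γ' t * inner ℂ x (Res C A 1 t x))
    (C.γ' t * inner ℂ x (Res C A 1 t y)) (C.γ' t * inner ℂ y (Res C A 1 t x))
    (C.γ' t * inner ℂ y (Res C A 1 t y))
  have h6 : C.γ' t * (inner ℂ (a • x + b • y) (Res C A 1 t (a • x + b • y)) : ℂ)
      = (starRingEnd ℂ) a * a * (C.γ' t * inner ℂ x (Res C A 1 t x))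
        + (starRingEnd ℂ) a * b * (C.γ' t * inner ℂ x (Res C A 1 t y))
        + (starRingEnd ℂ) b * a * (C.γ' t * inner ℂ y (Res C A 1 t x))
        + (starRingEnd ℂ) b * b * (C.γ' t * inner ℂ y (Res C A 1 t y)) := by
    simp only [map_add, map_smul, inner_add_left, inner_add_right, inner_smul_left,
      inner_smul_right]
    ring
  rw [h6] at h4
  have h7 : 0 ≤ ((starRingEnd ℂ) a * a * (C.γ' t * inner ℂ x (Res C A 1 t x))
        + (starRingEnd ℂ) a * b * (C.γ' t * inner ℂ x (Res C A 1 t y))
        + (starRingEnd ℂ) b * a * (C.γ' t * inner ℂ y (Res C A 1 t x))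
        + (starRingEnd ℂ) b * b * (C.γ' t * inner ℂ y (Res C A 1 t y))).im / π :=
    div_nonneg h4 Real.pi_pos.le
  rw [← h5] at h7
  simp only [lift_mul, lift_star, Ψ, ← ha, ← hb]
  exact h7

end Vale.Agent.helper3.CP
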