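import Mathlib

/-!
# Mollifying a support function
-/

open MeasureTheory
open scoped Real Convolution ContDiff

set_option linter.unusedSimpArgs false
set_option linter.deprecated false

noncomputable section

namespace Vale.Agent.helper3.CP

/-- The second difference test: if the second differences of `f` against the cosine are
nonnegative then `f + f'' ≥ 0`. -/
lemma nonneg_of_second_diff (f f' f'' : ℝ → ℝ) (h1 : ∀ x, HasDerivAt f (f' x) x)
    (h2 : ∀ x, HasDerivAt f' (f'' x) x) (θ : ℝ)
    (hG : ∀ a, |a| < 1 → 0 ≤ f (θ + a) + f (θ - a) - 2 * Real.cos a * f θ) :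
    0 ≤ f'' θ + f θ := by
  by_contra hneg
  push Not at hneg
  set κ := -(f'' θ + f θ) / 2 with hκ
  have hκp : 0 < κ := by rw [hκ]; linarith
  set G : ℝ → ℝ := fun a => f (θ + a) + f (θ - a) - 2 * Real.cos a * f θ + κ * a ^ 2 with hGdef
  set G1 : ℝ → ℝ := fun a => f' (θ + a) - f' (θ - a) + 2 * Real.sin a * f θ + 2 * κ * a with hG1def
  set G2 : ℝ → ℝ := fun a => f'' (θ + a) + f'' (θ - a) + 2 * Real.cos a * f θ + 2 * κ with hG2def
  have hd1 : ∀ a, HasDerivAt G (G1 a) a := by
    intro a
    have h3 : HasDerivAt (fun a => f (θ + a)) (f' (θ + a)) a := (h1 (θ + a)).comp_const_add θ a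
    have h4 : HasDerivAt (fun a => f (θ - a)) (-f' (θ - a)) a := (h1 (θ - a)).comp_const_sub θ a
    have h5 : HasDerivAt (fun a => 2 * Real.cos a * f θ) (2 * (-Real.sin a) * f θ) a :=
      ((Real.hasDerivAt_cos a).const_mul 2).mul_const _
    have h6 : HasDerivAt (fun a : ℝ => κ * a ^ 2) (κ * (2 * a)) a := by
      have := (hasDerivAt_pow 2 a).const_mul κ
      simpa using this
    have h7 : HasDerivAt G (f' (θ + a) + -f' (θ - a) - 2 * (-Real.sin a) * f θ + κ * (2 * a)) a :=
      ((h3.add h4).sub h5).add h6
    refine h7.congr_deriv ?_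
    simp only [hG1def]
    ring
  have hd2 : HasDerivAt G1 (G2 0) 0 := by
    have h3 : HasDerivAt (fun a => f' (θ + a)) (f'' (θ + 0)) 0 := (h2 (θ + 0)).comp_const_add θ 0
    have h4 : HasDerivAt (fun a => f' (θ - a)) (-f'' (θ - 0)) 0 := (h2 (θ - 0)).comp_const_sub θ 0
    have h5 : HasDerivAt (fun a => 2 * Real.sin a * f θ) (2 * Real.cos 0 * f θ) 0 :=
      ((Real.hasDerivAt_sin 0).const_mul 2).mul_const _
    have h6 : HasDerivAt (fun a : ℝ => 2 * κ * a) (2 * κ) 0 := by
      simpa using (hasDerivAt_id (0 : ℝ)).const_mul (2 * κ)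
    have h7 : HasDerivAt G1 (f'' (θ + 0) - -f'' (θ - 0) + 2 * Real.cos 0 * f θ + 2 * κ) 0 :=
      ((h3.sub h4).add h5).add h6
    refine h7.congr_deriv ?_
    simp only [hG2def]
    ring
  have hderiv : deriv G = G1 := funext fun a => (hd1 a).deriv
  have hG10 : G1 0 = 0 := by simp [hG1def]
  have hG20 : G2 0 = -2 * κ := by
    simp only [hG2def, add_zero, sub_zero, Real.cos_zero]
    rw [hκ]
    ring
  have hmax : IsLocalMax G 0 := by
    apply isLocalMax_of_deriv_deriv_neg
    · rw [hderiv, hd2.deriv, hG20]
      linarith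
    · rw [hderiv, hG10]
    · exact (hd1 0).continuousAt
  have hG0 : G 0 = 0 := by
    simp only [hGdef, add_zero, sub_zero, Real.cos_zero]
    ring
  have hev : ∀ᶠ a in nhdsWithin (0 : ℝ) {0}ᶜ, G a ≤ 0 ∧ |a| < 1 := by
    have h3 : ∀ᶠ a in nhds (0 : ℝ), G a ≤ G 0 := hmax
    have h4 : ∀ᶠ a in nhds (0 : ℝ), |a| < 1 := by
      have : Set.Ioo (-1 : ℝ) 1 ∈ nhds (0 : ℝ) := Ioo_mem_nhds (by norm_num) (by norm_num)
      filter_upwards [this] with a ha
      exact abs_lt.mpr ⟨ha.1, ha.2⟩
    have h5 := (h3.and h4).filter_mono (nhdsWithin_le_nhds (s := {0}ᶜ))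
    filter_upwards [h5] with a ha
    rw [hG0] at ha
    exact ha
  have hev2 : ∀ᶠ a in nhdsWithin (0 : ℝ) {0}ᶜ, a ≠ 0 := self_mem_nhdsWithin
  obtain ⟨a, ha, ha0⟩ := (hev.and hev2).exists
  have h3 := hG a ha.2
  have h4 : G a = f (θ + a) + f (θ - a) - 2 * Real.cos a * f θ + κ * a ^ 2 := rfl
  have h5 : 0 < κ * a ^ 2 := by positivity
  linarith [ha.1]

/-- The mollification of a Lipschitz periodic function satisfying the cosine second difference
inequality. -/
theorem exists_mollified (s : ℝ → ℝ) (L : ℝ) (hL : 0 ≤ L) (hlip : ∀ x y, s x ≤ s y + L * |x - y|)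
    (hper : ∀ x, s (x + 2 * π) = s x)
    (hsd : ∀ θ a, |a| < 1 → 2 * Real.cos a * s θ ≤ s (θ + a) + s (θ - a))
    (η : ℝ) (hη : 0 < η) :
    ∃ m m' m'' : ℝ → ℝ, (∀ x, HasDerivAt m (m' x) x) ∧ (∀ x, HasDerivAt m' (m'' x) x) ∧
      Continuous m'' ∧ (∀ x, m (x + 2 * π) = m x) ∧ (∀ x, m' (x + 2 * π) = m' x) ∧
      (∀ x, m'' (x + 2 * π) = m'' x) ∧ (∀ x, |m x - s x| ≤ η) ∧ (∀ x, 0 ≤ m x + m'' x) := by
  have hscont : Continuous s := by
    apply LipschitzWith.continuous (K := Real.toNNReal L)
    apply LipschitzWith.of_dist_le_mul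
    intro x y
    rw [Real.coe_toNNReal _ hL, Real.dist_eq, Real.dist_eq, abs_le]
    have h1 := hlip x y
    have h2 := hlip y x
    rw [abs_sub_comm] at h2
    constructor <;> linarith
  set δ := η / (L + 1) with hδ
  have hδp : 0 < δ := by positivity
  set φ : ContDiffBump (0 : ℝ) := ⟨δ / 2, δ, half_pos hδp, half_lt_self hδp⟩ with hφ
  set b : ℝ → ℝ := φ.normed volume with hb
  set m : ℝ → ℝ := b ⋆[ContinuousLinearMap.lsmul ℝ ℝ, volume] s with hm
  have hmval : ∀ x, m x = ∫ t, b t * s (x - t) := fun x => rfl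
  have hmsmooth : ContDiff ℝ 3 m :=
    φ.hasCompactSupport_normed.contDiff_convolution_left _ φ.contDiff_normed
      hscont.locallyIntegrable
  have hbnn : ∀ t, 0 ≤ b t := fun t => φ.nonneg_normed t
  have hbc : Continuous b := φ.continuous_normed
  have hbcs : HasCompactSupport b := φ.hasCompactSupport_normed
  have hint : ∀ x, Integrable fun t => b t * s (x - t) := by
    intro x
    apply Continuous.integrable_of_hasCompactSupport
    · exact hbc.mul (hscont.comp (continuous_const.sub continuous_id))
    · exact hbcs.mul_right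
  have hmper : ∀ x, m (x + 2 * π) = m x := by
    intro x
    rw [hmval, hmval]
    congr 1
    ext t
    have : x + 2 * π - t = (x - t) + 2 * π := by ring
    rw [this, hper]
  have hd1 : ContDiff ℝ 2 (deriv m) := by
    have := hmsmooth.iterate_deriv' 2 1
    simpa using this
  have hd2 : ContDiff ℝ 1 (deriv (deriv m)) := by
    have := hmsmooth.iterate_deriv' 1 2
    simpa using this
  refine ⟨m, deriv m, deriv (deriv m), ?_, ?_, hd2.continuous, hmper, ?_, ?_, ?_, ?_⟩
  · intro x
    exact (hmsmooth.differentiable (by norm_num) x).hasDerivAt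
  · intro x
    exact (hd1.differentiable (by norm_num) x).hasDerivAt
  · intro x
    have h1 : deriv (fun y => m (y + 2 * π)) x = deriv m (x + 2 * π) := deriv_comp_add_const ..
    have h2 : (fun y => m (y + 2 * π)) = m := funext hmper
    rw [h2] at h1
    exact h1.symm
  · intro x
    have hmper' : ∀ x, deriv m (x + 2 * π) = deriv m x := by
      intro x
      have h1 : deriv (fun y => m (y + 2 * π)) x = deriv m (x + 2 * π) := deriv_comp_add_const ..
      have h2 : (fun y => m (y + 2 * π)) = m := funext hmper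
      rw [h2] at h1
      exact h1.symm
    have h1 : deriv (fun y => deriv m (y + 2 * π)) x = deriv (deriv m) (x + 2 * π) :=
      deriv_comp_add_const ..
    have h2 : (fun y => deriv m (y + 2 * π)) = deriv m := funext hmper'
    rw [h2] at h1
    exact h1.symm
  · intro x
    have h1 := φ.dist_normed_convolution_le (μ := volume) (x₀ := x) (g := s) (ε := η)
      hscont.aestronglyMeasurable (fun y hy => by
        have hy' : |y - x| < δ := by
          rw [Metric.mem_ball, Real.dist_eq] at hy
          simpa using hy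
        rw [Real.dist_eq, abs_le]
        have h2 := hlip y x
        have h3 := hlip x y
        rw [abs_sub_comm] at h3
        have h4 : L * |y - x| ≤ η := by
          have h5 : L * |y - x| ≤ L * δ := by gcongr
          have h6 : L * δ ≤ η := by
            rw [hδ, mul_div_assoc', div_le_iff₀ (by positivity)]
            nlinarith
          linarith
        constructor <;> linarith)
    rwa [Real.dist_eq] at h1
  · intro θ
    have h1 := nonneg_of_second_diff m (deriv m) (deriv (deriv m))
      (fun x => (hmsmooth.differentiable (by norm_num) x).hasDerivAt)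
      (fun x => (hd1.differentiable (by norm_num) x).hasDerivAt) θ (fun a ha => by
        have h2 : m (θ + a) + m (θ - a) - 2 * Real.cos a * m θ
            = ∫ t, b t * (s (θ - t + a) + s (θ - t - a) - 2 * Real.cos a * s (θ - t)) := by
          have hI12 : Integrable fun t => b t * s (θ + a - t) + b t * s (θ - a - t) :=
            (hint _).add (hint _)
          rw [hmval, hmval, hmval, ← integral_add (hint _) (hint _), ← integral_const_mul,
            ← integral_sub hI12 ((hint _).const_mul _)]
          congr 1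
          ext t
          have h3 : θ + a - t = θ - t + a := by ring
          have h4 : θ - a - t = θ - t - a := by ring
          rw [h3, h4]
          ring
        rw [h2]
        apply integral_nonneg
        intro t
        apply mul_nonneg (hbnn t)
        have := hsd (θ - t) a ha
        linarith)
    linarith

end Vale.Agent.helper3.CP
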