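import Vale.Agent.helper3.CP.Instance

/-!
# Cauchy transforms of conjugates of powers of the curve: boundary values
-/

open Complex MeasureTheory intervalIntegral ContinuousLinearMap Polynomial
open scoped Real ComplexOrder

set_option linter.unusedSimpArgs false
set_option linter.deprecated false
set_option linter.unusedSectionVars false

noncomputable section

namespace Vale.Agent.helper3.CP

variable (C : Curve)

/-- Interval integrability of bounded measurable functions. -/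
lemma ii_of_bounded {f : ℝ → ℂ} (hm : Measurable f) (M : ℝ) (hM : ∀ t, ‖f t‖ ≤ M) (a b : ℝ) :
    IntervalIntegrable f volume a b := by
  rw [intervalIntegrable_iff]
  refine Measure.integrableOn_of_bounded (M := M) ?_ hm.aestronglyMeasurable
    (Filter.Eventually.of_forall hM)
  simp

/-- The conjugate of a power, as a function on the line. -/
def U (n : ℕ) (t : ℝ) : ℂ := (starRingEnd ℂ) (C.γ t) ^ n

lemma continuous_U (n : ℕ) : Continuous (U C n) :=
  (Complex.continuous_conj.comp C.continuous_γ).pow n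

lemma U_add (n : ℕ) (t : ℝ) : U C n (t + 2 * π) = U C n t := by
  simp only [U, C.γ_add]

/-- The geometric sum. -/
def Qf (a b : ℂ) (n : ℕ) : ℂ := ∑ i ∈ Finset.range n, a ^ i * b ^ (n - 1 - i)

lemma Qf_mul (a b : ℂ) (n : ℕ) : Qf a b n * (a - b) = a ^ n - b ^ n := geom_sum₂_mul a b n

lemma norm_Qf_le (a b : ℂ) (n : ℕ) (D : ℝ) (hD : 0 ≤ D) (ha : ‖a‖ ≤ D) (hb : ‖b‖ ≤ D) :
    ‖Qf a b n‖ ≤ n * D ^ (n - 1) := by
  unfold Qf
  refine le_trans (norm_sum_le _ _) ?_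
  have h1 : ∀ i ∈ Finset.range n, ‖a ^ i * b ^ (n - 1 - i)‖ ≤ D ^ (n - 1) := by
    intro i hi
    have hi' : i ≤ n - 1 := by
      have := Finset.mem_range.mp hi
      omega
    rw [norm_mul, norm_pow, norm_pow]
    calc ‖a‖ ^ i * ‖b‖ ^ (n - 1 - i) ≤ D ^ i * D ^ (n - 1 - i) := by gcongr
      _ = D ^ (n - 1) := by
          rw [← pow_add]
          congr 1
          omega
  have h2 := Finset.sum_le_card_nsmul _ _ _ h1
  simpa using h2

/-- The Lipschitz estimate for the conjugate powers. -/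
lemma norm_U_sub_le (n : ℕ) (D : ℝ) (hD : 0 < D) (hγ : ∀ t, ‖C.γ t‖ ≤ D) (s t : ℝ) :
    ‖U C n t - U C n s‖ ≤ n * D ^ (n - 1) * ‖C.γ t - C.γ s‖ := by
  have h1 : U C n t - U C n s = (starRingEnd ℂ) (Qf (C.γ t) (C.γ s) n * (C.γ t - C.γ s)) := by
    rw [Qf_mul]
    simp [U]
  rw [h1, Complex.norm_conj, norm_mul]
  gcongr
  exact norm_Qf_le _ _ n D hD.le (hγ t) (hγ s)

/-- The integral of the geometric sum against `γ'` vanishes. -/
lemma integral_Qf_γ' (b : ℂ) (n : ℕ) :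
    ∫ t in (0:ℝ)..(2 * π), Qf (C.γ t) b n * C.γ' t = 0 := by
  unfold Qf
  simp only [Finset.sum_mul]
  rw [intervalIntegral.integral_finset_sum]
  · apply Finset.sum_eq_zero
    intro i _
    have h1 : ∀ t, C.γ t ^ i * b ^ (n - 1 - i) * C.γ' t = b ^ (n - 1 - i) * (C.γ t ^ i * C.γ' t) := by
      intro t; ring
    simp only [h1]
    rw [intervalIntegral.integral_const_mul, integral_pow_mul_γ', mul_zero]
  · intro i _
    apply Continuous.intervalIntegrable
    exact ((C.continuous_γ.pow i).mul continuous_const).mul C.continuous_γ'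

lemma continuous_Qf (b : ℂ) (n : ℕ) : Continuous fun t => Qf (C.γ t) b n * C.γ' t := by
  unfold Qf
  refine Continuous.mul ?_ C.continuous_γ'
  exact continuous_finset_sum _ fun i _ => (C.continuous_γ.pow i).mul continuous_const

/-- The real part lower bound away from the boundary. -/
lemma re_sub_ge (ρ : ℝ) (h0 : 0 ≤ ρ) (h1 : ρ ≤ 1) (s t : ℝ) :
    (1 - ρ) * C.h₀ ≤ (Complex.exp (-(t * I)) * (C.γ t - ρ * C.γ s)).re := by
  have h2 : (Complex.exp (-(t * I)) * (C.γ t - ρ * C.γ s)).re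
      = C.h t - ρ * (Complex.exp (-(t * I)) * C.γ s).re := by
    have h3 : Complex.exp (-(t * I)) * (C.γ t - ρ * C.γ s)
        = Complex.exp (-(t * I)) * C.γ t - (ρ : ℂ) * (Complex.exp (-(t * I)) * C.γ s) := by ring
    rw [h3, Complex.sub_re, C.re_exp_mul_γ_self, Complex.re_ofReal_mul]
  rw [h2]
  have h4 := C.support s t
  have h5 := C.h_lower t
  have h6 := C.h₀_pos
  have h7 : ρ * (Complex.exp (-(t * I)) * C.γ s).re ≤ ρ * C.h t := by gcongr
  have h8 : (1 - ρ) * C.h₀ ≤ (1 - ρ) * C.h t := by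
    apply mul_le_mul_of_nonneg_left h5
    linarith
  linarith

lemma denom_ne (ρ : ℝ) (h0 : 0 ≤ ρ) (h1 : ρ < 1) (s t : ℝ) : C.γ t - ρ * C.γ s ≠ 0 := by
  intro h2
  have h3 := re_sub_ge C ρ h0 h1.le s t
  rw [h2, mul_zero] at h3
  have h4 := C.h₀_pos
  have h5 : 0 < (1 - ρ) * C.h₀ := mul_pos (by linarith) h4
  simp at h3
  linarith

lemma norm_denom_ge (ρ : ℝ) (h0 : 0 ≤ ρ) (h1 : ρ ≤ 1) (s t : ℝ) :
    (1 - ρ) * C.h₀ ≤ ‖C.γ t - ρ * C.γ s‖ := by
  refine le_trans (re_sub_ge C ρ h0 h1 s t) (le_trans (Complex.re_le_norm _) ?_)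
  rw [norm_mul, norm_exp_neg, one_mul]

/-- The Cauchy integral of the conjugate power at the interior point `ρ γ s`. -/
def Gf (n : ℕ) (ρ s : ℝ) : ℂ :=
  (2 * π * I)⁻¹ * ∫ t in (0:ℝ)..(2 * π), U C n t * (C.γ' t / (C.γ t - ρ * C.γ s))

/-- The Neumann transform of the conjugate power. -/
def Kf (n : ℕ) (s : ℝ) : ℂ := ∫ t in (0:ℝ)..(2 * π), U C n t * (C.k s t : ℂ)

lemma continuous_div_denom (ρ : ℝ) (h0 : 0 ≤ ρ) (h1 : ρ < 1) (s : ℝ) :
    Continuous fun t => C.γ' t / (C.γ t - ρ * C.γ s) :=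
  C.continuous_γ'.div (C.continuous_γ.sub continuous_const) (fun t => denom_ne C ρ h0 h1 s t)

lemma Gf_eq (n : ℕ) (ρ : ℝ) (h0 : 0 ≤ ρ) (h1 : ρ < 1) (s : ℝ) :
    Gf C n ρ s = U C n s + (2 * π * I)⁻¹ *
      ∫ t in (0:ℝ)..(2 * π), (U C n t - U C n s) * (C.γ' t / (C.γ t - ρ * C.γ s)) := by
  have hc := continuous_div_denom C ρ h0 h1 s
  have hU := continuous_U C n
  have hw : ∫ t in (0:ℝ)..(2 * π), C.γ' t / (C.γ t - ρ * C.γ s) = 2 * π * I := by
    apply C.winding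
    intro t
    have h2 := re_sub_ge C ρ h0 h1.le s t
    have h3 := C.h₀_pos
    have h4 : 0 < (1 - ρ) * C.h₀ := mul_pos (by linarith) h3
    linarith
  have h2 : ∀ t, U C n t * (C.γ' t / (C.γ t - ρ * C.γ s))
      = (U C n t - U C n s) * (C.γ' t / (C.γ t - ρ * C.γ s))
        + U C n s * (C.γ' t / (C.γ t - ρ * C.γ s)) := by
    intro t; ring
  have hc1 : Continuous fun t => (U C n t - U C n s) * (C.γ' t / (C.γ t - ρ * C.γ s)) :=
    (hU.sub continuous_const).mul hc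
  have hc2 : Continuous fun t => U C n s * (C.γ' t / (C.γ t - ρ * C.γ s)) :=
    continuous_const.mul hc
  unfold Gf
  simp only [h2]
  rw [intervalIntegral.integral_add (ciI hc1 _ _) (ciI hc2 _ _),
    intervalIntegral.integral_const_mul, hw, mul_add]
  have h3 := two_pi_I_ne
  field_simp
  ring

/-- The kernel in terms of the Cauchy kernel. -/
lemma k_eq (s t : ℝ) : (C.k s t : ℂ) = (2 * π * I)⁻¹ * (C.γ' t / (C.γ t - C.γ s)
    - (starRingEnd ℂ) (C.γ' t / (C.γ t - C.γ s))) := by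
  rw [Complex.sub_conj]
  have hπ : (π : ℂ) ≠ 0 := by exact_mod_cast Real.pi_pos.ne'
  unfold Curve.k
  push_cast
  field_simp

/-- The bound of the product `(U t - U s) * (γ' / (γ t - γ s))`. -/
lemma norm_A1_le (n : ℕ) (D : ℝ) (hD : 0 < D) (hγ : ∀ t, ‖C.γ t‖ ≤ D) (s t : ℝ) :
    ‖(U C n t - U C n s) * (C.γ' t / (C.γ t - C.γ s))‖ ≤ n * D ^ (n - 1) * C.R₁ := by
  have hL := norm_U_sub_le C n D hD hγ s t
  have hR := C.norm_γ'_le t
  have hR₁ := C.R₁_pos
  by_cases h : C.γ t - C.γ s = 0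
  · simp only [h, div_zero, mul_zero, norm_zero]
    positivity
  · have hn : 0 < ‖C.γ t - C.γ s‖ := norm_pos_iff.mpr h
    rw [norm_mul, norm_div]
    calc ‖U C n t - U C n s‖ * (‖C.γ' t‖ / ‖C.γ t - C.γ s‖)
        ≤ (n * D ^ (n - 1) * ‖C.γ t - C.γ s‖) * (C.R₁ / ‖C.γ t - C.γ s‖) := by gcongr
      _ = _ := by field_simp

lemma measurable_U (n : ℕ) : Measurable (U C n) := (continuous_U C n).measurable

lemma measurable_A1 (n : ℕ) (s : ℝ) :
    Measurable fun t => (U C n t - U C n s) * (C.γ' t / (C.γ t - C.γ s)) :=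
  ((measurable_U C n).sub_const _).mul
    (C.continuous_γ'.measurable.div (C.continuous_γ.measurable.sub_const _))

lemma Kf_eq (n : ℕ) (s : ℝ) :
    Kf C n s = U C n s + (2 * π * I)⁻¹ *
      ∫ t in (0:ℝ)..(2 * π), (U C n t - U C n s) * (C.γ' t / (C.γ t - C.γ s)) := by
  obtain ⟨D, hD, hγ⟩ := C.exists_norm_γ_le
  have hU := continuous_U C n
  have hkc : IntervalIntegrable (fun t => (C.k s t : ℂ)) volume 0 (2 * π) :=
    ⟨(C.intervalIntegrable_k s _ _).1.ofReal, (C.intervalIntegrable_k s _ _).2.ofReal⟩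
  have hA1 : IntervalIntegrable (fun t => (U C n t - U C n s) * (C.γ' t / (C.γ t - C.γ s)))
      volume 0 (2 * π) :=
    ii_of_bounded (measurable_A1 C n s) _ (norm_A1_le C n D hD hγ s) _ _
  have hQc : Continuous fun t => (starRingEnd ℂ) (Qf (C.γ t) (C.γ s) n * C.γ' t) :=
    Complex.continuous_conj.comp (continuous_Qf C (C.γ s) n)
  -- pointwise decomposition
  have hpt : ∀ᵐ t : ℝ, U C n t * (C.k s t : ℂ)
      = U C n s * (C.k s t : ℂ) + (2 * π * I)⁻¹ * ((U C n t - U C n s) * (C.γ' t / (C.γ t - C.γ s))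
        - (starRingEnd ℂ) (Qf (C.γ t) (C.γ s) n * C.γ' t)) := by
    filter_upwards [C.ae_ne s] with t ht
    have h1 : C.γ t - C.γ s ≠ 0 := sub_ne_zero.mpr ht
    have h2 : (starRingEnd ℂ) (Qf (C.γ t) (C.γ s) n * C.γ' t)
        = (U C n t - U C n s) * (starRingEnd ℂ) (C.γ' t / (C.γ t - C.γ s)) := by
      have h3 : Qf (C.γ t) (C.γ s) n * C.γ' t
          = (C.γ t ^ n - C.γ s ^ n) * (C.γ' t / (C.γ t - C.γ s)) := by
        rw [← Qf_mul]
        field_simp
      rw [h3, map_mul]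
      simp [U]
    rw [h2, k_eq]
    ring
  have hint := intervalIntegral.integral_congr_ae (a := 0) (b := 2 * π)
    (hpt.mono fun t ht _ => ht)
  unfold Kf
  rw [hint]
  have hsplit1 : IntervalIntegrable (fun t => U C n s * (C.k s t : ℂ)) volume 0 (2 * π) :=
    hkc.const_mul _
  have hsub : IntervalIntegrable (fun t => (U C n t - U C n s) * (C.γ' t / (C.γ t - C.γ s))
      - (starRingEnd ℂ) (Qf (C.γ t) (C.γ s) n * C.γ' t)) volume 0 (2 * π) :=
    hA1.sub (ciI hQc _ _)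
  rw [intervalIntegral.integral_add hsplit1 (hsub.const_mul _),
    intervalIntegral.integral_const_mul, intervalIntegral.integral_const_mul,
    intervalIntegral.integral_sub hA1 (ciI hQc _ _), intervalIntegral.integral_ofReal,
    C.integral_k, intervalIntegral_conj, integral_Qf_γ']
  simp

/-- The difference of the two kernels. -/
def Dρ (n : ℕ) (ρ s t : ℝ) : ℂ :=
  (U C n t - U C n s) * (C.γ' t / (C.γ t - ρ * C.γ s))
    - (U C n t - U C n s) * (C.γ' t / (C.γ t - C.γ s))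

lemma Dρ_add (n : ℕ) (ρ s t : ℝ) : Dρ C n ρ s (t + 2 * π) = Dρ C n ρ s t := by
  simp only [Dρ, U_add, C.γ_add, C.γ'_add]

lemma measurable_Dρ (n : ℕ) (ρ s : ℝ) : Measurable (Dρ C n ρ s) := by
  unfold Dρ
  exact (((measurable_U C n).sub_const _).mul
    (C.continuous_γ'.measurable.div (C.continuous_γ.measurable.sub_const _))).sub
    (measurable_A1 C n s)

lemma norm_Dρ_le (n : ℕ) (D : ℝ) (hD : 0 < D) (hγ : ∀ t, ‖C.γ t‖ ≤ D) (ρ : ℝ) (h0 : 0 ≤ ρ)
    (h1 : ρ < 1) (s t : ℝ) :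
    ‖Dρ C n ρ s t‖ ≤ (n * D ^ (n - 1) * C.R₁ * D) * ((1 - ρ) / ‖C.γ t - ρ * C.γ s‖) := by
  have hL := norm_U_sub_le C n D hD hγ s t
  have hR := C.norm_γ'_le t
  have hR₁ := C.R₁_pos
  have hne := denom_ne C ρ h0 h1 s t
  have hnp : 0 < ‖C.γ t - ρ * C.γ s‖ := norm_pos_iff.mpr hne
  have hρ : 0 < 1 - ρ := by linarith
  by_cases h : C.γ t - C.γ s = 0
  · have h2 : U C n t - U C n s = 0 := by
      rw [h, norm_zero, mul_zero] at hL
      exact norm_le_zero_iff.mp hL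
    simp only [Dρ, h2, zero_mul, sub_zero, norm_zero]
    positivity
  · have hn : 0 < ‖C.γ t - C.γ s‖ := norm_pos_iff.mpr h
    have h3 : Dρ C n ρ s t = (U C n t - U C n s) * C.γ' t * (((ρ - 1 : ℝ) : ℂ) * C.γ s)
        / ((C.γ t - ρ * C.γ s) * (C.γ t - C.γ s)) := by
      unfold Dρ
      push_cast
      field_simp
      ring
    rw [h3, norm_div, norm_mul, norm_mul, norm_mul, norm_mul, Complex.norm_real, Real.norm_eq_abs,
      abs_of_neg (by linarith : ρ - 1 < 0)]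
    have hDs := hγ s
    calc ‖U C n t - U C n s‖ * ‖C.γ' t‖ * (-(ρ - 1) * ‖C.γ s‖)
          / (‖C.γ t - ρ * C.γ s‖ * ‖C.γ t - C.γ s‖)
        ≤ (n * D ^ (n - 1) * ‖C.γ t - C.γ s‖) * C.R₁ * ((1 - ρ) * D)
          / (‖C.γ t - ρ * C.γ s‖ * ‖C.γ t - C.γ s‖) := by
          have : -(ρ - 1) = 1 - ρ := by ring
          rw [this]
          gcongr
      _ = _ := by
          field_simp

/-- Main estimate in terms of `δ`. -/
lemma Gf_sub_Kf_le (n : ℕ) (D : ℝ) (hD : 0 < D) (hγ : ∀ t, ‖C.γ t‖ ≤ D) (ρ : ℝ) (h0 : 0 ≤ ρ)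
    (h1 : ρ < 1) (δ : ℝ) (hδ : 0 < δ) (hδ1 : δ ≤ 1)
    (hρδ : (1 - ρ) * D ≤ C.r₀ * Real.sin (δ / 2)) (s : ℝ) :
    ‖Gf C n ρ s - Kf C n s‖ ≤ (2 * δ * ((n * D ^ (n - 1) * C.R₁ * D) / C.h₀)
      + (2 * π) * ((n * D ^ (n - 1) * C.R₁ * D) * ((1 - ρ) / (C.r₀ * Real.sin (δ / 2))))) := by
  set M₀ := n * D ^ (n - 1) * C.R₁ * D with hM₀
  have hM₀0 : 0 ≤ M₀ := by
    have := C.R₁_pos
    positivity
  have hh := C.h₀_pos
  have hπ := Real.pi_pos
  have hπ3 := Real.pi_gt_three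
  have hρp : 0 < 1 - ρ := by linarith
  have hsinpos : 0 < Real.sin (δ / 2) :=
    Real.sin_pos_of_pos_of_lt_pi (by linarith) (by linarith)
  have hη : 0 < C.r₀ * Real.sin (δ / 2) := mul_pos C.r₀_pos hsinpos
  -- the integral form of the difference
  have hdiff : Gf C n ρ s - Kf C n s
      = (2 * π * I)⁻¹ * ∫ t in (0:ℝ)..(2 * π), Dρ C n ρ s t := by
    obtain ⟨D', hD', hγ'⟩ := C.exists_norm_γ_le
    have hA1 : IntervalIntegrable (fun t => (U C n t - U C n s) * (C.γ' t / (C.γ t - C.γ s)))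
        volume 0 (2 * π) :=
      ii_of_bounded (measurable_A1 C n s) _ (norm_A1_le C n D' hD' hγ' s) _ _
    have hc : Continuous fun t => (U C n t - U C n s) * (C.γ' t / (C.γ t - ρ * C.γ s)) :=
      ((continuous_U C n).sub continuous_const).mul (continuous_div_denom C ρ h0 h1 s)
    rw [Gf_eq C n ρ h0 h1, Kf_eq]
    unfold Dρ
    rw [intervalIntegral.integral_sub (ciI hc _ _) hA1]
    ring
  -- change of variables
  have hper : Function.Periodic (Dρ C n ρ s) (2 * π) := Dρ_add C n ρ s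
  have h1' := hper.intervalIntegral_add_eq 0 s
  rw [zero_add] at h1'
  have h2' := intervalIntegral.integral_comp_add_left (a := 0) (b := 2 * π) (Dρ C n ρ s) s
  rw [add_zero] at h2'
  set f : ℝ → ℂ := fun v => Dρ C n ρ s (s + v) with hf
  have hint : ∫ t in (0:ℝ)..(2 * π), Dρ C n ρ s t = ∫ v in (0:ℝ)..(2 * π), f v := by
    rw [h1', ← h2']
  have hfm : Measurable f := (measurable_Dρ C n ρ s).comp (measurable_const.add measurable_id)
  -- the two bounds
  have hb1 : ∀ v, ‖f v‖ ≤ M₀ / C.h₀ := by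
    intro v
    refine le_trans (norm_Dρ_le C n D hD hγ ρ h0 h1 s (s + v)) ?_
    have h3 := norm_denom_ge C ρ h0 h1.le s (s + v)
    have h4 : (1 - ρ) / ‖C.γ (s + v) - ρ * C.γ s‖ ≤ 1 / C.h₀ := by
      have hne := denom_ne C ρ h0 h1 s (s + v)
      have hnp : 0 < ‖C.γ (s + v) - ρ * C.γ s‖ := norm_pos_iff.mpr hne
      rw [div_le_div_iff₀ hnp hh]
      linarith
    calc M₀ * ((1 - ρ) / ‖C.γ (s + v) - ρ * C.γ s‖) ≤ M₀ * (1 / C.h₀) := by gcongr
      _ = _ := by ring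
  have hb2 : ∀ v ∈ Set.Icc δ (2 * π - δ), ‖f v‖ ≤ M₀ * ((1 - ρ) / (C.r₀ * Real.sin (δ / 2))) := by
    intro v hv
    refine le_trans (norm_Dρ_le C n D hD hγ ρ h0 h1 s (s + v)) ?_
    have hv0 : 0 ≤ v := by linarith [hv.1]
    have hv1 : v ≤ 2 * π := by linarith [hv.2]
    have h3 := C.chord_lower s v hv0 hv1
    have h4 : Real.sin (δ / 2) ≤ Real.sin (v / 2) := by
      rcases le_total (v / 2) (π / 2) with h5 | h5
      · exact Real.sin_le_sin_of_le_of_le_pi_div_two (by linarith) h5 (by linarith [hv.1])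
      · have h6 : Real.sin (v / 2) = Real.sin (π - v / 2) := (Real.sin_pi_sub _).symm
        rw [h6]
        exact Real.sin_le_sin_of_le_of_le_pi_div_two (by linarith) (by linarith)
          (by linarith [hv.2])
    have h5 : ‖C.γ (s + v) - ρ * C.γ s‖ ≥ C.r₀ * Real.sin (δ / 2) := by
      have h6 : C.γ (s + v) - ρ * C.γ s
          = (C.γ (s + v) - C.γ s) + ((1 - ρ : ℝ) : ℂ) * C.γ s := by
        push_cast
        ring
      have h7 : ‖((1 - ρ : ℝ) : ℂ) * C.γ s‖ ≤ (1 - ρ) * D := by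
        rw [norm_mul, Complex.norm_real, Real.norm_eq_abs, abs_of_pos hρp]
        exact mul_le_mul_of_nonneg_left (hγ s) hρp.le
      have h8 := norm_sub_le_norm_add (C.γ (s + v) - C.γ s) (((1 - ρ : ℝ) : ℂ) * C.γ s)
      rw [← h6] at h8
      have h9 : 2 * C.r₀ * Real.sin (δ / 2) ≤ 2 * C.r₀ * Real.sin (v / 2) := by
        have := C.r₀_pos
        gcongr
      nlinarith
    gcongr
  -- splitting
  have hi : ∀ a b, IntervalIntegrable f volume a b := fun a b => ii_of_bounded hfm _ hb1 a b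
  have hsplit : ∫ v in (0:ℝ)..(2 * π), f v
      = (∫ v in (0:ℝ)..δ, f v) + (∫ v in δ..(2 * π - δ), f v)
        + ∫ v in (2 * π - δ)..(2 * π), f v := by
    rw [intervalIntegral.integral_add_adjacent_intervals (hi _ _) (hi _ _),
      intervalIntegral.integral_add_adjacent_intervals (hi _ _) (hi _ _)]
  have hn1 : ‖∫ v in (0:ℝ)..δ, f v‖ ≤ (M₀ / C.h₀) * δ := by
    have := intervalIntegral.norm_integral_le_of_norm_le_const (a := 0) (b := δ)
      (f := f) (C := M₀ / C.h₀) (fun v _ => hb1 v)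
    rwa [sub_zero, abs_of_pos hδ] at this
  have hn3 : ‖∫ v in (2 * π - δ)..(2 * π), f v‖ ≤ (M₀ / C.h₀) * δ := by
    have := intervalIntegral.norm_integral_le_of_norm_le_const (a := 2 * π - δ) (b := 2 * π)
      (f := f) (C := M₀ / C.h₀) (fun v _ => hb1 v)
    rwa [sub_sub_cancel, abs_of_pos hδ] at this
  have hn2 : ‖∫ v in δ..(2 * π - δ), f v‖
      ≤ (M₀ * ((1 - ρ) / (C.r₀ * Real.sin (δ / 2)))) * (2 * π) := by
    have hle : δ ≤ 2 * π - δ := by linarith
    have h3 := intervalIntegral.norm_integral_le_of_norm_le_const (a := δ) (b := 2 * π - δ)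
      (f := f) (C := M₀ * ((1 - ρ) / (C.r₀ * Real.sin (δ / 2))))
      (fun v hv => by
        rw [Set.uIoc_of_le hle] at hv
        exact hb2 v ⟨hv.1.le, hv.2⟩)
    refine le_trans h3 ?_
    rw [abs_of_nonneg (by linarith)]
    gcongr
    linarith
  rw [hdiff, hint, hsplit, norm_mul, norm_inv]
  have h5 : ‖(2 * π * I : ℂ)‖ = 2 * π := by
    simp [abs_of_pos hπ]
  rw [h5]
  have h6 : (2 * π)⁻¹ ≤ (1 : ℝ) := by
    rw [inv_le_one₀ (by positivity)]
    linarith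
  have h7 : ‖(∫ v in (0:ℝ)..δ, f v) + (∫ v in δ..(2 * π - δ), f v)
        + ∫ v in (2 * π - δ)..(2 * π), f v‖
      ≤ (M₀ / C.h₀) * δ + (M₀ * ((1 - ρ) / (C.r₀ * Real.sin (δ / 2)))) * (2 * π)
        + (M₀ / C.h₀) * δ := by
    refine le_trans (norm_add_le _ _) ?_
    gcongr
    refine le_trans (norm_add_le _ _) ?_
    gcongr
  calc (2 * π)⁻¹ * ‖(∫ v in (0:ℝ)..δ, f v) + (∫ v in δ..(2 * π - δ), f v)
        + ∫ v in (2 * π - δ)..(2 * π), f v‖
      ≤ 1 * ‖(∫ v in (0:ℝ)..δ, f v) + (∫ v in δ..(2 * π - δ), f v)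
        + ∫ v in (2 * π - δ)..(2 * π), f v‖ := by gcongr
    _ ≤ _ := by
        rw [one_mul]
        refine le_trans h7 (le_of_eq ?_)
        ring

/-- Uniform convergence of the interior Cauchy integrals to the Neumann transform. -/
lemma uniform_limit (n : ℕ) (ε : ℝ) (hε : 0 < ε) :
    ∃ ρ₁ : ℝ, 0 ≤ ρ₁ ∧ ρ₁ < 1 ∧ ∀ ρ, ρ₁ ≤ ρ → ρ < 1 → ∀ s, ‖Gf C n ρ s - Kf C n s‖ ≤ ε := by
  obtain ⟨D, hD, hγ⟩ := C.exists_norm_γ_le
  set M₀ := n * D ^ (n - 1) * C.R₁ * D with hM₀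
  have hM₀0 : 0 ≤ M₀ := by
    have := C.R₁_pos
    positivity
  have hh := C.h₀_pos
  have hπ := Real.pi_pos
  set δ := min 1 (ε * C.h₀ / (4 * (M₀ + 1))) with hδdef
  have hδ : 0 < δ := lt_min one_pos (by positivity)
  have hδ1 : δ ≤ 1 := min_le_left _ _
  have hδ2 : δ ≤ ε * C.h₀ / (4 * (M₀ + 1)) := min_le_right _ _
  have hπ3 := Real.pi_gt_three
  have hsinpos : 0 < Real.sin (δ / 2) :=
    Real.sin_pos_of_pos_of_lt_pi (by linarith) (by linarith)
  set η := C.r₀ * Real.sin (δ / 2) with hη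
  have hηp : 0 < η := mul_pos C.r₀_pos hsinpos
  set θ := min (1 / 2) (min (η / D) (ε * η / (4 * π * (M₀ + 1)))) with hθ
  have hθp : 0 < θ := lt_min (by norm_num) (lt_min (by positivity) (by positivity))
  have hθ1 : θ ≤ 1 / 2 := min_le_left _ _
  have hθ2 : θ ≤ η / D := le_trans (min_le_right _ _) (min_le_left _ _)
  have hθ3 : θ ≤ ε * η / (4 * π * (M₀ + 1)) := le_trans (min_le_right _ _) (min_le_right _ _)
  refine ⟨1 - θ, by linarith, by linarith, fun ρ hρ hρ1 s => ?_⟩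
  have hρ0 : 0 ≤ ρ := by linarith
  have h1ρ : 1 - ρ ≤ θ := by linarith
  have h1ρp : 0 < 1 - ρ := by linarith
  have hρδ : (1 - ρ) * D ≤ η := by
    have h3 : 1 - ρ ≤ η / D := le_trans h1ρ hθ2
    rwa [le_div_iff₀ hD] at h3
  have hmain := Gf_sub_Kf_le C n D hD hγ ρ hρ0 hρ1 δ hδ hδ1 hρδ s
  refine le_trans hmain ?_
  have hp1 : 2 * δ * (M₀ / C.h₀) ≤ ε / 2 := by
    have h3 : 2 * δ * (M₀ / C.h₀) ≤ 2 * (ε * C.h₀ / (4 * (M₀ + 1))) * (M₀ / C.h₀) := by gcongr
    refine le_trans h3 ?_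
    have h4 : 2 * (ε * C.h₀ / (4 * (M₀ + 1))) * (M₀ / C.h₀) = (ε / 2) * (M₀ / (M₀ + 1)) := by
      field_simp
      ring
    rw [h4]
    have h5 : M₀ / (M₀ + 1) ≤ 1 := by
      rw [div_le_one (by positivity)]
      linarith
    nlinarith
  have hp2 : (2 * π) * (M₀ * ((1 - ρ) / η)) ≤ ε / 2 := by
    have h3 : (1 - ρ) / η ≤ ε / (4 * π * (M₀ + 1)) := by
      rw [div_le_iff₀ hηp]
      have h4 : 1 - ρ ≤ ε * η / (4 * π * (M₀ + 1)) := le_trans h1ρ hθ3
      refine le_trans h4 (le_of_eq ?_)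
      field_simp
    have h5 : (2 * π) * (M₀ * ((1 - ρ) / η)) ≤ (2 * π) * (M₀ * (ε / (4 * π * (M₀ + 1)))) := by
      gcongr
    refine le_trans h5 ?_
    have h6 : (2 * π) * (M₀ * (ε / (4 * π * (M₀ + 1)))) = (ε / 2) * (M₀ / (M₀ + 1)) := by
      field_simp
      ring
    rw [h6]
    have h7 : M₀ / (M₀ + 1) ≤ 1 := by
      rw [div_le_one (by positivity)]
      linarith
    nlinarith
  linarith

end Vale.Agent.helper3.CP
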