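import Vale.Agent.helper3.CP.Curve

/-!
# The resolvent along the curve and the Cauchy integrals
-/

open Complex MeasureTheory intervalIntegral ContinuousLinearMap
open scoped Real NNReal

set_option linter.unusedSimpArgs false
set_option linter.deprecated false

noncomputable section

namespace Vale.Agent.helper3.CP

variable {H : Type*} [NormedAddCommGroup H] [InnerProductSpace ℂ H] [CompleteSpace H]

/-- An operator is strictly inside the curve (with `0` in its numerical range, up to margin). -/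
structure Inside (C : Curve) (A : H →L[ℂ] H) (c : ℝ) : Prop where
  c_pos : 0 < c
  c_le : c ≤ C.h₀
  bound : ∀ (t : ℝ) (x : H), (Complex.exp (-(t * I)) * inner ℂ x (A x)).re ≤ (C.h t - c) * ‖x‖ ^ 2

/-- A bounded operator which is coercive up to a phase is invertible. -/
lemma isUnit_of_coercive (B : H →L[ℂ] H) (w : ℂ) (hw : ‖w‖ = 1) (c : ℝ) (hc : 0 < c)
    (hB : ∀ x : H, c * ‖x‖ ^ 2 ≤ (w * inner ℂ x (B x)).re) :
    IsUnit B ∧ ‖Ring.inverse B‖ ≤ 1 / c := by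
  have h1 : ∀ x : H, c * ‖x‖ ^ 2 ≤ ‖(inner ℂ (B x) x : ℂ)‖ := by
    intro x
    refine le_trans (hB x) (le_trans (Complex.re_le_norm _) ?_)
    rw [norm_mul, hw, one_mul, ← inner_conj_symm, Complex.norm_conj]
  have hunit : IsUnit B := by
    lift c to ℝ≥0 using hc.le
    apply ContinuousLinearMap.isUnit_of_forall_le_norm_inner_map (𝕜 := ℂ) B (c := c)
      (by exact_mod_cast hc)
    intro x
    have := h1 x
    linarith
  refine ⟨hunit, ?_⟩
  have h2 : ∀ x : H, c * ‖x‖ ≤ ‖B x‖ := by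
    intro x
    by_cases hx : x = 0
    · simp [hx]
    have hx0 : 0 < ‖x‖ := norm_pos_iff.mpr hx
    have h3 : c * ‖x‖ ^ 2 ≤ ‖B x‖ * ‖x‖ := le_trans (h1 x) (norm_inner_le_norm _ _)
    have h4 : (c * ‖x‖) * ‖x‖ ≤ ‖B x‖ * ‖x‖ := by nlinarith
    exact le_of_mul_le_mul_right h4 hx0
  refine ContinuousLinearMap.opNorm_le_bound _ (by positivity) (fun y => ?_)
  have h5 := h2 (Ring.inverse B y)
  have h6 : B (Ring.inverse B y) = y := by
    have := Ring.mul_inverse_cancel B hunit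
    have h7 := congrArg (fun T : H →L[ℂ] H => T y) this
    simpa using h7
  rw [h6] at h5
  rw [div_mul_eq_mul_div, one_mul, le_div_iff₀ hc]
  linarith

/-- A function with a quadratic modulus of continuity is constant. -/
lemma const_of_quadratic {E : Type*} [NormedAddCommGroup E] (Φ : ℝ → E) (K : ℝ) (hK : 0 ≤ K)
    (hΦ : ∀ a ∈ Set.Icc (0 : ℝ) 1, ∀ b ∈ Set.Icc (0 : ℝ) 1, ‖Φ a - Φ b‖ ≤ K * (a - b) ^ 2)
    (ρ : ℝ) (hρ : ρ ∈ Set.Icc (0 : ℝ) 1) : Φ ρ = Φ 0 := by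
  have key : ∀ n : ℕ, ‖Φ ρ - Φ 0‖ ≤ K / (n + 1) := by
    intro n
    have hn : (0 : ℝ) < n + 1 := by positivity
    have hstep : ∀ m : ℕ, m ≤ n + 1 →
        ‖Φ (ρ * (m / (n + 1))) - Φ 0‖ ≤ m * (K * (ρ / (n + 1)) ^ 2) := by
      intro m
      induction m with
      | zero =>
        intro _
        simp
      | succ m ih =>
        intro hm
        have hm' : (m : ℝ) + 1 ≤ n + 1 := by exact_mod_cast hm
        have ih' := ih (by omega)
        have ha : ρ * (((m + 1 : ℕ) : ℝ) / (n + 1)) ∈ Set.Icc (0 : ℝ) 1 := by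
          constructor
          · have := hρ.1
            positivity
          · have h3 : ((m + 1 : ℕ) : ℝ) / (n + 1) ≤ 1 := by
              rw [div_le_one hn]
              push_cast
              exact hm'
            have h4 : 0 ≤ ((m + 1 : ℕ) : ℝ) / (n + 1) := by positivity
            nlinarith [hρ.2, hρ.1]
        have hb : ρ * ((m : ℝ) / (n + 1)) ∈ Set.Icc (0 : ℝ) 1 := by
          constructor
          · have := hρ.1
            positivity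
          · have h3 : (m : ℝ) / (n + 1) ≤ 1 := by
              rw [div_le_one hn]
              linarith
            have h4 : 0 ≤ (m : ℝ) / (n + 1) := by positivity
            nlinarith [hρ.2, hρ.1]
        have h5 := hΦ _ ha _ hb
        have h6 : ρ * (((m + 1 : ℕ) : ℝ) / (n + 1)) - ρ * ((m : ℝ) / (n + 1)) = ρ / (n + 1) := by
          push_cast
          field_simp
          ring
        rw [h6] at h5
        calc ‖Φ (ρ * (((m + 1 : ℕ) : ℝ) / (n + 1))) - Φ 0‖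
            ≤ ‖Φ (ρ * (((m + 1 : ℕ) : ℝ) / (n + 1))) - Φ (ρ * ((m : ℝ) / (n + 1)))‖
              + ‖Φ (ρ * ((m : ℝ) / (n + 1))) - Φ 0‖ := norm_sub_le_norm_sub_add_norm_sub _ _ _
          _ ≤ K * (ρ / (n + 1)) ^ 2 + m * (K * (ρ / (n + 1)) ^ 2) := add_le_add h5 ih'
          _ = ((m + 1 : ℕ) : ℝ) * (K * (ρ / (n + 1)) ^ 2) := by
              push_cast
              ring
    have h7 := hstep (n + 1) le_rfl
    have h8 : ρ * (((n + 1 : ℕ) : ℝ) / (n + 1)) = ρ := by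
      push_cast
      field_simp
    rw [h8] at h7
    refine le_trans h7 ?_
    push_cast
    have h9 : ((n : ℝ) + 1) * (K * (ρ / (n + 1)) ^ 2) = K * ρ ^ 2 / (n + 1) := by
      field_simp
    rw [h9]
    have h10 : ρ ^ 2 ≤ 1 := by nlinarith [hρ.1, hρ.2]
    gcongr
    nlinarith
  have h11 : ‖Φ ρ - Φ 0‖ ≤ 0 := by
    have h12 : Filter.Tendsto (fun n : ℕ => K / ((n : ℝ) + 1)) Filter.atTop (nhds 0) := by
      have := (tendsto_const_div_atTop_nhds_zero_nat K).comp (Filter.tendsto_add_atTop_nat 1)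
      refine this.congr (fun n => ?_)
      simp [Function.comp]
    exact ge_of_tendsto' h12 key
  have h13 : ‖Φ ρ - Φ 0‖ = 0 := le_antisymm h11 (norm_nonneg _)
  exact sub_eq_zero.mp (norm_eq_zero.mp h13)

variable (C : Curve) (A : H →L[ℂ] H)

/-- The operator `γ t - ρ A`. -/
def Bop (ρ t : ℝ) : H →L[ℂ] H := (C.γ t) • (1 : H →L[ℂ] H) - (ρ : ℂ) • A

/-- The resolvent of `ρ A` at `γ t`. -/
def Res (ρ t : ℝ) : H →L[ℂ] H := Ring.inverse (Bop C A ρ t)

variable {C A} {c : ℝ}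

lemma norm_exp_neg (t : ℝ) : ‖Complex.exp (-(t * I))‖ = 1 := by
  have : -((t : ℂ) * I) = ((-t : ℝ) : ℂ) * I := by push_cast; ring
  rw [this]
  exact Complex.norm_exp_ofReal_mul_I _

lemma hasDerivAt_Bop (ρ t : ℝ) :
    HasDerivAt (Bop C A ρ) (C.γ' t • (1 : H →L[ℂ] H)) t := by
  have h1 := (C.hasDerivAt_γ t).smul_const (1 : H →L[ℂ] H)
  exact h1.sub_const _

variable (hA : Inside C A c)
include hA

lemma coercive (ρ t : ℝ) (h0 : 0 ≤ ρ) (h1 : ρ ≤ 1) (x : H) :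
    c * ‖x‖ ^ 2 ≤ (Complex.exp (-(t * I)) * inner ℂ x (Bop C A ρ t x)).re := by
  have h2 : (inner ℂ x (Bop C A ρ t x) : ℂ) = C.γ t * ((‖x‖ ^ 2 : ℝ) : ℂ) - (ρ : ℂ) * inner ℂ x (A x) := by
    simp only [Bop, ContinuousLinearMap.sub_apply, ContinuousLinearMap.smul_apply,
      ContinuousLinearMap.one_apply, inner_sub_right, inner_smul_right,
      inner_self_eq_norm_sq_to_K]
    push_cast
    rfl
  rw [h2, mul_sub, Complex.sub_re]
  have h3 : (Complex.exp (-(t * I)) * (C.γ t * ((‖x‖ ^ 2 : ℝ) : ℂ))).re = C.h t * ‖x‖ ^ 2 := by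
    rw [← mul_assoc, Complex.re_mul_ofReal, C.re_exp_mul_γ_self]
  have h4 : (Complex.exp (-(t * I)) * ((ρ : ℂ) * inner ℂ x (A x))).re
      = ρ * (Complex.exp (-(t * I)) * inner ℂ x (A x)).re := by
    have : Complex.exp (-(t * I)) * ((ρ : ℂ) * inner ℂ x (A x))
        = (ρ : ℂ) * (Complex.exp (-(t * I)) * inner ℂ x (A x)) := by ring
    rw [this, Complex.re_ofReal_mul]
  rw [h3, h4]
  have h5 := hA.bound t x
  have h6 : 0 ≤ C.h t - c := by linarith [C.h_lower t, hA.c_le]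
  have h7 : 0 ≤ ‖x‖ ^ 2 := by positivity
  have h8 : ρ * (Complex.exp (-(t * I)) * inner ℂ x (A x)).re ≤ (C.h t - c) * ‖x‖ ^ 2 := by
    have h9 : 0 ≤ (C.h t - c) * ‖x‖ ^ 2 := by positivity
    rcases le_total 0 (Complex.exp (-(t * I)) * inner ℂ x (A x)).re with h10 | h10
    · calc ρ * (Complex.exp (-(t * I)) * inner ℂ x (A x)).re
          ≤ 1 * (Complex.exp (-(t * I)) * inner ℂ x (A x)).re := by gcongr
        _ ≤ _ := by linarith
    · have : ρ * (Complex.exp (-(t * I)) * inner ℂ x (A x)).re ≤ 0 :=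
        mul_nonpos_of_nonneg_of_nonpos h0 h10
      linarith
  nlinarith

lemma res_unit (ρ t : ℝ) (h0 : 0 ≤ ρ) (h1 : ρ ≤ 1) : IsUnit (Bop C A ρ t) :=
  (isUnit_of_coercive _ _ (norm_exp_neg t) c hA.c_pos (coercive hA ρ t h0 h1)).1

lemma norm_res_le (ρ t : ℝ) (h0 : 0 ≤ ρ) (h1 : ρ ≤ 1) : ‖Res C A ρ t‖ ≤ 1 / c :=
  (isUnit_of_coercive _ _ (norm_exp_neg t) c hA.c_pos (coercive hA ρ t h0 h1)).2

lemma res_mul (ρ t : ℝ) (h0 : 0 ≤ ρ) (h1 : ρ ≤ 1) : Bop C A ρ t * Res C A ρ t = 1 :=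
  Ring.mul_inverse_cancel _ (res_unit hA ρ t h0 h1)

lemma mul_res (ρ t : ℝ) (h0 : 0 ≤ ρ) (h1 : ρ ≤ 1) : Res C A ρ t * Bop C A ρ t = 1 :=
  Ring.inverse_mul_cancel _ (res_unit hA ρ t h0 h1)

/-- Derivative of the resolvent along the curve. -/
lemma hasDerivAt_res (ρ t : ℝ) (h0 : 0 ≤ ρ) (h1 : ρ ≤ 1) :
    HasDerivAt (Res C A ρ) (-(C.γ' t • (Res C A ρ t * Res C A ρ t))) t := by
  obtain ⟨u, hu⟩ := res_unit hA ρ t h0 h1
  have h2 := hasFDerivAt_ringInverse (𝕜 := ℝ) u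
  rw [hu] at h2
  have h3 := h2.comp_hasDerivAt t (hasDerivAt_Bop (C := C) (A := A) ρ t)
  have h4 : (Ring.inverse (Bop C A ρ t)) = ((u⁻¹ : (H →L[ℂ] H)ˣ) : H →L[ℂ] H) := by
    rw [← hu, Ring.inverse_unit]
  have h5 : ((-(ContinuousLinearMap.mulLeftRight ℝ (H →L[ℂ] H) (↑u⁻¹ : H →L[ℂ] H))
      (↑u⁻¹ : H →L[ℂ] H)) (C.γ' t • (1 : H →L[ℂ] H)))
      = -(C.γ' t • (Res C A ρ t * Res C A ρ t)) := by
    simp only [ContinuousLinearMap.neg_apply, ContinuousLinearMap.mulLeftRight_apply]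
    rw [← h4]
    simp only [Res]
    rw [mul_smul_comm, smul_mul_assoc, mul_one]
  rw [h5] at h3
  exact h3

lemma continuous_res (ρ : ℝ) (h0 : 0 ≤ ρ) (h1 : ρ ≤ 1) : Continuous (Res C A ρ) :=
  continuous_iff_continuousAt.mpr fun t => (hasDerivAt_res hA ρ t h0 h1).continuousAt

omit [CompleteSpace H] hA in
lemma Bop_add (ρ t : ℝ) : Bop C A ρ (t + 2 * π) = Bop C A ρ t := by
  simp only [Bop, C.γ_add]

omit [CompleteSpace H] hA in
lemma Res_add (ρ t : ℝ) : Res C A ρ (t + 2 * π) = Res C A ρ t := by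
  simp only [Res, Bop_add]

/-- The resolvent commutes with the operator. -/
lemma res_comm (ρ t : ℝ) (h0 : 0 ≤ ρ) (h1 : ρ ≤ 1) : A * Res C A ρ t = Res C A ρ t * A := by
  have h2 : A * Bop C A ρ t = Bop C A ρ t * A := by
    simp only [Bop, mul_sub, sub_mul, mul_smul_comm, smul_mul_assoc, mul_one, one_mul]
  have h4 := res_mul hA ρ t h0 h1
  have h5 := mul_res hA ρ t h0 h1
  calc A * Res C A ρ t = (Res C A ρ t * Bop C A ρ t) * A * Res C A ρ t := by rw [h5, one_mul]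
    _ = Res C A ρ t * (Bop C A ρ t * A) * Res C A ρ t := by noncomm_ring
    _ = Res C A ρ t * (A * Bop C A ρ t) * Res C A ρ t := by rw [h2]
    _ = Res C A ρ t * A * (Bop C A ρ t * Res C A ρ t) := by noncomm_ring
    _ = Res C A ρ t * A := by rw [h4, mul_one]

/-- The resolvent identity. -/
lemma res_sub (ρ₁ ρ₂ t : ℝ) (h0 : 0 ≤ ρ₁) (h1 : ρ₁ ≤ 1) (h2 : 0 ≤ ρ₂) (h3 : ρ₂ ≤ 1) :
    Res C A ρ₁ t - Res C A ρ₂ t = ((ρ₁ - ρ₂ : ℝ) : ℂ) • (Res C A ρ₁ t * A * Res C A ρ₂ t) := by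
  have h4 := res_mul hA ρ₂ t h2 h3
  have h5 := mul_res hA ρ₁ t h0 h1
  have h6 : Bop C A ρ₂ t = Bop C A ρ₁ t + ((ρ₁ - ρ₂ : ℝ) : ℂ) • A := by
    simp only [Bop]
    push_cast
    rw [sub_smul]
    abel
  calc Res C A ρ₁ t - Res C A ρ₂ t
      = Res C A ρ₁ t * (Bop C A ρ₂ t * Res C A ρ₂ t) - (Res C A ρ₁ t * Bop C A ρ₁ t) * Res C A ρ₂ t := by
        rw [h4, h5, mul_one, one_mul]
    _ = Res C A ρ₁ t * (Bop C A ρ₂ t - Bop C A ρ₁ t) * Res C A ρ₂ t := by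
        noncomm_ring
    _ = _ := by
        rw [h6, add_sub_cancel_left, mul_smul_comm, smul_mul_assoc]

/-- The integral of the square of the resolvent vanishes. -/
lemma integral_res_sq (ρ : ℝ) (h0 : 0 ≤ ρ) (h1 : ρ ≤ 1) :
    ∫ t in (0:ℝ)..(2 * π), C.γ' t • (A * (Res C A ρ t * Res C A ρ t)) = 0 := by
  have hd : ∀ t, HasDerivAt (fun t => A * Res C A ρ t)
      (-(C.γ' t • (A * (Res C A ρ t * Res C A ρ t)))) t := by
    intro t
    have h2 := (hasDerivAt_res hA ρ t h0 h1).const_mul A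
    have h3 : A * -(C.γ' t • (Res C A ρ t * Res C A ρ t))
        = -(C.γ' t • (A * (Res C A ρ t * Res C A ρ t))) := by
      rw [mul_neg, mul_smul_comm]
    rwa [h3] at h2
  have hcont := continuous_res hA ρ h0 h1
  have hc2 : Continuous fun t => C.γ' t • (A * (Res C A ρ t * Res C A ρ t)) :=
    C.continuous_γ'.smul (continuous_const.mul (hcont.mul hcont))
  have h2 := intervalIntegral.integral_eq_sub_of_hasDerivAt (a := 0) (b := 2 * π)
    (fun t _ => hd t) (hc2.neg.intervalIntegrable _ _)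
  have h3 : Res C A ρ (2 * π) = Res C A ρ 0 := by
    have := Res_add (C := C) (A := A) ρ 0
    rwa [zero_add] at this
  rw [h3, sub_self, intervalIntegral.integral_neg, neg_eq_zero] at h2
  exact h2

/-- The function of `ρ` given by the Cauchy integral of the resolvent. -/
lemma integral_res_quad (ρ₁ ρ₂ : ℝ) (h0 : 0 ≤ ρ₁) (h1 : ρ₁ ≤ 1) (h2 : 0 ≤ ρ₂) (h3 : ρ₂ ≤ 1) :
    ‖(∫ t in (0:ℝ)..(2 * π), C.γ' t • Res C A ρ₁ t) - ∫ t in (0:ℝ)..(2 * π), C.γ' t • Res C A ρ₂ t‖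
      ≤ (C.R₁ * ‖A‖ ^ 2 * (1 / c) ^ 3 * (2 * π)) * (ρ₁ - ρ₂) ^ 2 := by
  have hc1 := continuous_res hA ρ₁ h0 h1
  have hc2 := continuous_res hA ρ₂ h2 h3
  have hcγ := C.continuous_γ'
  have hdec : ∀ t, C.γ' t • Res C A ρ₁ t - C.γ' t • Res C A ρ₂ t
      = ((ρ₁ - ρ₂ : ℝ) : ℂ) • (C.γ' t • (A * (Res C A ρ₂ t * Res C A ρ₂ t)))
        + (((ρ₁ - ρ₂) ^ 2 : ℝ) : ℂ) • (C.γ' t • (Res C A ρ₁ t * A * Res C A ρ₂ t * A * Res C A ρ₂ t)) := by
    intro t
    have h4 := res_sub hA ρ₁ ρ₂ t h0 h1 h2 h3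
    have h5 : Res C A ρ₁ t * A * Res C A ρ₂ t
        = A * (Res C A ρ₂ t * Res C A ρ₂ t)
          + ((ρ₁ - ρ₂ : ℝ) : ℂ) • (Res C A ρ₁ t * A * Res C A ρ₂ t * A * Res C A ρ₂ t) := by
      have h6 : Res C A ρ₁ t = Res C A ρ₂ t + ((ρ₁ - ρ₂ : ℝ) : ℂ) • (Res C A ρ₁ t * A * Res C A ρ₂ t) := by
        rw [← h4]; abel
      have h7 := res_comm hA ρ₂ t h2 h3
      calc Res C A ρ₁ t * A * Res C A ρ₂ t
          = (Res C A ρ₂ t + ((ρ₁ - ρ₂ : ℝ) : ℂ) • (Res C A ρ₁ t * A * Res C A ρ₂ t)) * A * Res C A ρ₂ t := by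
            rw [← h6]
        _ = (Res C A ρ₂ t * A) * Res C A ρ₂ t
            + ((ρ₁ - ρ₂ : ℝ) : ℂ) • (Res C A ρ₁ t * A * Res C A ρ₂ t * A * Res C A ρ₂ t) := by
            simp only [add_mul, smul_mul_assoc]
        _ = _ := by
            rw [← h7, mul_assoc]
    rw [← smul_sub, h4]
    conv_lhs => rw [h5]
    push_cast
    module
  have hint1 : ∀ ρ, 0 ≤ ρ → ρ ≤ 1 → IntervalIntegrable (fun t => C.γ' t • Res C A ρ t) volume 0 (2 * π) :=
    fun ρ h h' => (hcγ.smul (continuous_res hA ρ h h')).intervalIntegrable _ _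
  rw [← intervalIntegral.integral_sub (hint1 _ h0 h1) (hint1 _ h2 h3)]
  simp only [hdec]
  have hI1 : Continuous fun t => ((ρ₁ - ρ₂ : ℝ) : ℂ) • (C.γ' t • (A * (Res C A ρ₂ t * Res C A ρ₂ t))) := by
    fun_prop
  have hI2 : Continuous fun t => (((ρ₁ - ρ₂) ^ 2 : ℝ) : ℂ) •
      (C.γ' t • (Res C A ρ₁ t * A * Res C A ρ₂ t * A * Res C A ρ₂ t)) := by
    fun_prop
  rw [intervalIntegral.integral_add (hI1.intervalIntegrable _ _) (hI2.intervalIntegrable _ _),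
    intervalIntegral.integral_smul, integral_res_sq hA ρ₂ h2 h3, smul_zero, zero_add]
  have hnorm : ∀ t ∈ Set.uIoc (0 : ℝ) (2 * π),
      ‖(((ρ₁ - ρ₂) ^ 2 : ℝ) : ℂ) • (C.γ' t • (Res C A ρ₁ t * A * Res C A ρ₂ t * A * Res C A ρ₂ t))‖
        ≤ (C.R₁ * ‖A‖ ^ 2 * (1 / c) ^ 3) * (ρ₁ - ρ₂) ^ 2 := by
    intro t _
    have hr1 := norm_res_le hA ρ₁ t h0 h1
    have hr2 := norm_res_le hA ρ₂ t h2 h3
    have hcp := hA.c_pos
    rw [norm_smul, norm_smul, Complex.norm_real, Real.norm_eq_abs, abs_of_nonneg (by positivity)]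
    have h8 : ‖Res C A ρ₁ t * A * Res C A ρ₂ t * A * Res C A ρ₂ t‖ ≤ ‖A‖ ^ 2 * (1 / c) ^ 3 := by
      calc _ ≤ ‖Res C A ρ₁ t‖ * ‖A‖ * ‖Res C A ρ₂ t‖ * ‖A‖ * ‖Res C A ρ₂ t‖ := by
            refine le_trans (norm_mul_le _ _) ?_
            gcongr
            refine le_trans (norm_mul_le _ _) ?_
            gcongr
            exact norm_mul_le_of_le (norm_mul_le _ _) le_rfl
        _ ≤ (1 / c) * ‖A‖ * (1 / c) * ‖A‖ * (1 / c) := by gcongr
        _ = _ := by ring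
    have h9 := C.norm_γ'_le t
    have hR := C.R₁_pos
    calc (ρ₁ - ρ₂) ^ 2 * (‖C.γ' t‖ * ‖Res C A ρ₁ t * A * Res C A ρ₂ t * A * Res C A ρ₂ t‖)
        ≤ (ρ₁ - ρ₂) ^ 2 * (C.R₁ * (‖A‖ ^ 2 * (1 / c) ^ 3)) := by gcongr
      _ = _ := by ring
  have h10 := intervalIntegral.norm_integral_le_of_norm_le_const hnorm
  refine le_trans h10 (le_of_eq ?_)
  rw [sub_zero, abs_of_pos (by positivity)]
  ring

/-- The Cauchy integral of the resolvent. -/
lemma integral_res (ρ : ℝ) (h0 : 0 ≤ ρ) (h1 : ρ ≤ 1) :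
    ∫ t in (0:ℝ)..(2 * π), C.γ' t • Res C A ρ t = (2 * π * I) • (1 : H →L[ℂ] H) := by
  have hcp := hA.c_pos
  have hR := C.R₁_pos
  have hconst : (∫ t in (0:ℝ)..(2 * π), C.γ' t • Res C A ρ t)
      = ∫ t in (0:ℝ)..(2 * π), C.γ' t • Res C A 0 t :=
    const_of_quadratic (fun ρ => ∫ t in (0:ℝ)..(2 * π), C.γ' t • Res C A ρ t)
      (C.R₁ * ‖A‖ ^ 2 * (1 / c) ^ 3 * (2 * π)) (by positivity)
      (fun a ha b hb => integral_res_quad hA a b ha.1 ha.2 hb.1 hb.2) ρ ⟨h0, h1⟩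
  rw [hconst]
  have hne : ∀ t, C.γ t ≠ 0 := by
    intro t h2
    have h3 := C.re_exp_mul_γ_self t
    rw [h2, mul_zero] at h3
    have h4 := C.h_lower t
    have h5 := C.h₀_pos
    simp at h3
    linarith
  have hres0 : ∀ t, C.γ' t • Res C A 0 t = (C.γ' t / (C.γ t - 0)) • (1 : H →L[ℂ] H) := by
    intro t
    have h2 := mul_res hA 0 t le_rfl zero_le_one
    have h3 : Bop C A 0 t = (C.γ t) • (1 : H →L[ℂ] H) := by
      simp [Bop]
    rw [h3, mul_smul_comm, mul_one] at h2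
    have h4 : Res C A 0 t = (C.γ t)⁻¹ • (1 : H →L[ℂ] H) := by
      rw [← h2, smul_smul, inv_mul_cancel₀ (hne t), one_smul]
    rw [h4, smul_smul, sub_zero]
    rfl
  simp only [hres0]
  rw [intervalIntegral.integral_smul_const, C.winding 0]
  intro t
  rw [sub_zero, C.re_exp_mul_γ_self]
  exact lt_of_lt_of_le C.h₀_pos (C.h_lower t)

/-- Positivity of the density: `Im (γ' ⟨x, R x⟩) ≥ 0`. -/
lemma inner_res_im_nonneg (t : ℝ) (x : H) :
    0 ≤ (C.γ' t * inner ℂ x (Res C A 1 t x)).im := by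
  set v := Res C A 1 t x with hv
  have h2 : x = Bop C A 1 t v := by
    have := res_mul hA 1 t zero_le_one le_rfl
    have h3 := congrArg (fun T : H →L[ℂ] H => T x) this
    simpa using h3.symm
  set w : ℂ := inner ℂ v (Bop C A 1 t v) with hw
  have h3 : (inner ℂ x v : ℂ) = (starRingEnd ℂ) w := by
    rw [hw, inner_conj_symm, ← h2]
  rw [h3]
  have h4 := coercive hA 1 t zero_le_one le_rfl v
  rw [← hw] at h4
  set u := Complex.exp (-(t * I)) * w with hu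
  have h5 : C.γ' t * (starRingEnd ℂ) w = I * (starRingEnd ℂ) u * C.r t := by
    simp only [Curve.γ', hu, map_mul, ← Complex.exp_conj]
    have : (starRingEnd ℂ) (-(↑t * I)) = t * I := by
      simp
    rw [this]
    ring
  rw [h5]
  have h6 : (I * (starRingEnd ℂ) u * (C.r t : ℂ)).im = C.r t * u.re := by
    simp [Complex.mul_im, Complex.mul_re]
    ring
  rw [h6]
  have h7 := C.r_pos t
  have h8 := hA.c_pos
  have h9 : 0 ≤ u.re := le_trans (by positivity) h4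
  positivity

end Vale.Agent.helper3.CP
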