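import Vale.Agent.helper3.CP.Assembly
import Vale.Agent.helper3.CP.Hausdorff
import Vale.Agent.helper3.CP.Mollify

/-!
# From the numerical range to a smooth convex curve, and the final statement
-/

open Complex MeasureTheory ContinuousLinearMap Polynomial
open scoped Real

set_option linter.unusedSimpArgs false
set_option linter.deprecated false
set_option linter.unusedSectionVars false

noncomputable section

namespace Vale.Agent.helper3.CP

variable {H : Type*} [NormedAddCommGroup H] [InnerProductSpace ℂ H]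

/-- The rotated real part. -/
def reRot (θ : ℝ) (z : ℂ) : ℝ := (Complex.exp (-(θ * I)) * z).re

lemma reRot_eq (θ : ℝ) (z : ℂ) : reRot θ z = Real.cos θ * z.re + Real.sin θ * z.im := by
  unfold reRot
  have h3 : -((θ : ℂ) * I) = ((-θ : ℝ) : ℂ) * I := by push_cast; ring
  rw [h3]
  simp only [Complex.mul_re, Complex.exp_ofReal_mul_I_re, Complex.exp_ofReal_mul_I_im, Real.cos_neg,
    Real.sin_neg]
  ring

lemma reRot_le_norm (θ : ℝ) (z : ℂ) : reRot θ z ≤ ‖z‖ := by
  unfold reRot
  refine le_trans (Complex.re_le_norm _) ?_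
  rw [norm_mul, norm_exp_neg, one_mul]

lemma norm_W_le (A : H →L[ℂ] H) {z : ℂ} (hz : z ∈ Wset A) : ‖z‖ ≤ ‖A‖ := by
  obtain ⟨x, hx, rfl⟩ := hz
  calc ‖(inner ℂ x (A x) : ℂ)‖ ≤ ‖x‖ * ‖A x‖ := norm_inner_le_norm _ _
    _ = ‖A x‖ := by rw [hx, one_mul]
    _ ≤ ‖A‖ * ‖x‖ := A.le_opNorm x
    _ = ‖A‖ := by rw [hx, mul_one]

/-- The support function of the numerical range. -/
def suppF (A : H →L[ℂ] H) (θ : ℝ) : ℝ := sSup (reRot θ '' Wset A)

lemma bdd_suppF (A : H →L[ℂ] H) (θ : ℝ) : BddAbove (reRot θ '' Wset A) := by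
  refine ⟨‖A‖, ?_⟩
  rintro _ ⟨z, hz, rfl⟩
  exact le_trans (reRot_le_norm θ z) (norm_W_le A hz)

lemma le_suppF (A : H →L[ℂ] H) (θ : ℝ) {z : ℂ} (hz : z ∈ Wset A) : reRot θ z ≤ suppF A θ :=
  le_csSup (bdd_suppF A θ) ⟨z, hz, rfl⟩

lemma suppF_le (A : H →L[ℂ] H) (hne : (Wset A).Nonempty) (θ b : ℝ)
    (h : ∀ z ∈ Wset A, reRot θ z ≤ b) : suppF A θ ≤ b := by
  apply csSup_le (hne.image _)
  rintro _ ⟨z, hz, rfl⟩
  exact h z hz

lemma reRot_sub_le (θ θ' : ℝ) (z : ℂ) : reRot θ z ≤ reRot θ' z + 2 * ‖z‖ * |θ - θ'| := by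
  rw [reRot_eq, reRot_eq]
  have h1 := Real.abs_cos_sub_cos_le θ θ'
  have h2 := Real.abs_sin_sub_sin_le θ θ'
  have h3 := Complex.abs_re_le_norm z
  have h4 := Complex.abs_im_le_norm z
  have h5 : (Real.cos θ - Real.cos θ') * z.re ≤ |θ - θ'| * ‖z‖ := by
    calc (Real.cos θ - Real.cos θ') * z.re ≤ |(Real.cos θ - Real.cos θ') * z.re| := le_abs_self _
      _ = |Real.cos θ - Real.cos θ'| * |z.re| := abs_mul _ _
      _ ≤ _ := by gcongr
  have h6 : (Real.sin θ - Real.sin θ') * z.im ≤ |θ - θ'| * ‖z‖ := by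
    calc (Real.sin θ - Real.sin θ') * z.im ≤ |(Real.sin θ - Real.sin θ') * z.im| := le_abs_self _
      _ = |Real.sin θ - Real.sin θ'| * |z.im| := abs_mul _ _
      _ ≤ _ := by gcongr
  nlinarith

lemma suppF_lip (A : H →L[ℂ] H) (hne : (Wset A).Nonempty) (θ θ' : ℝ) :
    suppF A θ ≤ suppF A θ' + (2 * ‖A‖) * |θ - θ'| := by
  apply suppF_le A hne
  intro z hz
  have h1 := reRot_sub_le θ θ' z
  have h2 := le_suppF A θ' hz
  have h3 := norm_W_le A hz
  have h4 : 2 * ‖z‖ * |θ - θ'| ≤ 2 * ‖A‖ * |θ - θ'| := by gcongr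
  linarith

lemma suppF_add (A : H →L[ℂ] H) (θ : ℝ) : suppF A (θ + 2 * π) = suppF A θ := by
  unfold suppF
  congr 1
  ext r
  constructor <;>
  · rintro ⟨z, hz, rfl⟩
    refine ⟨z, hz, ?_⟩
    simp [reRot_eq, Real.cos_add_two_pi, Real.sin_add_two_pi]

lemma suppF_second_diff (A : H →L[ℂ] H) (hne : (Wset A).Nonempty) (θ a : ℝ) (ha : |a| < 1) :
    2 * Real.cos a * suppF A θ ≤ suppF A (θ + a) + suppF A (θ - a) := by
  have hcos : 0 < Real.cos a := by
    apply Real.cos_pos_of_mem_Ioo
    have := abs_lt.mp ha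
    constructor <;> linarith [Real.pi_gt_three, this.1, this.2]
  have h1 : suppF A θ ≤ (suppF A (θ + a) + suppF A (θ - a)) / (2 * Real.cos a) := by
    apply suppF_le A hne
    intro z hz
    rw [le_div_iff₀ (by positivity)]
    have h2 := le_suppF A (θ + a) hz
    have h3 := le_suppF A (θ - a) hz
    have h4 : reRot θ z * (2 * Real.cos a) = reRot (θ + a) z + reRot (θ - a) z := by
      simp only [reRot_eq, Real.cos_add, Real.cos_sub, Real.sin_add, Real.sin_sub]
      ring
    linarith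
  rw [le_div_iff₀ (by positivity)] at h1
  linarith

lemma suppF_nonneg (A : H →L[ℂ] H) (h0 : (0 : ℂ) ∈ Wset A) (θ : ℝ) : 0 ≤ suppF A θ := by
  have := le_suppF A θ h0
  simpa [reRot] using this

/-- An element of the numerical range scaled. -/
lemma reRot_inner_le (A : H →L[ℂ] H) (θ : ℝ) (x : H) :
    reRot θ (inner ℂ x (A x)) ≤ suppF A θ * ‖x‖ ^ 2 ∨ x = 0 := by
  by_cases hx : x = 0
  · exact Or.inr hx
  left
  have hn : 0 < ‖x‖ := norm_pos_iff.mpr hx
  set u : H := ((‖x‖⁻¹ : ℝ) : ℂ) • x with hu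
  have hun : ‖u‖ = 1 := by
    rw [hu, norm_smul, Complex.norm_real, Real.norm_eq_abs, abs_of_pos (by positivity)]
    field_simp
  have hxu : x = ((‖x‖ : ℝ) : ℂ) • u := by
    rw [hu, smul_smul]
    have : ((‖x‖ : ℝ) : ℂ) * ((‖x‖⁻¹ : ℝ) : ℂ) = 1 := by
      have hc : ((‖x‖ : ℝ) : ℂ) ≠ 0 := by exact_mod_cast hn.ne'
      push_cast
      field_simp
    rw [this, one_smul]
  have h1 : (inner ℂ x (A x) : ℂ) = ((‖x‖ ^ 2 : ℝ) : ℂ) * inner ℂ u (A u) := by
    conv_lhs => rw [hxu]
    rw [map_smul, inner_smul_left, inner_smul_right, Complex.conj_ofReal]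
    push_cast
    ring
  have h2 : reRot θ (inner ℂ x (A x)) = ‖x‖ ^ 2 * reRot θ (inner ℂ u (A u)) := by
    rw [h1, reRot_eq, reRot_eq, Complex.re_ofReal_mul, Complex.im_ofReal_mul]
    ring
  rw [h2, mul_comm]
  have h3 := le_suppF A θ (z := inner ℂ u (A u)) ⟨u, hun, rfl⟩
  gcongr

variable [CompleteSpace H]

/-- For an operator with `0` in its numerical range and `ε > 0` there is a smooth convex curve
around its numerical range within distance `ε` of the numerical range. -/
theorem exists_curve (A : H →L[ℂ] H) (x₀ : H) (hx₀ : ‖x₀‖ = 1) (h0 : inner ℂ x₀ (A x₀) = (0 : ℂ))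
    (ε : ℝ) (hε : 0 < ε) :
    ∃ (C : Curve) (c : ℝ), Inside C A c ∧
      ∀ t : ℝ, ∃ x : H, ‖x‖ = 1 ∧ ‖C.γ t - inner ℂ x (A x)‖ ≤ ε := by
  have h0W : (0 : ℂ) ∈ Wset A := ⟨x₀, hx₀, h0.symm⟩
  have hne : (Wset A).Nonempty := ⟨0, h0W⟩
  set ε₀ := ε / 3 with hε₀
  have hε₀p : 0 < ε₀ := by positivity
  obtain ⟨m, m', m'', h1, h2, hc, hp0, hp1, hp2, happ, hpos⟩ :=
    exists_mollified (suppF A) (2 * ‖A‖) (by positivity) (suppF_lip A hne) (suppF_add A)
      (suppF_second_diff A hne) (ε₀ / 2) (by positivity)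
  have hmc : Continuous m := continuous_iff_continuousAt.mpr fun t => (h1 t).continuousAt
  set r : ℝ → ℝ := fun t => m t + m'' t + ε₀ with hr
  have hrc : Continuous r := (hmc.add hc).add continuous_const
  have hrper : Function.Periodic r (2 * π) := by
    intro t
    simp only [hr, hp0, hp2]
  obtain ⟨t₀, -, ht₀⟩ := isCompact_Icc.exists_isMaxOn
    (Set.nonempty_Icc.mpr (by positivity : (0 : ℝ) ≤ 2 * π))
    (hrc.continuousOn (s := Set.Icc (0 : ℝ) (2 * π)))
  have hrup : ∀ t, r t ≤ r t₀ := by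
    intro t
    obtain ⟨y, hy, hys⟩ := hrper.exists_mem_Ico₀ (by positivity) t
    rw [hys]
    exact ht₀ ⟨hy.1, hy.2.le⟩
  have hmlow : ∀ t, suppF A t - ε₀ / 2 ≤ m t := fun t => by
    have := (abs_le.mp (happ t)).1
    linarith
  have hmup : ∀ t, m t ≤ suppF A t + ε₀ / 2 := fun t => by
    have := (abs_le.mp (happ t)).2
    linarith
  let C : Curve :=
    { h := fun t => m t + ε₀
      h' := m'
      r := r
      r₀ := ε₀
      R₁ := r t₀
      h₀ := ε₀ / 2
      r₀_pos := hε₀p
      h₀_pos := by positivity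
      hasDeriv_h := fun t => (h1 t).add_const _
      hasDeriv_h' := fun t => by
        refine (h2 t).congr_deriv ?_
        simp only [hr]
        ring
      per_h := fun t => by simp only [hp0]
      per_h' := hp1
      per_r := hrper
      r_cont := hrc
      r_lower := fun t => by
        simp only [hr]
        linarith [hpos t]
      r_upper := hrup
      h_lower := fun t => by
        have h3 := hmlow t
        have h4 := suppF_nonneg A h0W t
        linarith }
  refine ⟨C, ε₀ / 2, ⟨by positivity, le_rfl, ?_⟩, ?_⟩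
  · intro t x
    have h3 : C.h t = m t + ε₀ := rfl
    rw [h3]
    rcases reRot_inner_le A t x with h4 | h4
    · have h5 : reRot t (inner ℂ x (A x)) = (Complex.exp (-(t * I)) * inner ℂ x (A x)).re := rfl
      rw [← h5]
      refine le_trans h4 ?_
      have h6 := hmlow t
      have h7 : suppF A t ≤ m t + ε₀ - ε₀ / 2 := by linarith
      gcongr
    · simp [h4]
  · intro t
    -- nearest point in the closure of the numerical range
    have hconv : Convex ℝ (closure (Wset A)) := (numerical_range_convex A).closure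
    have hcomp : IsComplete (closure (Wset A)) := isClosed_closure.isComplete
    obtain ⟨q, hq, hqmin⟩ := exists_norm_eq_iInf_of_complete_convex
      (hne.closure) hcomp hconv (C.γ t)
    have hqin := (norm_eq_iInf_iff_real_inner_le_zero hconv hq).mp hqmin
    set d := ‖C.γ t - q‖ with hd
    have hdle : d ≤ ε / 2 := by
      rcases eq_or_ne d 0 with hd0 | hd0
      · rw [hd0]; positivity
      have hdp : 0 < d := lt_of_le_of_ne (norm_nonneg _) (Ne.symm hd0)
      set θ := Complex.arg (C.γ t - q) with hθ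
      have hpolar : (d : ℂ) * Complex.exp (θ * I) = C.γ t - q := Complex.norm_mul_exp_arg_mul_I _
      have hrotd : reRot θ (C.γ t - q) = d := by
        unfold reRot
        rw [← hpolar]
        have : Complex.exp (-(θ * I)) * ((d : ℂ) * Complex.exp (θ * I)) = (d : ℂ) := by
          have h5 := Curve.exp_neg_mul_exp θ
          linear_combination (d : ℂ) * h5
        rw [this, Complex.ofReal_re]
      have hWq : ∀ z ∈ Wset A, reRot θ z ≤ reRot θ q := by
        intro z hz
        have h5 := hqin z (subset_closure hz)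
        rw [Complex.inner] at h5
        have h6 : (starRingEnd ℂ) (C.γ t - q) = (d : ℂ) * Complex.exp (-(θ * I)) := by
          rw [← hpolar, map_mul, Complex.conj_ofReal, ← Complex.exp_conj]
          simp
        rw [h6, mul_comm] at h5
        have h7 : ((d : ℂ) * Complex.exp (-(θ * I)) * (z - q)).re
            = d * (reRot θ z - reRot θ q) := by
          unfold reRot
          rw [mul_assoc, Complex.re_ofReal_mul, mul_sub, Complex.sub_re]
        rw [h7] at h5
        have h8 : reRot θ z - reRot θ q ≤ 0 := by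
          by_contra hcon
          push Not at hcon
          have := mul_pos hdp hcon
          linarith
        linarith
      have h5 : suppF A θ ≤ reRot θ q := suppF_le A hne θ _ hWq
      have h6 : reRot θ (C.γ t) ≤ m θ + ε₀ := C.support t θ
      have h7 : reRot θ (C.γ t - q) = reRot θ (C.γ t) - reRot θ q := by
        unfold reRot
        rw [mul_sub, Complex.sub_re]
      have h8 := hmup θ
      have h9 : d ≤ ε₀ / 2 + ε₀ := by
        rw [← hrotd, h7]
        linarith
      rw [hε₀] at h9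
      linarith
    obtain ⟨w, hw, hqw⟩ := Metric.mem_closure_iff.mp hq (ε / 2) (by positivity)
    obtain ⟨x, hx, rfl⟩ := hw
    refine ⟨x, hx, ?_⟩
    rw [dist_eq_norm] at hqw
    calc ‖C.γ t - inner ℂ x (A x)‖ ≤ ‖C.γ t - q‖ + ‖q - inner ℂ x (A x)‖ :=
          norm_sub_le_norm_sub_add_norm_sub _ _ _
      _ ≤ ε := by linarith

/-- The main theorem for operators with zero in their numerical range. -/
theorem bound_of_zero_mem (A : H →L[ℂ] H) (x₀ : H) (hx₀ : ‖x₀‖ = 1)
    (h0 : inner ℂ x₀ (A x₀) = (0 : ℂ)) (P : ℂ[X]) (M : ℝ)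
    (hW : ∀ x : H, ‖x‖ = 1 → ‖P.eval (inner ℂ x (A x))‖ ≤ M) :
    ‖aeval A P‖ ≤ (233 / 100 : ℝ) * M := by
  have hM0 : 0 ≤ M := le_trans (norm_nonneg _) (hW x₀ hx₀)
  have key : ∀ ε > 0, ‖aeval A P‖ ≤ (233 / 100 : ℝ) * (M + ε) := by
    intro ε hε
    set B : Set ℂ := Metric.closedBall 0 (‖A‖ + 1) with hB
    have hBc : IsCompact B := isCompact_closedBall _ _
    have hPc : Continuous fun z => P.eval z := P.continuous
    have hunif := hBc.uniformContinuousOn_of_continuous hPc.continuousOn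
    obtain ⟨ε₁, hε₁, hδ⟩ := Metric.uniformContinuousOn_iff.mp hunif ε hε
    set ε₂ := min 1 (ε₁ / 2) with hε₂
    have hε₂p : 0 < ε₂ := lt_min one_pos (by positivity)
    obtain ⟨C, c, hin, hnear⟩ := exists_curve A x₀ hx₀ h0 ε₂ hε₂p
    apply curve_bound hin P (M + ε) (by positivity)
    intro t
    obtain ⟨x, hx, hxt⟩ := hnear t
    have hwn : ‖(inner ℂ x (A x) : ℂ)‖ ≤ ‖A‖ := norm_W_le A ⟨x, hx, rfl⟩
    have hγB : C.γ t ∈ B := by
      rw [hB, Metric.mem_closedBall, dist_zero_right]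
      have h1 : ‖C.γ t‖ ≤ ‖C.γ t - inner ℂ x (A x)‖ + ‖(inner ℂ x (A x) : ℂ)‖ := by
        have := norm_add_le (C.γ t - inner ℂ x (A x)) (inner ℂ x (A x))
        rwa [sub_add_cancel] at this
      have h2 : ε₂ ≤ 1 := min_le_left _ _
      linarith
    have hwB : (inner ℂ x (A x) : ℂ) ∈ B := by
      rw [hB, Metric.mem_closedBall, dist_zero_right]
      linarith
    have hdist : dist (C.γ t) (inner ℂ x (A x)) < ε₁ := by
      rw [dist_eq_norm]
      have h2 : ε₂ ≤ ε₁ / 2 := min_le_right _ _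
      linarith
    have h3 := hδ _ hγB _ hwB hdist
    rw [dist_eq_norm] at h3
    have h4 := hW x hx
    have h5 : ‖P.eval (C.γ t)‖ ≤ ‖P.eval (C.γ t) - P.eval (inner ℂ x (A x))‖
        + ‖P.eval (inner ℂ x (A x))‖ := by
      have := norm_add_le (P.eval (C.γ t) - P.eval (inner ℂ x (A x))) (P.eval (inner ℂ x (A x)))
      rwa [sub_add_cancel] at this
    linarith
  have h1 : ‖aeval A P‖ - (233 / 100 : ℝ) * M ≤ 0 := by
    by_contra hcon
    push Not at hcon
    set d := ‖aeval A P‖ - (233 / 100 : ℝ) * M with hd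
    have h2 := key (d / 3) (by positivity)
    have h3 : (233 / 100 : ℝ) * (M + d / 3) = (233 / 100 : ℝ) * M + (233 / 300) * d := by ring
    rw [h3] at h2
    nlinarith
  linarith

/-- The main theorem. -/
theorem main_bound (A : H →L[ℂ] H) (P : ℂ[X]) (M : ℝ) (hM0 : 0 ≤ M)
    (hW : ∀ x : H, ‖x‖ = 1 → ‖P.eval (inner ℂ x (A x))‖ ≤ M) :
    ‖aeval A P‖ ≤ (233 / 100 : ℝ) * M := by
  by_cases htriv : ∃ x₀ : H, ‖x₀‖ = 1
  · obtain ⟨x₀, hx₀⟩ := htriv
    set a : ℂ := inner ℂ x₀ (A x₀) with ha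
    set A' : H →L[ℂ] H := A - a • (1 : H →L[ℂ] H) with hA'
    set P' : ℂ[X] := P.comp (Polynomial.X + Polynomial.C a) with hP'
    have hin : ∀ x : H, ‖x‖ = 1 → (inner ℂ x (A' x) : ℂ) = inner ℂ x (A x) - a := by
      intro x hx
      simp only [hA', ContinuousLinearMap.sub_apply, ContinuousLinearMap.smul_apply,
        ContinuousLinearMap.one_apply, inner_sub_right, inner_smul_right,
        inner_self_eq_norm_sq_to_K, hx]
      simp
    have h1 : aeval A' P' = aeval A P := by
      rw [hP', Polynomial.aeval_comp]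
      congr 2
      simp only [map_add, Polynomial.aeval_X, Polynomial.aeval_C, hA', Algebra.algebraMap_eq_smul_one]
      abel
    rw [← h1]
    apply bound_of_zero_mem A' x₀ hx₀ (by rw [hin x₀ hx₀, ← ha, sub_self]) P' M
    intro x hx
    rw [hin x hx, hP', Polynomial.eval_comp]
    simp only [Polynomial.eval_add, Polynomial.eval_X, Polynomial.eval_C, sub_add_cancel]
    exact hW x hx
  · -- the trivial space
    push Not at htriv
    have hsub : Subsingleton H := by
      refine ⟨fun a b => ?_⟩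
      have key : ∀ x : H, x = 0 := by
        intro x
        by_contra hx
        have hn : 0 < ‖x‖ := norm_pos_iff.mpr hx
        apply htriv (((‖x‖⁻¹ : ℝ) : ℂ) • x)
        rw [norm_smul, Complex.norm_real, Real.norm_eq_abs, abs_of_pos (by positivity)]
        field_simp
      rw [key a, key b]
    have h1 : aeval A P = 0 := by
      ext x
      exact Subsingleton.elim _ _
    rw [h1, norm_zero]
    positivity

end Vale.Agent.helper3.CP
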